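import Vale.Agent.Lib.P012.Defs

/-!
# P012 module M3: greedy choice of the primes of a block.
-/

namespace P012

open Finset

/-- few primes of the pool divide a difference -/
theorem card_primes_dvd_le (PP : Finset ℕ) (Y H lam : ℕ)
    (hprime : ∀ p ∈ PP, p.Prime ∧ Y < p) (hlam : H ≤ Y ^ lam)
    {x y : ℕ} (hx : x < H) (hy : y < H) (hxy : x ≠ y) :
    (PP.filter fun p => x ≡ y [MOD p]).card ≤ lam := by
  classical
  set S := PP.filter fun p => x ≡ y [MOD p] with hS
  set Δ : ℕ := ((y : ℤ) - (x : ℤ)).natAbs with hΔ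
  have hΔ0 : 0 < Δ := by omega
  have hΔH : Δ < H := by omega
  have hdvd : ∏ p ∈ S, p ∣ Δ := by
    apply Finset.prod_primes_dvd
    · intro p hp
      exact (hprime p (Finset.mem_filter.1 hp).1).1.prime
    · intro p hp
      have := (Nat.modEq_iff_dvd.1 (Finset.mem_filter.1 hp).2)
      exact Int.natCast_dvd.1 this
  have h1 : Y ^ S.card ≤ ∏ p ∈ S, p :=
    Finset.pow_card_le_prod _ _ _ (fun p hp => (hprime p (Finset.mem_filter.1 hp).1).2.le)
  have h2 : ∏ p ∈ S, p ≤ Δ := Nat.le_of_dvd hΔ0 hdvd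
  have h3 : Y ^ S.card < Y ^ lam := by omega
  by_cases hY : 1 < Y
  · exact ((Nat.pow_lt_pow_iff_right hY).1 h3).le
  · exfalso
    have : Y ^ lam ≤ 1 := by
      have hY1 : Y ≤ 1 := by omega
      calc Y ^ lam ≤ 1 ^ lam := Nat.pow_le_pow_left hY1 _
        _ = 1 := one_pow _
    omega

/-- double counting -/
theorem sum_Es_le (PP Q : Finset ℕ) (Y H lam : ℕ)
    (hprime : ∀ p ∈ PP, p.Prime ∧ Y < p) (hlam : H ≤ Y ^ lam) (hQ : Q ⊆ PP)
    (X : Finset ℕ) (hH : ∀ a ∈ X, a < H) (d : ℕ) :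
    ∑ p ∈ Q, Es X (p * d) ≤ lam * Es X d := by
  classical
  set F := (X ×ˢ X).filter fun p => p.1 ≠ p.2 ∧ p.1 ≡ p.2 [MOD d] with hF
  have h1 : ∀ p ∈ Q, Es X (p * d) ≤ ∑ w ∈ F, if w.1 ≡ w.2 [MOD p] then 1 else 0 := by
    intro p _
    rw [← Finset.card_filter]
    unfold Es
    apply Finset.card_le_card
    intro w hw
    rw [Finset.mem_filter] at hw
    rw [Finset.mem_filter, hF, Finset.mem_filter]
    exact ⟨⟨hw.1, hw.2.1, Nat.ModEq.of_mul_left p hw.2.2⟩, Nat.ModEq.of_mul_right d hw.2.2⟩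
  calc ∑ p ∈ Q, Es X (p * d) ≤ ∑ p ∈ Q, ∑ w ∈ F, if w.1 ≡ w.2 [MOD p] then 1 else 0 :=
        Finset.sum_le_sum h1
    _ = ∑ w ∈ F, ∑ p ∈ Q, if w.1 ≡ w.2 [MOD p] then 1 else 0 := Finset.sum_comm
    _ ≤ ∑ _w ∈ F, lam := by
        apply Finset.sum_le_sum
        intro w hw
        rw [← Finset.card_filter]
        rw [hF, Finset.mem_filter, Finset.mem_product] at hw
        refine le_trans (Finset.card_le_card ?_)
          (card_primes_dvd_le PP Y H lam hprime hlam (hH _ hw.1.1) (hH _ hw.1.2) hw.2.1)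
        exact Finset.filter_subset_filter _ hQ
    _ = lam * Es X d := by
        rw [Finset.sum_const, smul_eq_mul, mul_comm]
        rfl

/-- one term of the potential -/
noncomputable def tau (M : ℕ) (X U : Finset ℕ) : ℝ :=
  (Es X (∏ p ∈ U, p) : ℝ) * (∏ p ∈ U, (p : ℝ)) / (((X.card : ℝ)) ^ 2 * (M : ℝ) ^ U.card)

theorem tau_nonneg (M : ℕ) (X U : Finset ℕ) : 0 ≤ tau M X U := by
  unfold tau
  apply div_nonneg
  · apply mul_nonneg (Nat.cast_nonneg _)
    exact Finset.prod_nonneg (fun p _ => Nat.cast_nonneg p)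
  · positivity

theorem sum_tau_insert_le (PP Q : Finset ℕ) (Y Z H lam M : ℕ)
    (hprime : ∀ p ∈ PP, p.Prime ∧ Y < p ∧ p ≤ Z) (hlam : H ≤ Y ^ lam) (hQ : Q ⊆ PP)
    (hM0 : 0 < M)
    (X : Finset ℕ) (hH : ∀ a ∈ X, a < H) (U : Finset ℕ) (hU : ∀ p ∈ Q, p ∉ U) :
    ∑ p ∈ Q, tau M X (insert p U) ≤ ((lam : ℝ) * Z / M) * tau M X U := by
  classical
  set c : ℝ := (Z : ℝ) * (∏ p ∈ U, (p : ℝ)) / (((X.card : ℝ)) ^ 2 * (M : ℝ) ^ (U.card + 1)) with hc
  have hprod0 : (0 : ℝ) ≤ ∏ p ∈ U, (p : ℝ) := Finset.prod_nonneg (fun p _ => Nat.cast_nonneg p)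
  have hc0 : 0 ≤ c := by
    rw [hc]; apply div_nonneg
    · exact mul_nonneg (Nat.cast_nonneg _) hprod0
    · positivity
  have h1 : ∀ p ∈ Q, tau M X (insert p U) ≤ (Es X (p * ∏ r ∈ U, r) : ℝ) * c := by
    intro p hp
    unfold tau
    rw [Finset.prod_insert (hU p hp), Finset.prod_insert (hU p hp),
      Finset.card_insert_of_notMem (hU p hp), hc, ← mul_div_assoc]
    apply div_le_div_of_nonneg_right _ (by positivity)
    apply mul_le_mul_of_nonneg_left _ (Nat.cast_nonneg _)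
    apply mul_le_mul_of_nonneg_right _ hprod0
    exact_mod_cast (hprime p (hQ hp)).2.2
  have h2 : (∑ p ∈ Q, (Es X (p * ∏ r ∈ U, r) : ℝ)) ≤ (lam : ℝ) * Es X (∏ r ∈ U, r) := by
    have := sum_Es_le PP Q Y H lam (fun p hp => ⟨(hprime p hp).1, (hprime p hp).2.1⟩) hlam hQ X hH
      (∏ r ∈ U, r)
    exact_mod_cast this
  calc ∑ p ∈ Q, tau M X (insert p U) ≤ ∑ p ∈ Q, (Es X (p * ∏ r ∈ U, r) : ℝ) * c :=
        Finset.sum_le_sum h1
    _ = (∑ p ∈ Q, (Es X (p * ∏ r ∈ U, r) : ℝ)) * c := by rw [Finset.sum_mul]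
    _ ≤ ((lam : ℝ) * Es X (∏ r ∈ U, r)) * c := mul_le_mul_of_nonneg_right h2 hc0
    _ = ((lam : ℝ) * Z / M) * tau M X U := by
        unfold tau
        rw [hc]
        have hM' : (M : ℝ) ≠ 0 := by exact_mod_cast hM0.ne'
        by_cases hK : (X.card : ℝ) = 0
        · simp [hK]
        · field_simp
          ring

/-- the potential -/
noncomputable def Phi {ι : Type*} [Fintype ι] (M : ℕ) (X : ι → Finset ℕ) (T : Finset ℕ) : ℝ :=
  ∑ i, ∑ U ∈ T.powerset, tau M (X i) U

theorem Phi_nonneg {ι : Type*} [Fintype ι] (M : ℕ) (X : ι → Finset ℕ) (T : Finset ℕ) :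
    0 ≤ Phi M X T :=
  Finset.sum_nonneg fun _ _ => Finset.sum_nonneg fun _ _ => tau_nonneg _ _ _

theorem Es_le_sq (X : Finset ℕ) (d : ℕ) : Es X d ≤ X.card ^ 2 := by
  unfold Es
  calc _ ≤ (X ×ˢ X).card := Finset.card_filter_le _ _
    _ = X.card ^ 2 := by rw [Finset.card_product, sq]

theorem Phi_empty {ι : Type*} [Fintype ι] (M : ℕ) (X : ι → Finset ℕ) :
    Phi M X ∅ ≤ Fintype.card ι := by
  unfold Phi
  calc ∑ i, ∑ U ∈ (∅ : Finset ℕ).powerset, tau M (X i) U ≤ ∑ _i : ι, (1 : ℝ) := by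
        apply Finset.sum_le_sum
        intro i _
        simp only [Finset.powerset_empty, Finset.sum_singleton]
        unfold tau
        simp only [Finset.prod_empty, mul_one, Finset.card_empty, pow_zero]
        apply div_le_one_of_le₀ _ (by positivity)
        exact_mod_cast Es_le_sq (X i) 1
    _ = Fintype.card ι := by simp

theorem Phi_step {ι : Type*} [Fintype ι] (X : ι → Finset ℕ) (PP : Finset ℕ)
    (Y Z H lam M : ℕ)
    (hprime : ∀ p ∈ PP, p.Prime ∧ Y < p ∧ p ≤ Z)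
    (hH : ∀ i, ∀ a ∈ X i, a < H) (hlam : H ≤ Y ^ lam) (hM0 : 0 < M)
    (T : Finset ℕ) (hne : (PP \ T).Nonempty) :
    ∃ p ∈ PP \ T, Phi M X (insert p T)
      ≤ (1 + (lam : ℝ) * Z / M / ((PP \ T).card : ℝ)) * Phi M X T := by
  classical
  set Q := PP \ T with hQ
  have hQsub : Q ⊆ PP := Finset.sdiff_subset
  have hQT : ∀ p ∈ Q, p ∉ T := fun p hp => (Finset.mem_sdiff.1 hp).2
  have hcardpos : (0 : ℝ) < (Q.card : ℝ) := by exact_mod_cast Finset.card_pos.2 hne
  have hexp : ∀ p ∈ Q, Phi M X (insert p T)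
      = Phi M X T + ∑ i, ∑ U ∈ T.powerset, tau M (X i) (insert p U) := by
    intro p hp
    unfold Phi
    rw [← Finset.sum_add_distrib]
    apply Finset.sum_congr rfl
    intro i _
    rw [Finset.sum_powerset_insert (hQT p hp)]
  have hsum : ∑ p ∈ Q, ∑ i, ∑ U ∈ T.powerset, tau M (X i) (insert p U)
      ≤ ((lam : ℝ) * Z / M) * Phi M X T := by
    rw [Finset.sum_comm]
    unfold Phi
    rw [Finset.mul_sum]
    apply Finset.sum_le_sum
    intro i _
    rw [Finset.sum_comm, Finset.mul_sum]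
    apply Finset.sum_le_sum
    intro U hU
    apply sum_tau_insert_le PP Q Y Z H lam M hprime hlam hQsub hM0 (X i) (hH i) U
    intro p hp hpU
    exact hQT p hp (Finset.mem_powerset.1 hU hpU)
  obtain ⟨p, hp, hle⟩ := Finset.exists_le_of_sum_le hne
    (f := fun p => ∑ i, ∑ U ∈ T.powerset, tau M (X i) (insert p U))
    (g := fun _ => ((lam : ℝ) * Z / M) * Phi M X T / (Q.card : ℝ))
    (by
      rw [Finset.sum_const, nsmul_eq_mul]
      rw [mul_div_cancel₀ _ hcardpos.ne']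
      exact hsum)
  refine ⟨p, hp, ?_⟩
  rw [hexp p hp]
  have : (1 + (lam : ℝ) * Z / M / (Q.card : ℝ)) * Phi M X T
      = Phi M X T + ((lam : ℝ) * Z / M) * Phi M X T / (Q.card : ℝ) := by ring
  rw [this]
  linarith

theorem one_add_inv_pow_le (n m : ℕ) (hn : 0 < n) (hm : m ≤ n) :
    (1 + 1 / (n : ℝ)) ^ m ≤ 3 := by
  have hn' : (0 : ℝ) < n := by exact_mod_cast hn
  have h1 : (1 + 1 / (n : ℝ)) ≤ Real.exp (1 / n) := by
    have := Real.add_one_le_exp (1 / (n : ℝ))
    linarith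
  have h0 : (1 : ℝ) ≤ 1 + 1 / (n : ℝ) := by
    have : 0 ≤ 1 / (n : ℝ) := by positivity
    linarith
  calc (1 + 1 / (n : ℝ)) ^ m ≤ (1 + 1 / (n : ℝ)) ^ n := pow_le_pow_right₀ h0 hm
    _ ≤ (Real.exp (1 / n)) ^ n := pow_le_pow_left₀ (by positivity) h1 n
    _ = Real.exp 1 := by
        rw [← Real.exp_nat_mul]
        congr 1
        field_simp
    _ ≤ 3 := by
        have := Real.exp_one_lt_d9
        linarith

theorem exists_block_potential {ι : Type*} [Fintype ι] (X : ι → Finset ℕ) (PP : Finset ℕ)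
    (Y Z H lam M n : ℕ)
    (hprime : ∀ p ∈ PP, p.Prime ∧ Y < p ∧ p ≤ Z)
    (hH : ∀ i, ∀ a ∈ X i, a < H) (hlam : H ≤ Y ^ lam)
    (hcard : 2 * n ≤ PP.card) (hM : 2 * n * lam * Z ≤ M * PP.card) (hM0 : 0 < M) :
    ∃ T ⊆ PP, T.card = n ∧ ∀ i, ∀ U ⊆ T,
      (Es (X i) (∏ p ∈ U, p) : ℝ) * (∏ p ∈ U, (p : ℝ))
        ≤ 3 * Fintype.card ι * ((X i).card : ℝ) ^ 2 * (M : ℝ) ^ U.card := by
  classical
  have key : ∃ T ⊆ PP, T.card = n ∧ Phi M X T ≤ 3 * Fintype.card ι := by
    rcases Nat.eq_zero_or_pos n with rfl | hn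
    · refine ⟨∅, by simp, rfl, ?_⟩
      have := Phi_empty M X
      have h0 : (0 : ℝ) ≤ Fintype.card ι := Nat.cast_nonneg _
      linarith
    · have ind : ∀ m, m ≤ n → ∃ T ⊆ PP, T.card = m ∧
          Phi M X T ≤ (1 + 1 / (n : ℝ)) ^ m * Fintype.card ι := by
        intro m
        induction m with
        | zero =>
          intro _
          exact ⟨∅, by simp, rfl, by simpa using Phi_empty M X⟩
        | succ m ih =>
          intro hm
          obtain ⟨T, hT, hTc, hPhi⟩ := ih (by omega)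
          have hQc : (PP \ T).card = PP.card - m := by
            rw [Finset.card_sdiff_of_subset hT, hTc]
          have hne : (PP \ T).Nonempty := by
            rw [← Finset.card_pos]; omega
          obtain ⟨p, hp, hle⟩ := Phi_step X PP Y Z H lam M hprime hH hlam hM0 T hne
          refine ⟨insert p T, ?_, ?_, ?_⟩
          · intro r hr
            rcases Finset.mem_insert.1 hr with rfl | hr
            · exact (Finset.mem_sdiff.1 hp).1
            · exact hT hr
          · rw [Finset.card_insert_of_notMem (Finset.mem_sdiff.1 hp).2, hTc]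
          · have hn' : (0 : ℝ) < n := by exact_mod_cast hn
            have hM' : (0 : ℝ) < M := by exact_mod_cast hM0
            have hQpos : (0 : ℝ) < ((PP \ T).card : ℝ) := by exact_mod_cast Finset.card_pos.2 hne
            have hfac : (lam : ℝ) * Z / M / ((PP \ T).card : ℝ) ≤ 1 / n := by
              rw [div_div, div_le_div_iff₀ (by positivity) hn']
              have h2 : PP.card ≤ 2 * (PP \ T).card := by omega
              have h3 : 2 * n * lam * Z ≤ M * (2 * (PP \ T).card) :=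
                le_trans hM (Nat.mul_le_mul_left _ h2)
              have h4 : (2 * (n : ℝ) * lam * Z) ≤ M * (2 * ((PP \ T).card : ℝ)) := by
                exact_mod_cast h3
              linarith
            calc Phi M X (insert p T)
                ≤ (1 + (lam : ℝ) * Z / M / ((PP \ T).card : ℝ)) * Phi M X T := hle
              _ ≤ (1 + 1 / (n : ℝ)) * Phi M X T :=
                  mul_le_mul_of_nonneg_right (by linarith) (Phi_nonneg _ _ _)
              _ ≤ (1 + 1 / (n : ℝ)) * ((1 + 1 / (n : ℝ)) ^ m * Fintype.card ι) :=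
                  mul_le_mul_of_nonneg_left hPhi (by positivity)
              _ = (1 + 1 / (n : ℝ)) ^ (m + 1) * Fintype.card ι := by ring
      obtain ⟨T, hT, hTc, hPhi⟩ := ind n le_rfl
      refine ⟨T, hT, hTc, le_trans hPhi ?_⟩
      exact mul_le_mul_of_nonneg_right (one_add_inv_pow_le n n hn le_rfl) (Nat.cast_nonneg _)
  obtain ⟨T, hT, hTc, hPhi⟩ := key
  refine ⟨T, hT, hTc, ?_⟩
  intro i U hU
  have h1 : tau M (X i) U ≤ Phi M X T := by
    unfold Phi
    calc tau M (X i) U ≤ ∑ U ∈ T.powerset, tau M (X i) U :=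
          Finset.single_le_sum (f := fun U => tau M (X i) U) (fun _ _ => tau_nonneg _ _ _)
            (Finset.mem_powerset.2 hU)
      _ ≤ ∑ i, ∑ U ∈ T.powerset, tau M (X i) U :=
          Finset.single_le_sum (f := fun i => ∑ U ∈ T.powerset, tau M (X i) U)
            (fun _ _ => Finset.sum_nonneg fun _ _ => tau_nonneg _ _ _) (Finset.mem_univ i)
  have h2 : tau M (X i) U ≤ 3 * Fintype.card ι := le_trans h1 hPhi
  by_cases hK : (X i).card = 0
  · have : Es (X i) (∏ p ∈ U, p) = 0 := by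
      have := Es_le_sq (X i) (∏ p ∈ U, p)
      rw [hK] at this
      simpa using this
    rw [this, hK]; simp
  · have hKpos : (0 : ℝ) < ((X i).card : ℝ) := by exact_mod_cast Nat.pos_of_ne_zero hK
    have hM' : (0 : ℝ) < M := by exact_mod_cast hM0
    unfold tau at h2
    rw [div_le_iff₀ (by positivity)] at h2
    linarith

end P012
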