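import Vale.Agent.Lib.P012.Bilinear
import Vale.Agent.Lib.P012.Potential

/-!
# P012 module M4: the covering lemma (a block of `n` primes killed by four products).
-/

namespace P012

open Finset

theorem En_eq (X : Finset ℕ) (d : ℕ) : En X d = X.card + Es X d := by
  classical
  unfold En Es
  rw [← Finset.card_filter_add_card_filter_not (s := (X ×ˢ X).filter fun p => p.1 ≡ p.2 [MOD d])
    (fun p => p.1 = p.2)]
  congr 1
  · rw [← Finset.diag_card X]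
    congr 1
    ext ⟨x, y⟩
    simp only [Finset.mem_filter, Finset.mem_product, Finset.mem_diag]
    constructor
    · rintro ⟨⟨⟨hx, _⟩, _⟩, h⟩
      exact ⟨hx, h⟩
    · rintro ⟨hx, h⟩
      subst h
      exact ⟨⟨⟨hx, hx⟩, Nat.ModEq.refl _⟩, rfl⟩
  · congr 1
    ext ⟨x, y⟩
    simp only [Finset.mem_filter, Finset.mem_product]
    tauto

/-- the set of primes of `T` not dividing `ξ` -/
def supp {q : ℕ} (T : Finset ℕ) (ξ : ZMod q) : Finset ℕ := T.filter fun p => ¬ p ∣ ξ.val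

theorem supp_subset {q : ℕ} (T : Finset ℕ) (ξ : ZMod q) : supp T ξ ⊆ T := Finset.filter_subset _ _

theorem supp_h1 {q : ℕ} [NeZero q] (T : Finset ℕ) (hT : ∀ p ∈ T, p.Prime) (hq : q = ∏ p ∈ T, p)
    (ξ : ZMod q) : ξ * ((∏ p ∈ supp T ξ, p : ℕ) : ZMod q) = 0 := by
  have h : q ∣ ξ.val * ∏ p ∈ supp T ξ, p := by
    have h0 : ∏ p ∈ T, p ∣ ξ.val * ∏ p ∈ supp T ξ, p := ?_
    · exact hq ▸ h0
    apply Finset.prod_primes_dvd
    · intro p hp; exact (hT p hp).prime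
    · intro p hp
      by_cases h : p ∣ ξ.val
      · exact Dvd.dvd.mul_right h _
      · exact Dvd.dvd.mul_left (Finset.dvd_prod_of_mem _ (Finset.mem_filter.2 ⟨hp, h⟩)) _
  have := (ZMod.natCast_eq_zero_iff _ q).2 h
  rw [Nat.cast_mul, ZMod.natCast_val, ZMod.cast_id', id] at this
  exact this

theorem supp_h2 {q : ℕ} [NeZero q] (T : Finset ℕ) (hT : ∀ p ∈ T, p.Prime) (hq : q = ∏ p ∈ T, p)
    (ξ : ZMod q) (δ : ℤ) (h : ξ * (δ : ZMod q) = 0) : ((∏ p ∈ supp T ξ, p : ℕ) : ℤ) ∣ δ := by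
  have h' : ((ξ.val : ℤ) * δ : ℤ) ≡ 0 [ZMOD q] := by
    rw [← ZMod.intCast_eq_intCast_iff]
    push_cast
    rw [ZMod.natCast_val, ZMod.cast_id', id]
    exact h
  have hdvd : (q : ℤ) ∣ (ξ.val : ℤ) * δ := Int.modEq_zero_iff_dvd.1 h'
  rw [Int.natCast_dvd]
  apply Finset.prod_primes_dvd
  · intro p hp; exact (hT p (supp_subset T ξ hp)).prime
  · intro p hp
    have hpT := supp_subset T ξ hp
    have hpq : (p : ℤ) ∣ (q : ℤ) := by
      rw [hq]; exact_mod_cast Finset.dvd_prod_of_mem _ hpT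
    have h3 : (p : ℤ) ∣ (ξ.val : ℤ) * δ := hpq.trans hdvd
    have hpp : Prime (p : ℤ) := Nat.prime_iff_prime_int.1 (hT p hpT)
    rcases hpp.dvd_or_dvd h3 with h4 | h4
    · exfalso
      exact (Finset.mem_filter.1 hp).2 (by exact_mod_cast h4)
    · exact Int.natCast_dvd.1 h4

theorem supp_nonempty {q : ℕ} [NeZero q] (T : Finset ℕ) (hT : ∀ p ∈ T, p.Prime)
    (hq : q = ∏ p ∈ T, p) (ξ : ZMod q) (hξ : ξ ≠ 0) : supp T ξ ≠ ∅ := by
  intro h
  have := supp_h1 T hT hq ξ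
  rw [h] at this
  simp at this
  exact hξ this

theorem card_fiber_le {q : ℕ} [NeZero q] (T : Finset ℕ) (hT : ∀ p ∈ T, p.Prime)
    (hq : q = ∏ p ∈ T, p) (U : Finset ℕ) (hU : U ⊆ T) :
    ((Finset.univ : Finset (ZMod q)).filter fun ξ => supp T ξ = U).card ≤ ∏ p ∈ U, p := by
  classical
  set d := ∏ p ∈ U, p with hd
  set d' := ∏ p ∈ T \ U, p with hd'
  have hqd : q = d' * d := by
    rw [hq, hd, hd', Finset.prod_sdiff hU]
  have hd'pos : 0 < d' := Finset.prod_pos (fun p hp => (hT p (Finset.mem_sdiff.1 hp).1).pos)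
  have hdvd : ∀ ξ : ZMod q, supp T ξ = U → d' ∣ ξ.val := by
    intro ξ hξ
    apply Finset.prod_primes_dvd
    · intro p hp; exact (hT p (Finset.mem_sdiff.1 hp).1).prime
    · intro p hp
      by_contra hcon
      have : p ∈ supp T ξ := Finset.mem_filter.2 ⟨(Finset.mem_sdiff.1 hp).1, hcon⟩
      rw [hξ] at this
      exact (Finset.mem_sdiff.1 hp).2 this
  rw [← Finset.card_range d]
  apply Finset.card_le_card_of_injOn (fun ξ => ξ.val / d')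
  · intro ξ hξ
    have hlt : ξ.val < d' * d := by rw [← hqd]; exact ZMod.val_lt ξ
    exact Finset.mem_coe.2 (Finset.mem_range.2 (Nat.div_lt_of_lt_mul hlt))
  · intro ξ hξ η hη h
    have h1 := hdvd ξ (Finset.mem_filter.1 (Finset.mem_coe.1 hξ)).2
    have h2 := hdvd η (Finset.mem_filter.1 (Finset.mem_coe.1 hη)).2
    apply ZMod.val_injective q
    have e1 := Nat.div_mul_cancel h1
    have e2 := Nat.div_mul_cancel h2
    have h' : ξ.val / d' = η.val / d' := h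
    rw [← e1, ← e2, h']

theorem addChar_sum {G : Type*} [AddCommMonoid G] (ψ : AddChar G ℂ) {ι : Type*} (s : Finset ι)
    (f : ι → G) : ψ (∑ i ∈ s, f i) = ∏ i ∈ s, ψ (f i) := by
  classical
  induction s using Finset.induction_on with
  | empty => simp
  | insert a s ha ih => rw [Finset.sum_insert ha, Finset.prod_insert ha, AddChar.map_add_eq_mul, ih]

/-- Fourier inversion: if `x` is not represented the twisted sum vanishes -/
theorem fourier_zero {q : ℕ} [NeZero q] (A B : Fin 4 → Finset ℕ) (x : ℕ)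
    (hno : ∀ a b : Fin 4 → ℕ, (∀ i, a i ∈ A i ∧ b i ∈ B i) → ¬ (∑ i, a i * b i) ≡ x [MOD q]) :
    ∑ ξ : ZMod q, ZMod.stdAddChar (-(ξ * (x : ZMod q))) *
      ∏ i, ∑ a ∈ A i, ∑ b ∈ B i, ZMod.stdAddChar (ξ * (a : ZMod q) * (b : ZMod q)) = 0 := by
  classical
  have e : ∀ ξ : ZMod q,
      ∏ i, ∑ a ∈ A i, ∑ b ∈ B i, ZMod.stdAddChar (ξ * (a : ZMod q) * (b : ZMod q))
      = ∑ w ∈ Fintype.piFinset (fun i => A i ×ˢ B i),
          ZMod.stdAddChar (ξ * ∑ i, ((w i).1 : ZMod q) * ((w i).2 : ZMod q)) := by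
    intro ξ
    have : ∀ i, ∑ a ∈ A i, ∑ b ∈ B i, ZMod.stdAddChar (ξ * (a : ZMod q) * (b : ZMod q))
        = ∑ w ∈ A i ×ˢ B i, ZMod.stdAddChar (ξ * (w.1 : ZMod q) * (w.2 : ZMod q)) := by
      intro i
      rw [Finset.sum_product]
    simp_rw [this]
    rw [Finset.prod_univ_sum]
    apply Finset.sum_congr rfl
    intro w _
    rw [Finset.mul_sum, addChar_sum]
    apply Finset.prod_congr rfl
    intro i _
    congr 1
    ring
  simp_rw [e]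
  have e0 : ∀ ξ : ZMod q, ZMod.stdAddChar (-(ξ * (x : ZMod q))) *
      ∑ w ∈ Fintype.piFinset (fun i => A i ×ˢ B i),
          ZMod.stdAddChar (ξ * ∑ i, ((w i).1 : ZMod q) * ((w i).2 : ZMod q))
      = ∑ w ∈ Fintype.piFinset (fun i => A i ×ˢ B i), ZMod.stdAddChar (-(ξ * (x : ZMod q))) *
          ZMod.stdAddChar (ξ * ∑ i, ((w i).1 : ZMod q) * ((w i).2 : ZMod q)) := by
    intro ξ
    rw [Finset.mul_sum]
  simp_rw [e0]
  rw [Finset.sum_comm]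
  apply Finset.sum_eq_zero
  intro w hw
  have e2 : ∀ ξ : ZMod q, ZMod.stdAddChar (-(ξ * (x : ZMod q))) *
      ZMod.stdAddChar (ξ * ∑ i, ((w i).1 : ZMod q) * ((w i).2 : ZMod q))
      = ZMod.stdAddChar (ξ * ((∑ i, ((w i).1 : ZMod q) * ((w i).2 : ZMod q)) - (x : ZMod q))) := by
    intro ξ
    rw [← AddChar.map_add_eq_mul]
    congr 1
    ring
  simp_rw [e2]
  rw [AddChar.sum_mulShift _ (ZMod.isPrimitive_stdAddChar q)]
  rw [if_neg]
  · simp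
  · intro h
    rw [Fintype.mem_piFinset] at hw
    apply hno (fun i => (w i).1) (fun i => (w i).2)
      (fun i => ⟨(Finset.mem_product.1 (hw i)).1, (Finset.mem_product.1 (hw i)).2⟩)
    rw [← ZMod.natCast_eq_natCast_iff]
    push_cast
    exact sub_eq_zero.1 h

theorem prod_one_add_le (T : Finset ℕ) (Y n : ℕ) (m4 : ℝ) (hm4 : 0 ≤ m4) (hTc : T.card = n)
    (hTY : ∀ p ∈ T, Y < p) (hY : 10 ^ 6 * (n : ℝ) * m4 ≤ Y) (hY0 : 0 < Y) :
    390625 * (∏ p ∈ T, (1 + m4 / (p : ℝ)) - 1) < 1 := by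
  have hYr : (0 : ℝ) < Y := by exact_mod_cast hY0
  set x : ℝ := (n : ℝ) * (m4 / Y) with hx
  have hx0 : 0 ≤ x := by positivity
  have hx1 : x ≤ 1 / 10 ^ 6 := by
    rw [hx, ← mul_div_assoc, div_le_div_iff₀ hYr (by norm_num)]
    linarith
  have h1 : ∏ p ∈ T, (1 + m4 / (p : ℝ)) ≤ Real.exp x := by
    calc ∏ p ∈ T, (1 + m4 / (p : ℝ)) ≤ ∏ _p ∈ T, Real.exp (m4 / Y) := by
          apply Finset.prod_le_prod
          · intro p _; positivity
          · intro p hp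
            have hpY : (Y : ℝ) ≤ p := by exact_mod_cast (hTY p hp).le
            have : m4 / (p : ℝ) ≤ m4 / Y := div_le_div_of_nonneg_left hm4 hYr hpY
            have h2 := Real.add_one_le_exp (m4 / (Y : ℝ))
            linarith
      _ = Real.exp x := by
          rw [Finset.prod_const, hTc, ← Real.exp_nat_mul]
  have h2 : Real.exp x * (1 - x) ≤ 1 := by
    have h3 := Real.one_sub_le_exp_neg x
    have h4 : Real.exp x * Real.exp (-x) = 1 := by rw [← Real.exp_add]; simp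
    have h5 := Real.exp_pos x
    nlinarith
  have h6 : Real.exp x ≤ 1 + 2 * x := by
    have h5 := Real.exp_pos x
    nlinarith
  nlinarith

theorem En_mul_le (X U : Finset ℕ) (Z n M : ℕ) (hM0 : 0 < M) (hZ : 1 ≤ Z)
    (hUZ : ∀ p ∈ U, p ≤ Z) (hUn : U.card ≤ n) (hK : Z ^ n ≤ X.card)
    (hEs : (Es X (∏ p ∈ U, p) : ℝ) * ∏ p ∈ U, (p : ℝ) ≤ 24 * (X.card : ℝ) ^ 2 * (M : ℝ) ^ U.card) :
    (En X (∏ p ∈ U, p) : ℝ) * ∏ p ∈ U, (p : ℝ) ≤ 25 * (X.card : ℝ) ^ 2 * (M : ℝ) ^ U.card := by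
  rw [En_eq]
  push_cast
  have h1 : ∏ p ∈ U, p ≤ X.card := by
    calc ∏ p ∈ U, p ≤ Z ^ U.card := Finset.prod_le_pow_card _ _ _ hUZ
      _ ≤ Z ^ n := Nat.pow_le_pow_right hZ hUn
      _ ≤ X.card := hK
  have h2 : (∏ p ∈ U, (p : ℝ)) ≤ (X.card : ℝ) := by
    have : ((∏ p ∈ U, p : ℕ) : ℝ) ≤ (X.card : ℝ) := by exact_mod_cast h1
    push_cast at this
    exact this
  have h3 : (1 : ℝ) ≤ (M : ℝ) ^ U.card := one_le_pow₀ (by exact_mod_cast hM0)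
  have h4 : (0 : ℝ) ≤ (X.card : ℝ) := Nat.cast_nonneg _
  have h5 : (X.card : ℝ) * ∏ p ∈ U, (p : ℝ) ≤ (X.card : ℝ) ^ 2 * (M : ℝ) ^ U.card := by
    calc (X.card : ℝ) * ∏ p ∈ U, (p : ℝ) ≤ (X.card : ℝ) * (X.card : ℝ) :=
          mul_le_mul_of_nonneg_left h2 h4
      _ = (X.card : ℝ) ^ 2 * 1 := by ring
      _ ≤ (X.card : ℝ) ^ 2 * (M : ℝ) ^ U.card := mul_le_mul_of_nonneg_left h3 (by positivity)
  nlinarith

theorem norm_sq_le {q : ℕ} [NeZero q] (T : Finset ℕ) (hT : ∀ p ∈ T, p.Prime)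
    (hq : q = ∏ p ∈ T, p) (A B : Finset ℕ) (M : ℕ) (ξ : ZMod q)
    (hA : (En A (∏ p ∈ supp T ξ, p) : ℝ) * ∏ p ∈ supp T ξ, (p : ℝ)
      ≤ 25 * (A.card : ℝ) ^ 2 * (M : ℝ) ^ (supp T ξ).card)
    (hB : (En B (∏ p ∈ supp T ξ, p) : ℝ) * ∏ p ∈ supp T ξ, (p : ℝ)
      ≤ 25 * (B.card : ℝ) ^ 2 * (M : ℝ) ^ (supp T ξ).card) :
    ‖∑ a ∈ A, ∑ b ∈ B, ZMod.stdAddChar (ξ * (a : ZMod q) * (b : ZMod q))‖ ^ 2
      ≤ 625 * ((A.card : ℝ) * B.card) ^ 2 * ((M : ℝ) ^ (supp T ξ).card) ^ 2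
          / ∏ p ∈ supp T ξ, (p : ℝ) := by
  have hdpos : 0 < ∏ p ∈ supp T ξ, p :=
    Finset.prod_pos (fun p hp => (hT p (supp_subset T ξ hp)).pos)
  have hb := bilinear_bound (∏ p ∈ supp T ξ, p) hdpos ξ (supp_h1 T hT hq ξ)
    (fun δ h => supp_h2 T hT hq ξ δ h) A B
  have hcast : ((∏ p ∈ supp T ξ, p : ℕ) : ℝ) = ∏ p ∈ supp T ξ, (p : ℝ) := by push_cast; rfl
  rw [hcast] at hb
  have hd : (0 : ℝ) < ∏ p ∈ supp T ξ, (p : ℝ) := by rw [← hcast]; exact_mod_cast hdpos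
  rw [le_div_iff₀ hd]
  set d : ℝ := ∏ p ∈ supp T ξ, (p : ℝ) with hdd
  set EA : ℝ := (En A (∏ p ∈ supp T ξ, p) : ℝ) with hEA
  set EB : ℝ := (En B (∏ p ∈ supp T ξ, p) : ℝ) with hEB
  have hEA0 : 0 ≤ EA := Nat.cast_nonneg _
  have hEB0 : 0 ≤ EB := Nat.cast_nonneg _
  calc _ ≤ (d * EA * EB) * d := mul_le_mul_of_nonneg_right hb hd.le
    _ = (EA * d) * (EB * d) := by ring
    _ ≤ (25 * (A.card : ℝ) ^ 2 * (M : ℝ) ^ (supp T ξ).card)
          * (25 * (B.card : ℝ) ^ 2 * (M : ℝ) ^ (supp T ξ).card) :=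
        mul_le_mul hA hB (by positivity) (by positivity)
    _ = _ := by ring

/-- the majorant of the product of the four character sums -/
noncomputable def gfun (KK m4 : ℝ) (U : Finset ℕ) : ℝ :=
  390625 * KK * m4 ^ U.card / (∏ p ∈ U, (p : ℝ)) ^ 2

theorem gfun_nonneg {KK m4 : ℝ} (hKK : 0 ≤ KK) (hm4 : 0 ≤ m4) (U : Finset ℕ) :
    0 ≤ gfun KK m4 U := by
  unfold gfun
  positivity

/-- algebra: four bounds on squares give the bound on the product -/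
theorem prod_four_le (s K : Fin 4 → ℝ) (mw d : ℝ) (hs : ∀ i, 0 ≤ s i) (hK : ∀ i, 0 ≤ K i)
    (_hmw : 0 ≤ mw) (hd : 0 < d) (h : ∀ i, s i ^ 2 ≤ 625 * K i ^ 2 * mw ^ 2 / d) :
    ∏ i, s i ≤ 390625 * (∏ i, K i) * mw ^ 4 / d ^ 2 := by
  have h1 : (∏ i, s i) ^ 2 ≤ (390625 * (∏ i, K i) * mw ^ 4 / d ^ 2) ^ 2 := by
    rw [← Finset.prod_pow]
    calc ∏ i, s i ^ 2 ≤ ∏ i, (625 * K i ^ 2 * mw ^ 2 / d) :=
          Finset.prod_le_prod (fun i _ => by positivity) (fun i _ => h i)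
      _ = (390625 * (∏ i, K i) * mw ^ 4 / d ^ 2) ^ 2 := by
          simp only [Fin.prod_univ_four]
          field_simp
          ring
  have h2 : 0 ≤ 390625 * (∏ i, K i) * mw ^ 4 / d ^ 2 := by
    have : 0 ≤ ∏ i, K i := Finset.prod_nonneg (fun i _ => hK i)
    positivity
  exact (pow_le_pow_iff_left₀ (Finset.prod_nonneg fun i _ => hs i) h2 (by norm_num)).1 h1

theorem sum_gfun_le {q : ℕ} [NeZero q] (T : Finset ℕ) (hT : ∀ p ∈ T, p.Prime)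
    (hq : q = ∏ p ∈ T, p) {KK m4 : ℝ} (hKK : 0 ≤ KK) (hm4 : 0 ≤ m4) :
    ∑ ξ ∈ (Finset.univ : Finset (ZMod q)).erase 0, gfun KK m4 (supp T ξ)
      ≤ KK * (390625 * (∏ p ∈ T, (1 + m4 / (p : ℝ)) - 1)) := by
  classical
  have hprodpos : ∀ U ⊆ T, (0 : ℝ) < ∏ p ∈ U, (p : ℝ) := fun U hU =>
    Finset.prod_pos (fun p hp => by exact_mod_cast (hT p (hU hp)).pos)
  have claim2 : ∑ ξ ∈ (Finset.univ : Finset (ZMod q)).erase 0, gfun KK m4 (supp T ξ)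
      ≤ ∑ U ∈ T.powerset.erase ∅, (∏ p ∈ U, (p : ℝ)) * gfun KK m4 U := by
    rw [← Finset.sum_fiberwise_of_maps_to (g := fun ξ => supp T ξ) (t := T.powerset.erase ∅)
      (fun ξ hξ => Finset.mem_erase.2 ⟨supp_nonempty T hT hq ξ (Finset.mem_erase.1 hξ).1,
        Finset.mem_powerset.2 (supp_subset T ξ)⟩)]
    apply Finset.sum_le_sum
    intro U hU
    have hUT : U ⊆ T := Finset.mem_powerset.1 (Finset.mem_erase.1 hU).2
    have e1 : ∑ ξ ∈ ((Finset.univ : Finset (ZMod q)).erase 0).filter (fun ξ => supp T ξ = U),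
        gfun KK m4 (supp T ξ) = ((((Finset.univ : Finset (ZMod q)).erase 0).filter
          (fun ξ => supp T ξ = U)).card : ℝ) * gfun KK m4 U := by
      rw [Finset.sum_congr rfl (fun ξ hξ => by rw [(Finset.mem_filter.1 hξ).2]),
        Finset.sum_const, nsmul_eq_mul]
    rw [e1]
    apply mul_le_mul_of_nonneg_right _ (gfun_nonneg hKK hm4 U)
    have e2 : (((Finset.univ : Finset (ZMod q)).erase 0).filter (fun ξ => supp T ξ = U)).card
        ≤ ∏ p ∈ U, p :=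
      le_trans (Finset.card_le_card (Finset.filter_subset_filter _ (Finset.erase_subset _ _)))
        (card_fiber_le T hT hq U hUT)
    have e3 : ((((Finset.univ : Finset (ZMod q)).erase 0).filter
        (fun ξ => supp T ξ = U)).card : ℝ) ≤ ((∏ p ∈ U, p : ℕ) : ℝ) := by exact_mod_cast e2
    push_cast at e3
    exact e3
  refine le_trans claim2 (le_of_eq ?_)
  have hsub : ∑ t ∈ T.powerset, ∏ i ∈ t, m4 / (i : ℝ) - 1
      = ∑ t ∈ T.powerset.erase ∅, ∏ i ∈ t, m4 / (i : ℝ) := by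
    rw [Finset.sum_erase_eq_sub (Finset.empty_mem_powerset T)]
    simp
  rw [Finset.prod_one_add, hsub]
  rw [Finset.mul_sum, Finset.mul_sum]
  apply Finset.sum_congr rfl
  intro U hU
  have hUT : U ⊆ T := Finset.mem_powerset.1 (Finset.mem_erase.1 hU).2
  have hd := hprodpos U hUT
  unfold gfun
  rw [Finset.prod_div_distrib, Finset.prod_const]
  field_simp

/-- the character sum attached to a pair of sets -/
noncomputable def Ssum {q : ℕ} [NeZero q] (A B : Finset ℕ) (ξ : ZMod q) : ℂ :=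
  ∑ a ∈ A, ∑ b ∈ B, ZMod.stdAddChar (ξ * (a : ZMod q) * (b : ZMod q))

theorem Ssum_zero {q : ℕ} [NeZero q] (A B : Finset ℕ) :
    Ssum (q := q) A B 0 = ((A.card : ℝ) * (B.card : ℝ) : ℝ) := by
  unfold Ssum
  simp

theorem cover_of_bounds {q : ℕ} [NeZero q] (T : Finset ℕ) (hT : ∀ p ∈ T, p.Prime)
    (hq : q = ∏ p ∈ T, p) (A B : Fin 4 → Finset ℕ) (M Y n : ℕ) (hTc : T.card = n)
    (hTY : ∀ p ∈ T, Y < p) (hY : 10 ^ 6 * n * M ^ 4 ≤ Y) (hY0 : 0 < Y)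
    (hApos : ∀ i, 0 < (A i).card) (hBpos : ∀ i, 0 < (B i).card)
    (hEnA : ∀ i, ∀ U ⊆ T, (En (A i) (∏ p ∈ U, p) : ℝ) * ∏ p ∈ U, (p : ℝ)
      ≤ 25 * ((A i).card : ℝ) ^ 2 * (M : ℝ) ^ U.card)
    (hEnB : ∀ i, ∀ U ⊆ T, (En (B i) (∏ p ∈ U, p) : ℝ) * ∏ p ∈ U, (p : ℝ)
      ≤ 25 * ((B i).card : ℝ) ^ 2 * (M : ℝ) ^ U.card) (x : ℕ) :
    ∃ a b : Fin 4 → ℕ, (∀ i, a i ∈ A i ∧ b i ∈ B i) ∧ (∑ i, a i * b i) ≡ x [MOD q] := by
  classical
  by_contra hcon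
  push Not at hcon
  have hzero : ∑ ξ : ZMod q, ZMod.stdAddChar (-(ξ * (x : ZMod q))) * ∏ i, Ssum (A i) (B i) ξ = 0 :=
    fourier_zero (q := q) A B x (fun a b hab => hcon a b hab)
  obtain ⟨Kc, hKc⟩ : ∃ Kc : Fin 4 → ℝ, Kc = fun i => ((A i).card : ℝ) * ((B i).card : ℝ) := ⟨_, rfl⟩
  have hKpos : ∀ i, 0 < Kc i := by
    intro i
    have h1' : (0 : ℝ) < ((A i).card : ℝ) := by exact_mod_cast hApos i
    have h2' : (0 : ℝ) < ((B i).card : ℝ) := by exact_mod_cast hBpos i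
    rw [hKc]
    exact mul_pos h1' h2'
  obtain ⟨KK, hKK⟩ : ∃ KK : ℝ, KK = ∏ i, Kc i := ⟨_, rfl⟩
  have hKKpos : 0 < KK := by rw [hKK]; exact Finset.prod_pos (fun i _ => hKpos i)
  obtain ⟨m4, hm4⟩ : ∃ m4 : ℝ, m4 = (M : ℝ) ^ 4 := ⟨_, rfl⟩
  have hm40 : 0 ≤ m4 := by rw [hm4]; positivity
  have claim1 : ∀ ξ : ZMod q, ∏ i, ‖Ssum (A i) (B i) ξ‖ ≤ gfun KK m4 (supp T ξ) := by
    intro ξ
    have hd : (0 : ℝ) < ∏ p ∈ supp T ξ, (p : ℝ) :=
      Finset.prod_pos (fun p hp => by exact_mod_cast (hT p (supp_subset T ξ hp)).pos)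
    have hsq : ∀ i, ‖Ssum (A i) (B i) ξ‖ ^ 2 ≤ 625 * (Kc i) ^ 2 * ((M : ℝ) ^ (supp T ξ).card) ^ 2
        / ∏ p ∈ supp T ξ, (p : ℝ) := fun i => by
      rw [hKc]
      exact norm_sq_le T hT hq (A i) (B i) M ξ (hEnA i _ (supp_subset T ξ))
        (hEnB i _ (supp_subset T ξ))
    have := prod_four_le (fun i => ‖Ssum (A i) (B i) ξ‖) Kc ((M : ℝ) ^ (supp T ξ).card) _
      (fun i => norm_nonneg _) (fun i => (hKpos i).le) (by positivity) hd hsq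
    refine le_trans this (le_of_eq ?_)
    unfold gfun
    rw [hKK, hm4]
    congr 2
    ring
  have claim4 := prod_one_add_le T Y n m4 hm40 hTc hTY (by
    have : ((10 ^ 6 * n * M ^ 4 : ℕ) : ℝ) ≤ (Y : ℝ) := by exact_mod_cast hY
    push_cast at this
    rw [hm4]
    linarith) hY0
  have hsplit := Finset.add_sum_erase (Finset.univ : Finset (ZMod q))
    (fun ξ => ZMod.stdAddChar (-(ξ * (x : ZMod q))) * ∏ i, Ssum (A i) (B i) ξ) (Finset.mem_univ 0)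
  rw [hzero] at hsplit
  have hf0 : ZMod.stdAddChar (-((0 : ZMod q) * (x : ZMod q))) * ∏ i, Ssum (A i) (B i) (0 : ZMod q)
      = (KK : ℂ) := by
    simp only [Ssum_zero, hKK, hKc]
    simp
  rw [hf0] at hsplit
  have hnorm : KK ≤ ∑ ξ ∈ (Finset.univ : Finset (ZMod q)).erase 0, ∏ i, ‖Ssum (A i) (B i) ξ‖ := by
    have e1 : (KK : ℂ) = -∑ ξ ∈ (Finset.univ : Finset (ZMod q)).erase 0,
        ZMod.stdAddChar (-(ξ * (x : ZMod q))) * ∏ i, Ssum (A i) (B i) ξ := by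
      rw [eq_neg_iff_add_eq_zero]; exact hsplit
    have e2 : ‖(KK : ℂ)‖ = KK := by
      rw [Complex.norm_real, Real.norm_of_nonneg hKKpos.le]
    rw [← e2, e1, norm_neg]
    refine (norm_sum_le _ _).trans (le_of_eq ?_)
    apply Finset.sum_congr rfl
    intro ξ _
    rw [norm_mul, AddChar.norm_apply, one_mul, norm_prod]
  have hfinal : KK < KK := by
    calc KK ≤ ∑ ξ ∈ (Finset.univ : Finset (ZMod q)).erase 0, ∏ i, ‖Ssum (A i) (B i) ξ‖ := hnorm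
      _ ≤ ∑ ξ ∈ (Finset.univ : Finset (ZMod q)).erase 0, gfun KK m4 (supp T ξ) :=
          Finset.sum_le_sum (fun ξ _ => claim1 ξ)
      _ ≤ KK * (390625 * (∏ p ∈ T, (1 + m4 / (p : ℝ)) - 1)) := sum_gfun_le T hT hq hKKpos.le hm40
      _ < KK * 1 := mul_lt_mul_of_pos_left claim4 hKKpos
      _ = KK := mul_one _
  exact lt_irrefl _ hfinal

theorem exists_block (A B : Fin 4 → Finset ℕ) (PP : Finset ℕ) (Y Z H lam M n : ℕ)
    (hprime : ∀ p ∈ PP, p.Prime ∧ Y < p ∧ p ≤ Z)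
    (hHA : ∀ i, ∀ a ∈ A i, a < H) (hHB : ∀ i, ∀ a ∈ B i, a < H) (hlam : H ≤ Y ^ lam)
    (hcard : 2 * n ≤ PP.card) (hM : 2 * n * lam * Z ≤ M * PP.card) (hM0 : 0 < M)
    (hKA : ∀ i, Z ^ n ≤ (A i).card) (hKB : ∀ i, Z ^ n ≤ (B i).card)
    (hY : 10 ^ 6 * n * M ^ 4 ≤ Y) :
    ∃ T ⊆ PP, T.card = n ∧ ∀ x : ℕ, ∃ a b : Fin 4 → ℕ, (∀ i, a i ∈ A i ∧ b i ∈ B i) ∧
      (∑ i, a i * b i) ≡ x [MOD ∏ p ∈ T, p] := by
  classical
  rcases Nat.eq_zero_or_pos n with rfl | hn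
  · refine ⟨∅, by simp, rfl, ?_⟩
    intro x
    have hA : ∀ i, (A i).Nonempty := fun i => Finset.card_pos.1 (by have := hKA i; simpa using this)
    have hB : ∀ i, (B i).Nonempty := fun i => Finset.card_pos.1 (by have := hKB i; simpa using this)
    choose a ha using hA
    choose b hb using hB
    exact ⟨a, b, fun i => ⟨ha i, hb i⟩, by simp [Nat.modEq_one]⟩
  obtain ⟨T, hT, hTc, hEs⟩ := exists_block_potential (ι := Fin 4 ⊕ Fin 4) (Sum.elim A B) PP Y Z H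
    lam M n hprime (by
      rintro (i | i) a ha
      · exact hHA i a ha
      · exact hHB i a ha) hlam hcard hM hM0
  refine ⟨T, hT, hTc, ?_⟩
  have hTpr : ∀ p ∈ T, p.Prime := fun p hp => (hprime p (hT hp)).1
  have hTZ : ∀ p ∈ T, p ≤ Z := fun p hp => (hprime p (hT hp)).2.2
  have hTY : ∀ p ∈ T, Y < p := fun p hp => (hprime p (hT hp)).2.1
  have hZ1 : 1 ≤ Z := by
    obtain ⟨p, hp⟩ : T.Nonempty := Finset.card_pos.1 (by omega)
    exact le_trans (hTpr p hp).one_le (hTZ p hp)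
  have hY0 : 0 < Y := by
    have : 0 < 10 ^ 6 * n * M ^ 4 := by positivity
    omega
  have hqpos : 0 < ∏ p ∈ T, p := Finset.prod_pos (fun p hp => (hTpr p hp).pos)
  have : NeZero (∏ p ∈ T, p) := ⟨hqpos.ne'⟩
  have hc8 : (3 : ℝ) * (Fintype.card (Fin 4 ⊕ Fin 4) : ℝ) = 24 := by
    simp; norm_num
  have hEnA : ∀ i, ∀ U ⊆ T, (En (A i) (∏ p ∈ U, p) : ℝ) * ∏ p ∈ U, (p : ℝ)
      ≤ 25 * ((A i).card : ℝ) ^ 2 * (M : ℝ) ^ U.card := by
    intro i U hU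
    apply En_mul_le (A i) U Z n M hM0 hZ1 (fun p hp => hTZ p (hU hp))
      (by rw [← hTc]; exact Finset.card_le_card hU) (hKA i)
    have := hEs (Sum.inl i) U hU
    rw [hc8] at this
    exact this
  have hEnB : ∀ i, ∀ U ⊆ T, (En (B i) (∏ p ∈ U, p) : ℝ) * ∏ p ∈ U, (p : ℝ)
      ≤ 25 * ((B i).card : ℝ) ^ 2 * (M : ℝ) ^ U.card := by
    intro i U hU
    apply En_mul_le (B i) U Z n M hM0 hZ1 (fun p hp => hTZ p (hU hp))
      (by rw [← hTc]; exact Finset.card_le_card hU) (hKB i)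
    have := hEs (Sum.inr i) U hU
    rw [hc8] at this
    exact this
  intro x
  exact cover_of_bounds T hTpr rfl A B M Y n hTc hTY hY hY0
    (fun i => lt_of_lt_of_le (by positivity) (hKA i))
    (fun i => lt_of_lt_of_le (by positivity) (hKB i)) hEnA hEnB x

end P012
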