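import Vale.Agent.Lib.P012.KL
import Vale.Agent.Lib.P012.Cover

/-!
# P012 module L3: few moduli in a window are bad for a given set `X`.

FROZEN statements: `card_dvd_window`, `bad_set_bound`.

Proof of `bad_set_bound`.  `I = win lam`, `T = 2^(4a)`.  Let `NB` be the set of `n ≤ x0` that are
rough, in `(Wlo a l, 2^(sL a l)]` and bad (`|X|^2 < En X n * thr n`).   Every `w` counted is a
positive multiple of some `n ∈ NB`, so the count is `≤ ∑_{n ∈ NB} (I / n + 1)`.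
For `n ∈ NB`: `thr n ≤ 2^(5 sL/8)` (`thr_le_of`, `8 ∣ sL a l`), so `2 thr n ≤ 2^(sL a l) ≤ |X|`;
`En X n = |X| + Es X n` (`En_eq`), so `|X|^2 < |X| thr n + Es X n thr n ≤ |X|^2/2 + Es X n thr n`,
i.e. `|X|^2 < 2 Es X n thr n`.   Hence
`count * |X|^2 ≤ 2 ∑_n (I/n+1) thr n Es X n = 2 ∑_{x ≠ x' ∈ X} ∑_{n ∈ NB, n ∣ |x-x'|} thr n (I/n+1)
  ≤ 2 |X|^2 I / 2^12` by `KL` with `Δ = |x - x'|` (`0 < Δ < 2^(16 a sL)`).
-/

namespace P012

open Finset

theorem card_dvd_window (x0 I n : ℕ) (hn : 0 < n) :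
    ((Finset.Ioc (x0 - I) x0).filter (fun w => n ∣ w)).card ≤ I / n + 1 := by
  have h1 : ((Finset.Ioc (x0 - I) x0).filter (fun w => n ∣ w)).card
      ≤ (Finset.Ioc ((x0 - I) / n) (x0 / n)).card := by
    apply Finset.card_le_card_of_injOn (fun w => w / n)
    · intro w hw
      rw [Finset.mem_coe, Finset.mem_filter, Finset.mem_Ioc] at hw
      obtain ⟨⟨h1, h2⟩, k, rfl⟩ := hw
      rw [Finset.mem_coe, Finset.mem_Ioc]
      simp only [Nat.mul_div_cancel_left _ hn]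
      exact ⟨Nat.div_lt_of_lt_mul h1, (Nat.le_div_iff_mul_le hn).2 (by rwa [mul_comm])⟩
    · intro w hw w' hw' h
      rw [Finset.mem_coe, Finset.mem_filter] at hw hw'
      obtain ⟨_, k, rfl⟩ := hw
      obtain ⟨_, k', rfl⟩ := hw'
      simp only [Nat.mul_div_cancel_left _ hn] at h
      rw [h]
  rw [Nat.card_Ioc] at h1
  have h2 : x0 / n ≤ (x0 - I) / n + I / n + 1 := by
    calc x0 / n ≤ ((x0 - I) + I) / n := Nat.div_le_div_right (by omega)
      _ ≤ _ := by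
        rw [Nat.add_div hn]
        split_ifs <;> omega
  generalize x0 / n = A at h1 h2
  generalize (x0 - I) / n = B at h1 h2
  generalize I / n = C at h1 h2 ⊢
  omega

/-- a bad modulus has many off-diagonal coincidences -/
theorem bad_Es (a l n : ℕ) (X : Finset ℕ) (ha : 50 ≤ a)
    (hXc : 2 ^ (sL a l) ≤ X.card) (hhi : n ≤ 2 ^ (sL a l))
    (hbad : X.card ^ 2 < En X n * thr n) : X.card ^ 2 < 2 * (Es X n * thr n) := by
  have h8 : 8 ∣ sL a l := by
    unfold sL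
    have h3 : 3 ≤ (l + 1) * (a - 8) := by
      have : 1 * 3 ≤ (l + 1) * (a - 8) := Nat.mul_le_mul (by omega) (by omega)
      omega
    have h := pow_dvd_pow (2 : ℕ) h3
    rwa [show (2 : ℕ) ^ 3 = 8 by norm_num] at h
  obtain ⟨s', hs'⟩ := h8
  have hspos : 0 < sL a l := by unfold sL; positivity
  have hs'pos : 0 < s' := by omega
  have hthr : thr n ≤ 2 ^ (5 * s') := by
    apply thr_le_of
    calc n ^ 5 ≤ (2 ^ (sL a l)) ^ 5 := Nat.pow_le_pow_left hhi 5
      _ = (2 ^ (5 * s')) ^ 8 := by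
        rw [hs', ← pow_mul, ← pow_mul]
        congr 1
        ring
  have h2 : 2 * thr n ≤ X.card := by
    calc 2 * thr n ≤ 2 * 2 ^ (5 * s') := by omega
      _ = 2 ^ (5 * s' + 1) := by ring
      _ ≤ 2 ^ (sL a l) := Nat.pow_le_pow_right (by norm_num) (by omega)
      _ ≤ X.card := hXc
  rw [En_eq] at hbad
  nlinarith [Nat.mul_le_mul_left X.card h2]

theorem Es_eq_sum (X : Finset ℕ) (n : ℕ) :
    Es X n = ∑ p ∈ (X ×ˢ X).filter (fun p => p.1 ≠ p.2),
      if p.1 ≡ p.2 [MOD n] then 1 else 0 := by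
  rw [← Finset.card_filter, Finset.filter_filter]
  rfl

open Classical in
theorem bad_set_bound (a l lam x0 : ℕ) (X : Finset ℕ) (ha : 50 ≤ a) (hl : l < 5)
    (hlam : 16 * a ≤ lam) (hx0 : x0 < 2 ^ (lam + 1)) (hwin : win lam ≤ x0)
    (hXc : 2 ^ (sL a l) ≤ X.card) (hXb : ∀ x ∈ X, x < 2 ^ (16 * a * sL a l)) :
    ((Finset.Ioc (x0 - win lam) x0).filter (fun w => ∃ n, n ∣ w ∧ Rough (2 ^ (4 * a)) n ∧
      Wlo a l < n ∧ n ≤ 2 ^ (sL a l) ∧ X.card ^ 2 < En X n * thr n)).card * 2 ^ 11 ≤ win lam := by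
  set I := win lam with hI
  set NB := (Finset.range (x0 + 1)).filter (fun n => Rough (2 ^ (4 * a)) n ∧
      Wlo a l < n ∧ n ≤ 2 ^ (sL a l) ∧ X.card ^ 2 < En X n * thr n) with hNB
  set W := (Finset.Ioc (x0 - I) x0).filter (fun w => ∃ n, n ∣ w ∧ Rough (2 ^ (4 * a)) n ∧
      Wlo a l < n ∧ n ≤ 2 ^ (sL a l) ∧ X.card ^ 2 < En X n * thr n) with hW
  set F := (X ×ˢ X).filter (fun p => p.1 ≠ p.2) with hF
  have hNpos : 0 < X.card := lt_of_lt_of_le (by positivity) hXc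
  -- step 1 : union bound
  have h1 : W.card ≤ ∑ n ∈ NB, (I / n + 1) := by
    calc W.card
        ≤ (NB.biUnion fun n => (Finset.Ioc (x0 - I) x0).filter (fun w => n ∣ w)).card := by
          apply Finset.card_le_card
          intro w hw
          rw [hW, Finset.mem_filter] at hw
          obtain ⟨hwI, n, hnw, hr, hlo, hhi, hbad⟩ := hw
          rw [Finset.mem_biUnion]
          refine ⟨n, ?_, Finset.mem_filter.2 ⟨hwI, hnw⟩⟩
          rw [hNB, Finset.mem_filter, Finset.mem_range]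
          rw [Finset.mem_Ioc] at hwI
          have : n ≤ w := Nat.le_of_dvd (by omega) hnw
          exact ⟨by omega, hr, hlo, hhi, hbad⟩
      _ ≤ ∑ n ∈ NB, ((Finset.Ioc (x0 - I) x0).filter (fun w => n ∣ w)).card :=
          Finset.card_biUnion_le
      _ ≤ _ := by
          apply Finset.sum_le_sum
          intro n hn
          rw [hNB, Finset.mem_filter] at hn
          exact card_dvd_window x0 I n (by omega)
  -- the weight
  set g : ℕ → ℝ := fun n => (thr n : ℝ) * ((I : ℝ) / n + 1) with hg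
  have hg0 : ∀ n, 0 ≤ g n := fun n => by
    simp only [hg]
    positivity
  -- step 2 : each term
  have h2 : ∀ n ∈ NB, ((I / n + 1 : ℕ) : ℝ) * (X.card : ℝ) ^ 2 ≤ 2 * (g n * (Es X n : ℝ)) := by
    intro n hn
    rw [hNB, Finset.mem_filter] at hn
    obtain ⟨_, _, _, hhi, hbad⟩ := hn
    have hb := bad_Es a l n X ha hXc hhi hbad
    have hb' : (X.card : ℝ) ^ 2 ≤ 2 * ((Es X n : ℝ) * (thr n : ℝ)) := by
      exact_mod_cast hb.le
    have hc : ((I / n + 1 : ℕ) : ℝ) ≤ (I : ℝ) / n + 1 := by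
      push_cast
      have := @Nat.cast_div_le ℝ _ _ _ I n
      linarith
    have hpos : (0 : ℝ) ≤ (I : ℝ) / n + 1 := by positivity
    calc ((I / n + 1 : ℕ) : ℝ) * (X.card : ℝ) ^ 2
        ≤ ((I : ℝ) / n + 1) * (2 * ((Es X n : ℝ) * (thr n : ℝ))) :=
          mul_le_mul hc hb' (by positivity) hpos
      _ = 2 * (g n * (Es X n : ℝ)) := by simp only [hg]; ring
  -- step 3 : double counting
  have h3 : ∑ n ∈ NB, g n * (Es X n : ℝ)
      = ∑ p ∈ F, ∑ n ∈ NB.filter (fun n => p.1 ≡ p.2 [MOD n]), g n := by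
    calc ∑ n ∈ NB, g n * (Es X n : ℝ)
        = ∑ n ∈ NB, ∑ p ∈ F, if p.1 ≡ p.2 [MOD n] then g n else 0 := by
          apply Finset.sum_congr rfl
          intro n _
          rw [Es_eq_sum, Nat.cast_sum, Finset.mul_sum]
          apply Finset.sum_congr rfl
          intro p _
          split_ifs <;> simp
      _ = ∑ p ∈ F, ∑ n ∈ NB, if p.1 ≡ p.2 [MOD n] then g n else 0 := Finset.sum_comm
      _ = _ := by
          apply Finset.sum_congr rfl
          intro p _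
          exact (Finset.sum_filter _ _).symm
  have h4 : ∀ p ∈ F, ∑ n ∈ NB.filter (fun n => p.1 ≡ p.2 [MOD n]), g n ≤ (I : ℝ) / 2 ^ 12 := by
    intro p hp
    rw [hF, Finset.mem_filter, Finset.mem_product] at hp
    obtain ⟨⟨hp1, hp2⟩, hne⟩ := hp
    set Δ : ℕ := ((p.2 : ℤ) - (p.1 : ℤ)).natAbs with hΔ
    have hb1 := hXb _ hp1
    have hb2 := hXb _ hp2
    have hΔ0 : 0 < Δ := by omega
    have hΔH : Δ < 2 ^ (16 * a * sL a l) := by omega
    refine le_trans ?_ (KL a l lam x0 Δ ha hl hlam hx0 hΔ0 hΔH)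
    apply Finset.sum_le_sum_of_subset_of_nonneg
    · intro n hn
      rw [Finset.mem_filter, hNB, Finset.mem_filter, Finset.mem_range] at hn
      obtain ⟨⟨hnx, hr, hlo, _, _⟩, hmod⟩ := hn
      rw [Finset.mem_filter, Nat.mem_divisors]
      refine ⟨⟨?_, hΔ0.ne'⟩, hr, hlo, by omega⟩
      exact Int.natCast_dvd.1 (Nat.modEq_iff_dvd.1 hmod)
    · intro n _ _
      exact hg0 n
  have hFc : (F.card : ℝ) ≤ (X.card : ℝ) ^ 2 := by
    have : F.card ≤ X.card ^ 2 := by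
      calc F.card ≤ (X ×ˢ X).card := Finset.card_filter_le _ _
        _ = X.card ^ 2 := by rw [Finset.card_product, sq]
    exact_mod_cast this
  have h5 : (W.card : ℝ) * (X.card : ℝ) ^ 2 ≤ 2 * ((X.card : ℝ) ^ 2 * ((I : ℝ) / 2 ^ 12)) := by
    calc (W.card : ℝ) * (X.card : ℝ) ^ 2
        ≤ ((∑ n ∈ NB, (I / n + 1) : ℕ) : ℝ) * (X.card : ℝ) ^ 2 := by
          apply mul_le_mul_of_nonneg_right _ (by positivity)
          exact_mod_cast h1
      _ = ∑ n ∈ NB, ((I / n + 1 : ℕ) : ℝ) * (X.card : ℝ) ^ 2 := by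
          rw [Nat.cast_sum, Finset.sum_mul]
      _ ≤ ∑ n ∈ NB, 2 * (g n * (Es X n : ℝ)) := Finset.sum_le_sum h2
      _ = 2 * ∑ p ∈ F, ∑ n ∈ NB.filter (fun n => p.1 ≡ p.2 [MOD n]), g n := by
          rw [← Finset.mul_sum, h3]
      _ ≤ 2 * ∑ _p ∈ F, (I : ℝ) / 2 ^ 12 := by
          apply mul_le_mul_of_nonneg_left (Finset.sum_le_sum h4) (by norm_num)
      _ = 2 * ((F.card : ℝ) * ((I : ℝ) / 2 ^ 12)) := by
          rw [Finset.sum_const, nsmul_eq_mul]
      _ ≤ _ := by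
          apply mul_le_mul_of_nonneg_left _ (by norm_num)
          exact mul_le_mul_of_nonneg_right hFc (by positivity)
  have hN2 : (0 : ℝ) < (X.card : ℝ) ^ 2 := by positivity
  have h6 : (W.card : ℝ) * 2 ^ 11 ≤ (I : ℝ) := by
    have h7 : (W.card : ℝ) * (X.card : ℝ) ^ 2 ≤ ((I : ℝ) / 2 ^ 11) * (X.card : ℝ) ^ 2 := by
      calc (W.card : ℝ) * (X.card : ℝ) ^ 2 ≤ 2 * ((X.card : ℝ) ^ 2 * ((I : ℝ) / 2 ^ 12)) := h5
        _ = ((I : ℝ) / 2 ^ 11) * (X.card : ℝ) ^ 2 := by ring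
    have h8 := le_of_mul_le_mul_right h7 hN2
    rw [le_div_iff₀ (by positivity)] at h8
    exact h8
  exact_mod_cast h6

end P012
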