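import Vale.Agent.Lib.P012.Defs

/-!
# P012 module M1: elementary lemmas on `Rep` and the reduction of Egyptian fractions to `Rep`.
-/

namespace P012

open Finset

/-- binary expansion -/
theorem rep_two_pow (e : ℕ) : Rep (2 ^ e) e := by
  induction e with
  | zero =>
    intro m hm
    refine ⟨∅, by simp, ?_, by simp⟩
    simp at hm
    simp [hm]
  | succ e ih =>
    intro m hm
    by_cases h : m < 2 ^ e
    · obtain ⟨D, h1, h2, h3⟩ := ih m h
      refine ⟨D, fun d hd => Dvd.dvd.trans (h1 d hd) (pow_dvd_pow 2 (Nat.le_succ e)), h2, by omega⟩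
    · push Not at h
      have hm' : m - 2 ^ e < 2 ^ e := by
        have : 2 ^ (e + 1) = 2 * 2 ^ e := by ring
        omega
      obtain ⟨D, h1, h2, h3⟩ := ih (m - 2 ^ e) hm'
      have hnot : 2 ^ e ∉ D := by
        intro hmem
        have : 2 ^ e ≤ ∑ d ∈ D, d := Finset.single_le_sum (f := fun d => d) (fun _ _ => Nat.zero_le _) hmem
        omega
      refine ⟨insert (2 ^ e) D, ?_, ?_, ?_⟩
      · intro d hd
        rcases Finset.mem_insert.1 hd with rfl | hd
        · exact pow_dvd_pow 2 (Nat.le_succ e)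
        · exact Dvd.dvd.trans (h1 d hd) (pow_dvd_pow 2 (Nat.le_succ e))
      · rw [Finset.sum_insert hnot, h2]; omega
      · rw [Finset.card_insert_of_notMem hnot]; omega

/-- Killing a block `q`: if every residue mod `q` is the sum of at most `t` distinct divisors of `N`
(of total size at most `N`), then `Rep` passes from `N` to `N * q`. -/
theorem Rep.step {N h q t : ℕ} (hN : Rep N h) (hq : Nat.Coprime q N) (hq1 : 1 < q)
    (hcov : ∀ x : ℕ, ∃ D : Finset ℕ, (∀ d ∈ D, d ∣ N) ∧ D.card ≤ t ∧ ∑ d ∈ D, d ≤ N ∧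
      (∑ d ∈ D, d) ≡ x [MOD q]) :
    Rep (N * q) (h + t) := by
  classical
  intro m hm
  by_cases hmN : m < N
  · obtain ⟨D, h1, h2, h3⟩ := hN m hmN
    exact ⟨D, fun d hd => Dvd.dvd.mul_right (h1 d hd) q, h2, by omega⟩
  · push Not at hmN
    obtain ⟨D, hD1, hD2, hD3, hD4⟩ := hcov m
    have hle : ∑ d ∈ D, d ≤ m := le_trans hD3 hmN
    have hdvd : q ∣ m - ∑ d ∈ D, d := (Nat.modEq_iff_dvd' hle).1 hD4
    obtain ⟨m', hm'⟩ := hdvd
    have hm'N : m' < N := by
      by_contra hcon
      push Not at hcon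
      have : q * N ≤ q * m' := Nat.mul_le_mul_left _ hcon
      have h2 : N * q = q * N := Nat.mul_comm _ _
      omega
    obtain ⟨D', h1, h2, h3⟩ := hN m' hm'N
    have hinj : Set.InjOn (fun d => q * d) (D' : Set ℕ) := by
      intro a _ b _ hab
      exact Nat.eq_of_mul_eq_mul_left (by omega) hab
    have hdisj : Disjoint D (D'.image (fun d => q * d)) := by
      rw [Finset.disjoint_left]
      intro d hd hd'
      obtain ⟨d', _, rfl⟩ := Finset.mem_image.1 hd'
      have hqN : q ∣ N := Dvd.dvd.trans (Dvd.intro _ rfl) (hD1 _ hd)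
      have : q ∣ Nat.gcd q N := Nat.dvd_gcd dvd_rfl hqN
      rw [hq] at this
      have := Nat.le_of_dvd one_pos this
      omega
    refine ⟨D ∪ D'.image (fun d => q * d), ?_, ?_, ?_⟩
    · intro d hd
      rcases Finset.mem_union.1 hd with hd | hd
      · exact Dvd.dvd.mul_right (hD1 d hd) q
      · obtain ⟨d', hd', rfl⟩ := Finset.mem_image.1 hd
        rw [Nat.mul_comm N q]
        exact Nat.mul_dvd_mul_left q (h1 d' hd')
    · rw [Finset.sum_union hdisj, Finset.sum_image hinj, ← Finset.mul_sum, h2, ← hm']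
      omega
    · rw [Finset.card_union_of_disjoint hdisj, Finset.card_image_of_injOn hinj]
      omega

/-- `a / b = q / N + r / (b N)` with `a N = q b + r`; `q < N`, `r < b ≤ N` are sums of divisors of `N`. -/
theorem egypt_of_rep {N h : ℕ} (hN : Rep N h) {a b : ℕ} (ha : 1 ≤ a) (hab : a < b) (hb : b ≤ N) :
    ∃ S : Finset ℕ, (∀ n ∈ S, 2 ≤ n) ∧ ∑ n ∈ S, (1 : ℚ) / n = a / b ∧ S.card ≤ 2 * h := by
  classical
  have hb0 : 0 < b := by omega
  have hN0 : 0 < N := by omega
  set q := a * N / b with hq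
  set r := a * N % b with hr
  have hdiv : b * q + r = a * N := Nat.div_add_mod (a * N) b
  have hrb : r < b := Nat.mod_lt _ hb0
  have hqN : q < N := by
    rw [hq, Nat.div_lt_iff_lt_mul hb0]
    calc a * N < b * N := Nat.mul_lt_mul_of_pos_right hab hN0
      _ = N * b := Nat.mul_comm _ _
  obtain ⟨D1, a1, a2, a3⟩ := hN q hqN
  obtain ⟨D2, b1, b2, b3⟩ := hN r (by omega)
  have pos1 : ∀ d ∈ D1, 0 < d := fun d hd => Nat.pos_of_dvd_of_pos (a1 d hd) hN0
  have pos2 : ∀ d ∈ D2, 0 < d := fun d hd => Nat.pos_of_dvd_of_pos (b1 d hd) hN0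
  have le1 : ∀ d ∈ D1, d ≤ q := fun d hd => by
    rw [← a2]; exact Finset.single_le_sum (f := fun d => d) (fun _ _ => Nat.zero_le _) hd
  have le2 : ∀ d ∈ D2, d ≤ r := fun d hd => by
    rw [← b2]; exact Finset.single_le_sum (f := fun d => d) (fun _ _ => Nat.zero_le _) hd
  have inj1 : Set.InjOn (fun d => N / d) (D1 : Set ℕ) := by
    intro x hx y hy hxy
    have hx' := Nat.div_mul_cancel (a1 x hx)
    have hy' := Nat.div_mul_cancel (a1 y hy)
    have hxy' : N / x = N / y := hxy
    have hpos : 0 < N / y := Nat.div_pos (Nat.le_of_dvd hN0 (a1 y hy)) (pos1 y hy)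
    rw [hxy'] at hx'
    exact Nat.eq_of_mul_eq_mul_left hpos (hx'.trans hy'.symm)
  have inj2 : Set.InjOn (fun d => b * (N / d)) (D2 : Set ℕ) := by
    intro x hx y hy hxy
    have hx' := Nat.div_mul_cancel (b1 x hx)
    have hy' := Nat.div_mul_cancel (b1 y hy)
    have hxy' : N / x = N / y := Nat.eq_of_mul_eq_mul_left hb0 hxy
    have hpos : 0 < N / y := Nat.div_pos (Nat.le_of_dvd hN0 (b1 y hy)) (pos2 y hy)
    rw [hxy'] at hx'
    exact Nat.eq_of_mul_eq_mul_left hpos (hx'.trans hy'.symm)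
  have small1 : ∀ d ∈ D1, N / d ≤ N := fun d _ => Nat.div_le_self _ _
  have big2 : ∀ d ∈ D2, N < b * (N / d) := by
    intro d hd
    have h1 := Nat.div_mul_cancel (b1 d hd)
    have hpos : 0 < N / d := Nat.div_pos (Nat.le_of_dvd hN0 (b1 d hd)) (pos2 d hd)
    have h2 : d < b := lt_of_le_of_lt (le2 d hd) hrb
    calc N = d * (N / d) := by rw [Nat.mul_comm]; exact h1.symm
      _ < b * (N / d) := Nat.mul_lt_mul_of_pos_right h2 hpos
  have hdisj : Disjoint (D1.image (fun d => N / d)) (D2.image (fun d => b * (N / d))) := by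
    rw [Finset.disjoint_left]
    intro n h1 h2
    obtain ⟨d1, hd1, rfl⟩ := Finset.mem_image.1 h1
    obtain ⟨d2, hd2, e⟩ := Finset.mem_image.1 h2
    have := small1 d1 hd1
    have := big2 d2 hd2
    omega
  refine ⟨D1.image (fun d => N / d) ∪ D2.image (fun d => b * (N / d)), ?_, ?_, ?_⟩
  · intro n hn
    rcases Finset.mem_union.1 hn with hn | hn
    · obtain ⟨d, hd, rfl⟩ := Finset.mem_image.1 hn
      have h1 := Nat.div_mul_cancel (a1 d hd)
      have h2 : d < N := lt_of_le_of_lt (le1 d hd) hqN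
      by_contra hcon
      push Not at hcon
      have : N / d * d ≤ 1 * d := Nat.mul_le_mul_right _ (by omega)
      omega
    · obtain ⟨d, hd, rfl⟩ := Finset.mem_image.1 hn
      have := big2 d hd
      omega
  · rw [Finset.sum_union hdisj, Finset.sum_image inj1, Finset.sum_image inj2]
    have hNq : (N : ℚ) ≠ 0 := by exact_mod_cast hN0.ne'
    have hbq : (b : ℚ) ≠ 0 := by exact_mod_cast hb0.ne'
    have s1 : ∑ d ∈ D1, (1 : ℚ) / ((N / d : ℕ) : ℚ) = (q : ℚ) / N := by
      have : ∀ d ∈ D1, (1 : ℚ) / ((N / d : ℕ) : ℚ) = (d : ℚ) / N := by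
        intro d hd
        have hd0 : (d : ℚ) ≠ 0 := by exact_mod_cast (pos1 d hd).ne'
        rw [Nat.cast_div (a1 d hd) hd0]
        field_simp
      rw [Finset.sum_congr rfl this, ← Finset.sum_div, ← a2]
      push_cast
      rfl
    have s2 : ∑ d ∈ D2, (1 : ℚ) / ((b * (N / d) : ℕ) : ℚ) = (r : ℚ) / (b * N) := by
      have : ∀ d ∈ D2, (1 : ℚ) / ((b * (N / d) : ℕ) : ℚ) = (d : ℚ) / (b * N) := by
        intro d hd
        have hd0 : (d : ℚ) ≠ 0 := by exact_mod_cast (pos2 d hd).ne'
        rw [Nat.cast_mul, Nat.cast_div (b1 d hd) hd0]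
        field_simp
      rw [Finset.sum_congr rfl this, ← Finset.sum_div, ← b2]
      push_cast
      rfl
    rw [s1, s2]
    have hdivq : (b : ℚ) * q + r = a * N := by exact_mod_cast hdiv
    field_simp
    linarith
  · have c1 := Finset.card_union_le (D1.image (fun d => N / d)) (D2.image (fun d => b * (N / d)))
    have c2 := Finset.card_image_le (s := D1) (f := fun d => N / d)
    have c3 := Finset.card_image_le (s := D2) (f := fun d => b * (N / d))
    omega

end P012
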