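import Vale.Agent.Lib.P012.Defs

/-!
# P012 module M2: the bilinear character sum bound.
-/

namespace P012

open Finset

/-- `En` as a sum of squares of the fibre sizes -/
theorem En_eq_sum_sq (X : Finset ℕ) (d : ℕ) (hd : 0 < d) :
    En X d = ∑ α ∈ range d, ((X.filter fun a => a % d = α).card) ^ 2 := by
  classical
  unfold En
  rw [Finset.card_eq_sum_card_fiberwise (f := fun p : ℕ × ℕ => p.1 % d) (t := range d)
    (fun p _ => Finset.mem_coe.2 (Finset.mem_range.2 (Nat.mod_lt _ hd)))]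
  apply Finset.sum_congr rfl
  intro α _
  rw [sq, ← Finset.card_product]
  congr 1
  ext ⟨x, y⟩
  rw [Finset.mem_filter, Finset.mem_filter, Finset.mem_product, Finset.mem_product,
    Finset.mem_filter, Finset.mem_filter]
  simp only [Nat.ModEq]
  constructor
  · rintro ⟨⟨⟨hx, hy⟩, hxy⟩, hα⟩
    exact ⟨⟨hx, hα⟩, hy, by omega⟩
  · rintro ⟨⟨hx, hα⟩, hy, hβ⟩
    exact ⟨⟨⟨hx, hy⟩, by omega⟩, hα⟩

theorem geom_char {q : ℕ} [NeZero q] (d : ℕ) (ξ : ZMod q) (h1 : ξ * (d : ZMod q) = 0)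
    (t : ZMod q) :
    ∑ α ∈ range d, ZMod.stdAddChar (ξ * (α : ZMod q) * t)
      = if ξ * t = 0 then (d : ℂ) else 0 := by
  have hpow : ∀ α : ℕ, ZMod.stdAddChar (ξ * (α : ZMod q) * t) = (ZMod.stdAddChar (ξ * t)) ^ α := by
    intro α
    rw [← AddChar.map_nsmul_eq_pow]
    congr 1
    rw [nsmul_eq_mul]; ring
  simp_rw [hpow]
  split_ifs with h
  · rw [h]; simp
  · have hne : ZMod.stdAddChar (ξ * t) ≠ 1 := by
      intro hh
      apply h
      apply ZMod.injective_stdAddChar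
      rw [hh, AddChar.map_zero_eq_one]
    rw [geom_sum_eq hne]
    have : (ZMod.stdAddChar (ξ * t)) ^ d = 1 := by
      rw [← AddChar.map_nsmul_eq_pow, nsmul_eq_mul]
      have : (d : ZMod q) * (ξ * t) = (ξ * d) * t := by ring
      rw [this, h1]; simp
    rw [this]; simp

theorem sum_norm_sq_le {q : ℕ} [NeZero q] (d : ℕ) (ξ : ZMod q)
    (h1 : ξ * (d : ZMod q) = 0) (h2 : ∀ δ : ℤ, ξ * (δ : ZMod q) = 0 → (d : ℤ) ∣ δ)
    (B : Finset ℕ) :
    ∑ α ∈ range d, ‖∑ b ∈ B, ZMod.stdAddChar (ξ * (α : ZMod q) * (b : ZMod q))‖ ^ 2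
      ≤ (d : ℝ) * En B d := by
  classical
  have key : ((∑ α ∈ range d, ‖∑ b ∈ B, ZMod.stdAddChar (ξ * (α : ZMod q) * (b : ZMod q))‖ ^ 2 : ℝ) : ℂ)
      = (d : ℂ) * (((B ×ˢ B).filter fun p => ξ * ((p.1 : ZMod q) - (p.2 : ZMod q)) = 0).card : ℂ) := by
    push_cast
    have e1 : ∀ α : ℕ, ((‖∑ b ∈ B, ZMod.stdAddChar (ξ * (α : ZMod q) * (b : ZMod q))‖ : ℂ)) ^ 2
        = ∑ p ∈ B ×ˢ B, ZMod.stdAddChar (ξ * (α : ZMod q) * ((p.1 : ZMod q) - (p.2 : ZMod q))) := by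
      intro α
      rw [← Complex.mul_conj', map_sum, Finset.sum_mul_sum, Finset.sum_product]
      apply Finset.sum_congr rfl
      intro b _
      apply Finset.sum_congr rfl
      intro b' _
      rw [← AddChar.map_neg_eq_conj, ← AddChar.map_add_eq_mul]
      congr 1
      ring
    simp_rw [e1]
    rw [Finset.sum_comm]
    simp_rw [geom_char d ξ h1]
    rw [← Finset.sum_filter, Finset.sum_const, nsmul_eq_mul, mul_comm]
  have key' : (∑ α ∈ range d, ‖∑ b ∈ B, ZMod.stdAddChar (ξ * (α : ZMod q) * (b : ZMod q))‖ ^ 2 : ℝ)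
      = (d : ℝ) * (((B ×ˢ B).filter fun p => ξ * ((p.1 : ZMod q) - (p.2 : ZMod q)) = 0).card : ℝ) := by
    exact_mod_cast key
  rw [key']
  apply mul_le_mul_of_nonneg_left _ (Nat.cast_nonneg d)
  unfold En
  apply Nat.cast_le.2
  apply Finset.card_le_card
  intro p hp
  rw [Finset.mem_filter] at hp ⊢
  refine ⟨hp.1, ?_⟩
  have := h2 ((p.1 : ℤ) - (p.2 : ℤ)) (by push_cast; exact hp.2)
  exact ((Nat.modEq_iff_dvd.2 (by
    have h3 : (d : ℤ) ∣ (p.2 : ℤ) - (p.1 : ℤ) := by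
      have : (p.2 : ℤ) - (p.1 : ℤ) = -((p.1 : ℤ) - (p.2 : ℤ)) := by ring
      rw [this]; exact (dvd_neg).2 ‹_›
    exact h3)))

theorem bilinear_bound {q : ℕ} [NeZero q] (d : ℕ) (hd : 0 < d) (ξ : ZMod q)
    (h1 : ξ * (d : ZMod q) = 0) (h2 : ∀ δ : ℤ, ξ * (δ : ZMod q) = 0 → (d : ℤ) ∣ δ)
    (A B : Finset ℕ) :
    ‖∑ a ∈ A, ∑ b ∈ B, ZMod.stdAddChar (ξ * (a : ZMod q) * (b : ZMod q))‖ ^ 2
      ≤ (d : ℝ) * En A d * En B d := by
  classical
  set G : ℕ → ℂ := fun a => ∑ b ∈ B, ZMod.stdAddChar (ξ * (a : ZMod q) * (b : ZMod q)) with hG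
  have hmod : ∀ a : ℕ, G a = G (a % d) := by
    intro a
    simp only [hG]
    apply Finset.sum_congr rfl
    intro b _
    congr 2
    have : (a : ZMod q) = ((a % d : ℕ) : ZMod q) + (d : ZMod q) * ((a / d : ℕ) : ZMod q) := by
      rw [← Nat.cast_mul, ← Nat.cast_add, Nat.mod_add_div]
    rw [this, mul_add, ← mul_assoc, h1]; simp
  set μ : ℕ → ℕ := fun α => (A.filter fun a => a % d = α).card with hμ
  have e1 : ∑ a ∈ A, G a = ∑ α ∈ range d, (μ α : ℂ) * G α := by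
    rw [← Finset.sum_fiberwise_of_maps_to (g := fun a => a % d) (t := range d)
      (fun a _ => Finset.mem_range.2 (Nat.mod_lt _ hd))]
    apply Finset.sum_congr rfl
    intro α _
    have : ∀ a ∈ A.filter (fun a => a % d = α), G a = G α := by
      intro a ha
      rw [hmod a, (Finset.mem_filter.1 ha).2]
    rw [Finset.sum_congr rfl this, Finset.sum_const, nsmul_eq_mul]
  have e2 : ‖∑ a ∈ A, G a‖ ≤ ∑ α ∈ range d, (μ α : ℝ) * ‖G α‖ := by
    rw [e1]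
    refine (norm_sum_le _ _).trans (le_of_eq ?_)
    apply Finset.sum_congr rfl
    intro α _
    rw [norm_mul]; simp
  have e3 : (∑ α ∈ range d, (μ α : ℝ) * ‖G α‖) ^ 2
      ≤ (∑ α ∈ range d, (μ α : ℝ) ^ 2) * ∑ α ∈ range d, ‖G α‖ ^ 2 :=
    Finset.sum_mul_sq_le_sq_mul_sq _ _ _
  have e4 : (∑ α ∈ range d, (μ α : ℝ) ^ 2) = En A d := by
    rw [En_eq_sum_sq A d hd]; push_cast; rfl
  have e5 := sum_norm_sq_le d ξ h1 h2 B
  calc ‖∑ a ∈ A, G a‖ ^ 2 ≤ (∑ α ∈ range d, (μ α : ℝ) * ‖G α‖) ^ 2 :=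
        pow_le_pow_left₀ (norm_nonneg _) e2 2
    _ ≤ (∑ α ∈ range d, (μ α : ℝ) ^ 2) * ∑ α ∈ range d, ‖G α‖ ^ 2 := e3
    _ ≤ (En A d : ℝ) * ((d : ℝ) * En B d) := by
        rw [e4]
        exact mul_le_mul_of_nonneg_left e5 (Nat.cast_nonneg _)
    _ = (d : ℝ) * En A d * En B d := by ring

end P012
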