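import Vale.Agent.Lib.P012.Defs

/-!
# P012 module M5: there are many primes in `(2^y, 2^(2y)]`.
-/

namespace P012

open Finset

theorem two_pow_le_primes (z : ℕ) :
    2 ^ z ≤ z + 1 + z * (Nat.primesLE (2 ^ z)).card := by
  set n := 2 ^ z with hn
  have hn0 : n ≠ 0 := by positivity
  have h1 := Chebyshev.two_pow_le_mul_lcmUpto n
  have h2 : Nat.lcmUpto n ≤ n ^ (Nat.primesLE n).card := by
    rw [Nat.lcmUpto_eq_prod_pow_log]
    exact Finset.prod_le_pow_card _ _ _ (fun p _ => Nat.pow_log_le_self p hn0)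
  have h3 : n + 1 ≤ 2 ^ (z + 1) := by
    have : 2 ^ (z + 1) = 2 * 2 ^ z := by ring
    have h4 : 1 ≤ 2 ^ z := Nat.one_le_two_pow
    omega
  have h5 : 2 ^ n ≤ 2 ^ (z + 1 + z * (Nat.primesLE n).card) := by
    calc 2 ^ n ≤ (n + 1) * Nat.lcmUpto n := h1
      _ ≤ 2 ^ (z + 1) * n ^ (Nat.primesLE n).card := Nat.mul_le_mul h3 h2
      _ = 2 ^ (z + 1 + z * (Nat.primesLE n).card) := by
          rw [hn, ← pow_mul, ← pow_add]
  exact (Nat.pow_le_pow_iff_right (by norm_num)).1 h5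

theorem pool_card (y : ℕ) (hy : 6 ≤ y) : 2 ^ (2 * y) ≤ 2 * (2 * y) * (pool y).card := by
  classical
  have h1 := two_pow_le_primes (2 * y)
  have h2 : (Nat.primesLE (2 ^ (2 * y))).card ≤ (pool y).card + 2 ^ y := by
    have hsub : Nat.primesLE (2 ^ (2 * y)) ⊆ pool y ∪ Finset.Icc 1 (2 ^ y) := by
      intro p hp
      rw [Nat.mem_primesLE] at hp
      rw [Finset.mem_union]
      by_cases h : p ≤ 2 ^ y
      · right
        exact Finset.mem_Icc.2 ⟨hp.2.one_le, h⟩
      · left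
        simp only [pool, Finset.mem_filter, Finset.mem_Ioc]
        exact ⟨⟨by omega, hp.1⟩, hp.2⟩
    have := (Finset.card_le_card hsub).trans (Finset.card_union_le _ _)
    simpa using this
  have h3 : 2 * (2 * y + 1 + 2 * y * 2 ^ y) ≤ 2 ^ (2 * y) := by
    have key : ∀ k, 6 ≤ k → 4 * k + 1 ≤ 2 ^ (k - 1) ∧ 1 ≤ k := by
      intro k hk
      induction k, hk using Nat.le_induction with
      | base => norm_num
      | succ k hk ih =>
        refine ⟨?_, by omega⟩
        have : 2 ^ (k + 1 - 1) = 2 * 2 ^ (k - 1) := by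
          have : k + 1 - 1 = (k - 1) + 1 := by omega
          rw [this]; ring
        rw [this]
        have := ih.1
        omega
    have k1 := (key y hy).1
    have k2 : 2 ^ (2 * y) = 2 * 2 ^ (y - 1) * 2 ^ y := by
      have : 2 * y = 1 + (y - 1) + y := by omega
      conv_lhs => rw [this]
      rw [pow_add, pow_add]; ring
    have k3 : 1 ≤ 2 ^ y := Nat.one_le_two_pow
    have k4 : 2 * y + 1 ≤ (2 * y + 1) * 2 ^ y := Nat.le_mul_of_pos_right _ (by omega)
    rw [k2]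
    calc 2 * (2 * y + 1 + 2 * y * 2 ^ y) ≤ 2 * ((2 * y + 1) * 2 ^ y + 2 * y * 2 ^ y) := by omega
      _ = 2 * (4 * y + 1) * 2 ^ y := by ring
      _ ≤ 2 * 2 ^ (y - 1) * 2 ^ y := Nat.mul_le_mul_right _ (Nat.mul_le_mul_left _ k1)
  have h4 : 2 * y * (Nat.primesLE (2 ^ (2 * y))).card ≤ 2 * y * ((pool y).card + 2 ^ y) :=
    Nat.mul_le_mul_left _ h2
  have h5 : 2 * y * ((pool y).card + 2 ^ y) = 2 * y * (pool y).card + 2 * y * 2 ^ y := by ring
  have h6 : 2 * (2 * y) * (pool y).card = 2 * (2 * y * (pool y).card) := by ring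
  omega

end P012
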