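import Vale.Agent.Lib.P012.Basic
import Vale.Agent.Lib.P012.Cover
import Vale.Agent.Lib.P012.Primes

/-!
# P012 module M6: the iterative construction.
-/

namespace P012

open Finset

theorem mem_pool {y p : ℕ} : p ∈ pool y ↔ (2 ^ y < p ∧ p ≤ 2 ^ (2 * y)) ∧ p.Prime := by
  simp [pool]

/-- the state of the construction -/
def Good (y e g1 g2 h : ℕ) : Prop :=
  ∃ (P1 P2 : Finset ℕ) (hs : Fin 4 → ℕ),
    P1 ⊆ pool y ∧ P2 ⊆ pool y ∧ (∀ i, hs i ∈ pool y) ∧ Function.Injective hs ∧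
    Disjoint P1 P2 ∧ (∀ i, hs i ∉ P1) ∧ (∀ i, hs i ∉ P2) ∧ P1.card = g1 ∧ P2.card = g2 ∧
    Rep (2 ^ e * ((∏ i, hs i) * (∏ p ∈ P1, p) * (∏ p ∈ P2, p))) h

theorem Good.swap {y e g1 g2 h : ℕ} (hG : Good y e g1 g2 h) : Good y e g2 g1 h := by
  obtain ⟨P1, P2, hs, h1, h2, h3, h4, h5, h6, h7, h8, h9, h10⟩ := hG
  refine ⟨P2, P1, hs, h2, h1, h3, h4, h5.symm, h7, h6, h9, h8, ?_⟩
  have : (∏ i, hs i) * (∏ p ∈ P2, p) * (∏ p ∈ P1, p) = (∏ i, hs i) * (∏ p ∈ P1, p) * (∏ p ∈ P2, p) := by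
    ring
  rw [this]; exact h10

theorem prod_injOn {P : Finset ℕ} (hP : ∀ p ∈ P, p.Prime) :
    Set.InjOn (fun W : Finset ℕ => ∏ p ∈ W, p) (P.powerset : Set (Finset ℕ)) := by
  intro W1 h1 W2 h2 h
  have h1' : ∀ p ∈ W1, p.Prime := fun p hp => hP p (Finset.mem_powerset.1 h1 hp)
  have h2' : ∀ p ∈ W2, p.Prime := fun p hp => hP p (Finset.mem_powerset.1 h2 hp)
  have := congrArg Nat.primeFactors h
  simpa [Nat.primeFactors_prod h1', Nat.primeFactors_prod h2'] using this

theorem prime_dvd_prod_primes {P : Finset ℕ} (hP : ∀ p ∈ P, p.Prime) {r : ℕ} (hr : r.Prime)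
    (h : r ∣ ∏ p ∈ P, p) : r ∈ P := by
  obtain ⟨p, hp, hrp⟩ := (Prime.dvd_finsetProd_iff hr.prime _).1 h
  rwa [(Nat.prime_dvd_prime_iff_eq hr (hP p hp)).1 hrp]


theorem prod_le_of_subset_pool {y : ℕ} {P W : Finset ℕ} (hP : P ⊆ pool y) (hW : W ⊆ P) :
    ∏ p ∈ W, p ≤ (2 ^ (2 * y)) ^ P.card := by
  calc ∏ p ∈ W, p ≤ (2 ^ (2 * y)) ^ W.card :=
        Finset.prod_le_pow_card _ _ _ (fun p hp => (mem_pool.1 (hP (hW hp))).1.2)
    _ ≤ (2 ^ (2 * y)) ^ P.card :=
        Nat.pow_le_pow_right (Nat.pos_of_ne_zero (by positivity)) (Finset.card_le_card hW)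

theorem Good.half_step {y e g1 g2 h n M G : ℕ} (hG : Good y e g1 g2 h) (he : 2 ≤ e) (hy : 6 ≤ y)
    (hn : 0 < n) (h1 : 2 * y * n ≤ g1) (h2 : 2 * y * n ≤ g2) (hg1 : g1 + n ≤ G) (hg2 : g2 ≤ G)
    (hM : 16 * (2 * y) * n * (G + 2) ≤ M)
    (hav : 4 * (2 * y) * (2 * G + 4) ≤ 2 ^ (2 * y))
    (hY : 10 ^ 6 * n * M ^ 4 ≤ 2 ^ y) : Good y e (g1 + n) g2 (h + 4) := by
  classical
  obtain ⟨P1, P2, hs, hP1, hP2, hhs, hinj, hdisj, hn1, hn2, hc1, hc2, hrep⟩ := hG
  have hpr1 : ∀ p ∈ P1, p.Prime := fun p hp => (mem_pool.1 (hP1 hp)).2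
  have hpr2 : ∀ p ∈ P2, p.Prime := fun p hp => (mem_pool.1 (hP2 hp)).2
  have hprs : ∀ i, (hs i).Prime := fun i => (mem_pool.1 (hhs i)).2
  set used : Finset ℕ := P1 ∪ P2 ∪ univ.image hs with hused
  set PP : Finset ℕ := pool y \ used with hPP
  have hused_card : used.card ≤ 2 * G + 4 := by
    have a1 : used.card ≤ (P1 ∪ P2).card + (univ.image hs).card := Finset.card_union_le _ _
    have a2 : (P1 ∪ P2).card ≤ P1.card + P2.card := Finset.card_union_le _ _
    have a3 : (univ.image hs).card ≤ 4 := by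
      simpa using (Finset.card_image_le (s := (univ : Finset (Fin 4))) (f := hs))
    omega
  have hpool := pool_card y hy
  have hPPc : (pool y).card ≤ PP.card + used.card := by
    have := Finset.le_card_sdiff used (pool y)
    rw [← hPP] at this
    omega
  have hPPcard : 2 ^ (2 * y) ≤ 4 * (2 * y) * PP.card := by
    have b1 : 2 * (2 * y) * (pool y).card ≤ 2 * (2 * y) * (PP.card + (2 * G + 4)) :=
      Nat.mul_le_mul_left _ (by omega)
    nlinarith
  have hGPP : 2 * G + 4 ≤ PP.card := by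
    by_contra hcon
    push Not at hcon
    have : 4 * (2 * y) * PP.card < 4 * (2 * y) * (2 * G + 4) :=
      Nat.mul_lt_mul_of_pos_left hcon (by omega)
    omega
  set A : Fin 4 → Finset ℕ := fun i => P1.powerset.image (fun W => hs i * ∏ p ∈ W, p) with hA
  set B : Fin 4 → Finset ℕ := fun _ => P2.powerset.image (fun W => ∏ p ∈ W, p) with hB
  have hZ2 : 2 ≤ 2 ^ (2 * y) := by
    calc 2 = 2 ^ 1 := by norm_num
      _ ≤ 2 ^ (2 * y) := Nat.pow_le_pow_right (by norm_num) (by omega)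
  have hAcard : ∀ i, (A i).card = 2 ^ g1 := by
    intro i
    rw [hA]
    simp only
    rw [Finset.card_image_of_injOn, Finset.card_powerset, hc1]
    intro W1 hW1 W2 hW2 hh
    exact prod_injOn hpr1 hW1 hW2 (Nat.eq_of_mul_eq_mul_left (hprs i).pos hh)
  have hBcard : ∀ i, (B i).card = 2 ^ g2 := by
    intro i
    rw [hB]
    simp only
    rw [Finset.card_image_of_injOn (prod_injOn hpr2), Finset.card_powerset, hc2]
  obtain ⟨T, hT, hTc, hcov⟩ := exists_block A B PP (2 ^ y) (2 ^ (2 * y)) ((2 ^ (2 * y)) ^ (G + 2))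
    (2 * (G + 2)) M n
    (by
      intro p hp
      have := mem_pool.1 (Finset.mem_sdiff.1 hp).1
      exact ⟨this.2, this.1.1, this.1.2⟩)
    (by
      intro i a ha
      obtain ⟨W, hW, rfl⟩ := Finset.mem_image.1 ha
      have c1 := prod_le_of_subset_pool hP1 (Finset.mem_powerset.1 hW)
      have c2 : hs i ≤ 2 ^ (2 * y) := (mem_pool.1 (hhs i)).1.2
      calc hs i * ∏ p ∈ W, p ≤ 2 ^ (2 * y) * (2 ^ (2 * y)) ^ P1.card := Nat.mul_le_mul c2 c1
        _ = (2 ^ (2 * y)) ^ (P1.card + 1) := by ring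
        _ < (2 ^ (2 * y)) ^ (G + 2) := Nat.pow_lt_pow_right (by omega) (by omega))
    (by
      intro i a ha
      obtain ⟨W, hW, rfl⟩ := Finset.mem_image.1 ha
      have c1 := prod_le_of_subset_pool hP2 (Finset.mem_powerset.1 hW)
      calc ∏ p ∈ W, p ≤ (2 ^ (2 * y)) ^ P2.card := c1
        _ < (2 ^ (2 * y)) ^ (G + 2) := Nat.pow_lt_pow_right (by omega) (by omega))
    (by
      apply le_of_eq
      rw [← pow_mul, ← pow_mul]
      congr 1
      ring)
    (by omega)
    (by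
      calc 2 * n * (2 * (G + 2)) * 2 ^ (2 * y) ≤ 2 * n * (2 * (G + 2)) * (4 * (2 * y) * PP.card) :=
            Nat.mul_le_mul_left _ hPPcard
        _ = (16 * (2 * y) * n * (G + 2)) * PP.card := by ring
        _ ≤ M * PP.card := Nat.mul_le_mul_right _ hM)
    (by
      have : 0 < 16 * (2 * y) * n * (G + 2) := by positivity
      omega)
    (by
      intro i
      rw [hAcard i, ← pow_mul]
      exact Nat.pow_le_pow_right (by norm_num) h1)
    (by
      intro i
      rw [hBcard i, ← pow_mul]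
      exact Nat.pow_le_pow_right (by norm_num) h2)
    hY
  have hTpool : T ⊆ pool y := fun p hp => (Finset.mem_sdiff.1 (hT hp)).1
  have hTused : ∀ p ∈ T, p ∉ used := fun p hp => (Finset.mem_sdiff.1 (hT hp)).2
  have hTpr : ∀ p ∈ T, p.Prime := fun p hp => (mem_pool.1 (hTpool hp)).2
  have hT1 : Disjoint P1 T := by
    rw [Finset.disjoint_left]
    intro p hp hpT
    exact hTused p hpT (by simp [hused, hp])
  have hT2 : Disjoint T P2 := by
    rw [Finset.disjoint_left]
    intro p hpT hp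
    exact hTused p hpT (by simp [hused, hp])
  have hTs : ∀ i, hs i ∉ T := by
    intro i hi
    exact hTused _ hi (by simp [hused])
  set N' : ℕ := (∏ i, hs i) * (∏ p ∈ P1, p) * (∏ p ∈ P2, p) with hN'
  have hN'pos : 0 < N' := by
    have e1 : 0 < ∏ i, hs i := Finset.prod_pos (fun i _ => (hprs i).pos)
    have e2 : 0 < ∏ p ∈ P1, p := Finset.prod_pos (fun p hp => (hpr1 p hp).pos)
    have e3 : 0 < ∏ p ∈ P2, p := Finset.prod_pos (fun p hp => (hpr2 p hp).pos)
    positivity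
  refine ⟨P1 ∪ T, P2, hs, Finset.union_subset hP1 hTpool, hP2, hhs, hinj, ?_, ?_, hn2, ?_, hc2, ?_⟩
  · rw [Finset.disjoint_union_left]; exact ⟨hdisj, hT2⟩
  · intro i hi
    rcases Finset.mem_union.1 hi with hi | hi
    · exact hn1 i hi
    · exact hTs i hi
  · rw [Finset.card_union_of_disjoint hT1, hc1, hTc]
  · have hq1 : 1 < ∏ p ∈ T, p := by
      obtain ⟨p, hp⟩ : T.Nonempty := Finset.card_pos.1 (by omega)
      have d1 : p ∣ ∏ p ∈ T, p := Finset.dvd_prod_of_mem _ hp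
      have d2 : 0 < ∏ p ∈ T, p := Finset.prod_pos (fun p hp => (hTpr p hp).pos)
      have d3 := Nat.le_of_dvd d2 d1
      have d4 := (hTpr p hp).two_le
      omega
    have hcop : Nat.Coprime (∏ p ∈ T, p) (2 ^ e * N') := by
      apply Nat.Coprime.prod_left
      intro p hp
      have hpp := hTpr p hp
      have hp2 : 2 < p := by
        have f1 := (mem_pool.1 (hTpool hp)).1.1
        have f2 : 2 ^ 1 ≤ 2 ^ y := Nat.pow_le_pow_right (by norm_num) (by omega)
        omega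
      apply Nat.Coprime.mul_right
      · apply Nat.Coprime.pow_right
        rw [Nat.coprime_primes hpp Nat.prime_two]
        omega
      · rw [hN']
        apply Nat.Coprime.mul_right
        · apply Nat.Coprime.mul_right
          · apply Nat.Coprime.prod_right
            intro i _
            rw [Nat.coprime_primes hpp (hprs i)]
            rintro rfl
            exact hTs i hp
          · apply Nat.Coprime.prod_right
            intro r hr
            rw [Nat.coprime_primes hpp (hpr1 r hr)]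
            rintro rfl
            exact (Finset.disjoint_left.1 hT1) hr hp
        · apply Nat.Coprime.prod_right
          intro r hr
          rw [Nat.coprime_primes hpp (hpr2 r hr)]
          rintro rfl
          exact (Finset.disjoint_left.1 hT2) hp hr
    have key := Rep.step (t := 4) hrep hcop hq1 (by
      intro x
      obtain ⟨a, b, hab, hx⟩ := hcov x
      have hdiv : ∀ i, a i * b i ∣ N' := by
        intro i
        obtain ⟨W1, hW1, e1⟩ := Finset.mem_image.1 (hab i).1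
        obtain ⟨W2, hW2, e2⟩ := Finset.mem_image.1 (hab i).2
        rw [← e1, ← e2, hN']
        apply Nat.mul_dvd_mul
        · apply Nat.mul_dvd_mul
          · exact Finset.dvd_prod_of_mem _ (Finset.mem_univ i)
          · exact Finset.prod_dvd_prod_of_subset _ _ _ (Finset.mem_powerset.1 hW1)
        · exact Finset.prod_dvd_prod_of_subset _ _ _ (Finset.mem_powerset.1 hW2)
      have hinj' : Function.Injective (fun i => a i * b i) := by
        intro i j hij
        by_contra hne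
        obtain ⟨W1, hW1, e1⟩ := Finset.mem_image.1 (hab i).1
        obtain ⟨W1', hW1', e1'⟩ := Finset.mem_image.1 (hab j).1
        obtain ⟨W2', hW2', e2'⟩ := Finset.mem_image.1 (hab j).2
        have g1 : hs i ∣ a j * b j := by
          have : a i * b i = a j * b j := hij
          rw [← this, ← e1]
          exact Dvd.dvd.mul_right (Dvd.intro _ rfl) _
        rw [← e1', ← e2'] at g1
        rcases (Nat.Prime.dvd_mul (hprs i)).1 g1 with g2 | g2
        · rcases (Nat.Prime.dvd_mul (hprs i)).1 g2 with g3 | g3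
          · exact hne (hinj ((Nat.prime_dvd_prime_iff_eq (hprs i) (hprs j)).1 g3))
          · have := prime_dvd_prod_primes (fun p hp => hpr1 p (Finset.mem_powerset.1 hW1' hp)) (hprs i) g3
            exact hn1 i (Finset.mem_powerset.1 hW1' this)
        · have := prime_dvd_prod_primes (fun p hp => hpr2 p (Finset.mem_powerset.1 hW2' hp)) (hprs i) g2
          exact hn2 i (Finset.mem_powerset.1 hW2' this)
      have hsum : ∑ d ∈ univ.image (fun i => a i * b i), d = ∑ i, a i * b i :=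
        Finset.sum_image (fun i _ j _ hij => hinj' hij)
      refine ⟨univ.image (fun i => a i * b i), ?_, ?_, ?_, ?_⟩
      · intro d hd
        obtain ⟨i, _, rfl⟩ := Finset.mem_image.1 hd
        exact Dvd.dvd.mul_left (hdiv i) _
      · simpa using (Finset.card_image_le (s := (univ : Finset (Fin 4))) (f := fun i => a i * b i))
      · rw [hsum]
        have k1 : ∑ i, a i * b i ≤ ∑ _i : Fin 4, N' :=
          Finset.sum_le_sum (fun i _ => Nat.le_of_dvd hN'pos (hdiv i))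
        have k2 : ∑ _i : Fin 4, N' = 4 * N' := by simp
        have k3 : 2 ^ 2 ≤ 2 ^ e := Nat.pow_le_pow_right (by norm_num) he
        have k4 : 4 * N' ≤ 2 ^ e * N' := Nat.mul_le_mul_right _ (by omega)
        omega
      · rw [hsum]; exact hx)
    have hfin : 2 ^ e * ((∏ i, hs i) * (∏ p ∈ P1 ∪ T, p) * (∏ p ∈ P2, p)) = 2 ^ e * N' * ∏ p ∈ T, p := by
      rw [Finset.prod_union hT1, hN']; ring
    rw [hfin]
    exact key

theorem Good.full_step {y e g h n M G : ℕ} (hG : Good y e g g h) (he : 2 ≤ e) (hy : 6 ≤ y)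
    (hn : 0 < n) (h1 : 2 * y * n ≤ g) (hg : g + n ≤ G)
    (hM : 16 * (2 * y) * n * (G + 2) ≤ M)
    (hav : 4 * (2 * y) * (2 * G + 4) ≤ 2 ^ (2 * y))
    (hY : 10 ^ 6 * n * M ^ 4 ≤ 2 ^ y) : Good y e (g + n) (g + n) (h + 8) := by
  have s1 := hG.half_step he hy hn h1 h1 hg (by omega) hM hav hY
  have s3 := s1.swap.half_step he hy hn h1 (by omega) hg hg hM hav hY
  exact s3

theorem Good.phase {y e h w M G : ℕ} (hG : Good y e (2 * y * w) (2 * y * w) h) (he : 2 ≤ e)
    (hy : 6 ≤ y) (hw : 0 < w) (hGw : 2 * y * (2 * w) ≤ G)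
    (hM : 16 * (2 * y) * w * (G + 2) ≤ M)
    (hav : 4 * (2 * y) * (2 * G + 4) ≤ 2 ^ (2 * y))
    (hY : 10 ^ 6 * w * M ^ 4 ≤ 2 ^ y) :
    Good y e (2 * y * (2 * w)) (2 * y * (2 * w)) (h + 8 * (2 * y)) := by
  have key : ∀ i, i ≤ 2 * y → Good y e (2 * y * w + i * w) (2 * y * w + i * w) (h + 8 * i) := by
    intro i
    induction i with
    | zero => intro _; simpa using hG
    | succ i ih =>
      intro hi
      have h0 := ih (by omega)
      have hle : (i + 1) * w ≤ 2 * y * w := Nat.mul_le_mul_right _ hi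
      have := h0.full_step (n := w) he hy hw (by omega)
        (by
          have : 2 * y * w + i * w + w = 2 * y * w + (i + 1) * w := by ring
          have h2 : 2 * y * (2 * w) = 2 * y * w + 2 * y * w := by ring
          omega) hM hav hY
      have e1 : 2 * y * w + i * w + w = 2 * y * w + (i + 1) * w := by ring
      have e2 : h + 8 * i + 8 = h + 8 * (i + 1) := by ring
      rw [e1, e2] at this
      exact this
  have := key (2 * y) le_rfl
  have e1 : 2 * y * w + 2 * y * w = 2 * y * (2 * w) := by ring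
  rw [e1] at this
  exact this

theorem Good.iterate {y e h u M G : ℕ} (hG : Good y e (2 * y) (2 * y) h) (he : 2 ≤ e)
    (hy : 6 ≤ y) (hGw : 2 * y * 2 ^ u ≤ G)
    (hM : 16 * (2 * y) * 2 ^ u * (G + 2) ≤ M)
    (hav : 4 * (2 * y) * (2 * G + 4) ≤ 2 ^ (2 * y))
    (hY : 10 ^ 6 * 2 ^ u * M ^ 4 ≤ 2 ^ y) :
    Good y e (2 * y * 2 ^ u) (2 * y * 2 ^ u) (h + 8 * (2 * y) * u) := by
  have key : ∀ j, j ≤ u → Good y e (2 * y * 2 ^ j) (2 * y * 2 ^ j) (h + 8 * (2 * y) * j) := by
    intro j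
    induction j with
    | zero => intro _; simpa using hG
    | succ j ih =>
      intro hj
      have h0 := ih (by omega)
      have hp : 2 ^ (j + 1) ≤ 2 ^ u := Nat.pow_le_pow_right (by norm_num) hj
      have hp' : 2 ^ j ≤ 2 ^ u := Nat.pow_le_pow_right (by norm_num) (by omega)
      have e0 : 2 * 2 ^ j = 2 ^ (j + 1) := by ring
      have := h0.phase he hy (by positivity)
        (by rw [e0]; exact le_trans (Nat.mul_le_mul_left _ hp) hGw)
        (le_trans (Nat.mul_le_mul_right _ (Nat.mul_le_mul_left _ hp')) hM) hav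
        (le_trans (Nat.mul_le_mul_right _ (Nat.mul_le_mul_left _ hp')) hY)
      rw [e0] at this
      have e2 : h + 8 * (2 * y) * j + 8 * (2 * y) = h + 8 * (2 * y) * (j + 1) := by ring
      rw [e2] at this
      exact this
  exact key u le_rfl

theorem good_base {y : ℕ} (hy : 6 ≤ y) :
    Good y (2 * y * (2 * (2 * y) + 4)) (2 * y) (2 * y) (2 * (2 * y * (2 * (2 * y) + 4))) := by
  classical
  have hpool := pool_card y hy
  have hbig : 2 * (2 * y) + 4 ≤ (pool y).card := by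
    by_contra hcon
    push Not at hcon
    have h1 : 2 * (2 * y) * (pool y).card ≤ 2 * (2 * y) * (2 * (2 * y) + 4) :=
      Nat.mul_le_mul_left _ hcon.le
    have h2 : 2 * (2 * y) * (2 * (2 * y) + 4) < 2 ^ (2 * y) := by
      have : ∀ k, 6 ≤ k → 2 * (2 * k) * (2 * (2 * k) + 4) < 2 ^ (2 * k) := by
        intro k hk
        induction k, hk using Nat.le_induction with
        | base => norm_num
        | succ k hk ih =>
          have : 2 ^ (2 * (k + 1)) = 4 * 2 ^ (2 * k) := by ring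
          rw [this]
          nlinarith
      exact this y hy
    omega
  obtain ⟨P1, hP1, hc1⟩ := Finset.exists_subset_card_eq (s := pool y) (n := 2 * y) (by omega)
  obtain ⟨P2, hP2, hc2⟩ := Finset.exists_subset_card_eq (s := pool y \ P1) (n := 2 * y) (by
    have := Finset.le_card_sdiff P1 (pool y); omega)
  obtain ⟨Hs, hHs, hc3⟩ := Finset.exists_subset_card_eq (s := (pool y \ P1) \ P2) (n := 4) (by
    have a1 := Finset.le_card_sdiff P1 (pool y)
    have a2 := Finset.le_card_sdiff P2 (pool y \ P1)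
    omega)
  set hs : Fin 4 → ℕ := fun i => Hs.orderEmbOfFin hc3 i with hhs
  have hmem : ∀ i, hs i ∈ Hs := fun i => Finset.orderEmbOfFin_mem Hs hc3 i
  have hP2' : P2 ⊆ pool y := fun p hp => (Finset.mem_sdiff.1 (hP2 hp)).1
  have hsp : ∀ i, hs i ∈ pool y := fun i =>
    (Finset.mem_sdiff.1 (Finset.mem_sdiff.1 (hHs (hmem i))).1).1
  have hpr1 : ∀ p ∈ P1, p.Prime := fun p hp => (mem_pool.1 (hP1 hp)).2
  have hpr2 : ∀ p ∈ P2, p.Prime := fun p hp => (mem_pool.1 (hP2' hp)).2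
  have hprs : ∀ i, (hs i).Prime := fun i => (mem_pool.1 (hsp i)).2
  have hodd : ∀ p ∈ pool y, Nat.Coprime p 2 := by
    intro p hp
    have hpp := (mem_pool.1 hp).2
    rw [Nat.coprime_primes hpp Nat.prime_two]
    have f1 := (mem_pool.1 hp).1.1
    have f2 : 2 ^ 1 ≤ 2 ^ y := Nat.pow_le_pow_right (by norm_num) (by omega)
    omega
  refine ⟨P1, P2, hs, hP1, hP2', hsp, (Hs.orderEmbOfFin hc3).injective, ?_, ?_, ?_, hc1, hc2, ?_⟩
  · rw [Finset.disjoint_left]
    intro p hp1 hp2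
    exact (Finset.mem_sdiff.1 (hP2 hp2)).2 hp1
  · intro i hi
    exact (Finset.mem_sdiff.1 (Finset.mem_sdiff.1 (hHs (hmem i))).1).2 hi
  · intro i hi
    exact (Finset.mem_sdiff.1 (hHs (hmem i))).2 hi
  · set e : ℕ := 2 * y * (2 * (2 * y) + 4) with he
    set q : ℕ := (∏ i, hs i) * (∏ p ∈ P1, p) * (∏ p ∈ P2, p) with hq
    have hqle : q ≤ 2 ^ e := by
      have b1 : ∏ i, hs i ≤ (2 ^ (2 * y)) ^ 4 := by
        have := Finset.prod_le_pow_card (univ : Finset (Fin 4)) hs (2 ^ (2 * y))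
          (fun i _ => (mem_pool.1 (hsp i)).1.2)
        simpa using this
      have b2 := prod_le_of_subset_pool hP1 (Finset.Subset.refl P1)
      have b3 := prod_le_of_subset_pool hP2' (Finset.Subset.refl P2)
      rw [hc1] at b2
      rw [hc2] at b3
      calc q ≤ (2 ^ (2 * y)) ^ 4 * (2 ^ (2 * y)) ^ (2 * y) * (2 ^ (2 * y)) ^ (2 * y) :=
            Nat.mul_le_mul (Nat.mul_le_mul b1 b2) b3
        _ = 2 ^ e := by
            rw [← pow_mul, ← pow_mul, ← pow_add, ← pow_add, he]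
            congr 1
            ring
    have hq1 : 1 < q := by
      have c1 : 2 ≤ hs 0 := (hprs 0).two_le
      have c2 : hs 0 ∣ q := by
        rw [hq]
        exact Dvd.dvd.mul_right (Dvd.dvd.mul_right (Finset.dvd_prod_of_mem _ (Finset.mem_univ 0)) _) _
      have c3 : 0 < q := by
        have e1 : 0 < ∏ i, hs i := Finset.prod_pos (fun i _ => (hprs i).pos)
        have e2 : 0 < ∏ p ∈ P1, p := Finset.prod_pos (fun p hp => (hpr1 p hp).pos)
        have e3 : 0 < ∏ p ∈ P2, p := Finset.prod_pos (fun p hp => (hpr2 p hp).pos)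
        positivity
      have := Nat.le_of_dvd c3 c2
      omega
    have hcop : Nat.Coprime q (2 ^ e) := by
      apply Nat.Coprime.pow_right
      rw [hq]
      apply Nat.Coprime.mul_left
      · apply Nat.Coprime.mul_left
        · exact Nat.Coprime.prod_left (fun i _ => hodd _ (hsp i))
        · exact Nat.Coprime.prod_left (fun p hp => hodd _ (hP1 hp))
      · exact Nat.Coprime.prod_left (fun p hp => hodd _ (hP2' hp))
    have := Rep.step (t := e) (rep_two_pow e) hcop hq1 (by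
      intro x
      have hx : x % q < 2 ^ e := lt_of_lt_of_le (Nat.mod_lt _ (by omega)) hqle
      obtain ⟨D, hD1, hD2, hD3⟩ := rep_two_pow e (x % q) hx
      refine ⟨D, hD1, hD3, by omega, ?_⟩
      rw [hD2]
      exact Nat.mod_modEq x q)
    have e2 : e + e = 2 * e := by ring
    rw [e2] at this
    exact this

theorem Good.large {y e g1 g2 h : ℕ} (hG : Good y e g1 g2 h) :
    ∃ N, 2 ^ g1 ≤ N ∧ Rep N h := by
  obtain ⟨P1, P2, hs, hP1, hP2, hhs, hinj, hdisj, hn1, hn2, hc1, hc2, hrep⟩ := hG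
  refine ⟨_, ?_, hrep⟩
  have hpr1 : ∀ p ∈ P1, p.Prime := fun p hp => (mem_pool.1 (hP1 hp)).2
  have hpr2 : ∀ p ∈ P2, p.Prime := fun p hp => (mem_pool.1 (hP2 hp)).2
  have hprs : ∀ i, (hs i).Prime := fun i => (mem_pool.1 (hhs i)).2
  have e1 : 0 < ∏ i, hs i := Finset.prod_pos (fun i _ => (hprs i).pos)
  have e3 : 0 < ∏ p ∈ P2, p := Finset.prod_pos (fun p hp => (hpr2 p hp).pos)
  have e4 : 2 ^ g1 ≤ ∏ p ∈ P1, p := by
    rw [← hc1]
    exact Finset.pow_card_le_prod _ _ _ (fun p hp => (hpr1 p hp).two_le)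
  have e5 : 0 < 2 ^ e := by positivity
  calc 2 ^ g1 ≤ ∏ p ∈ P1, p := e4
    _ = 1 * (1 * (∏ p ∈ P1, p) * 1) := by ring
    _ ≤ 2 ^ e * ((∏ i, hs i) * (∏ p ∈ P1, p) * (∏ p ∈ P2, p)) := by
        apply Nat.mul_le_mul e5
        apply Nat.mul_le_mul _ e3
        exact Nat.mul_le_mul e1 le_rfl

/-- the main construction: a number `N ≥ 2^(2^u)` all of whose smaller numbers are sums of
`O(u^2)` distinct divisors -/
theorem main_rep (u : ℕ) : ∃ N h, 2 ^ (2 ^ u) ≤ N ∧ Rep N h ∧ h ≤ 10 ^ 6 * (u + 1) ^ 2 := by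
  set k : ℕ := 2 * u + 11 with hk
  set y : ℕ := 16 * k with hy
  have hy6 : 6 ≤ y := by omega
  set G : ℕ := 2 * y * 2 ^ u with hG
  set M : ℕ := 16 * (2 * y) * 2 ^ u * (G + 2) with hM
  have hk2 : k ≤ 2 ^ k := Nat.lt_two_pow_self.le
  have hz : 2 * y ≤ 2 ^ (5 + k) := by
    have : 2 * y = 2 ^ 5 * k := by rw [hy]; ring
    rw [this, pow_add]
    exact Nat.mul_le_mul_left _ hk2
  have hGle : G ≤ 2 ^ (5 + k + u) := by
    rw [hG, pow_add (2 : ℕ) (5 + k) u]
    exact Nat.mul_le_mul_right _ hz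
  have hG2 : G + 2 ≤ 2 ^ (6 + k + u) := by
    have a1 : 2 ≤ 2 ^ (5 + k + u) := by
      calc 2 = 2 ^ 1 := by norm_num
        _ ≤ 2 ^ (5 + k + u) := Nat.pow_le_pow_right (by norm_num) (by omega)
    have a2 : 2 ^ (6 + k + u) = 2 * 2 ^ (5 + k + u) := by ring
    omega
  have hMle : M ≤ 2 ^ (15 + 2 * k + 2 * u) := by
    calc M = 2 ^ 4 * (2 * y) * 2 ^ u * (G + 2) := by rw [hM]; norm_num
      _ ≤ 2 ^ 4 * 2 ^ (5 + k) * 2 ^ u * 2 ^ (6 + k + u) :=
          Nat.mul_le_mul (Nat.mul_le_mul_right _ (Nat.mul_le_mul_left _ hz)) hG2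
      _ = 2 ^ (15 + 2 * k + 2 * u) := by ring
  have hY : 10 ^ 6 * 2 ^ u * M ^ 4 ≤ 2 ^ y := by
    calc 10 ^ 6 * 2 ^ u * M ^ 4 ≤ 2 ^ 20 * 2 ^ u * (2 ^ (15 + 2 * k + 2 * u)) ^ 4 :=
          Nat.mul_le_mul (Nat.mul_le_mul_right _ (by norm_num)) (Nat.pow_le_pow_left hMle 4)
      _ = 2 ^ (20 + u + (15 + 2 * k + 2 * u) * 4) := by rw [← pow_mul, ← pow_add, ← pow_add]
      _ ≤ 2 ^ y := Nat.pow_le_pow_right (by norm_num) (by omega)
  have hav : 4 * (2 * y) * (2 * G + 4) ≤ 2 ^ (2 * y) := by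
    calc 4 * (2 * y) * (2 * G + 4) = 2 ^ 2 * (2 * y) * (2 * (G + 2)) := by ring
      _ ≤ 2 ^ 2 * 2 ^ (5 + k) * (2 * 2 ^ (6 + k + u)) :=
          Nat.mul_le_mul (Nat.mul_le_mul_left _ hz) (Nat.mul_le_mul_left _ hG2)
      _ = 2 ^ (14 + 2 * k + u) := by ring
      _ ≤ 2 ^ (2 * y) := Nat.pow_le_pow_right (by norm_num) (by omega)
  have h0 := good_base hy6
  have h1 := h0.iterate (u := u) (M := M) (G := G) (by nlinarith) hy6 le_rfl le_rfl hav hY
  obtain ⟨N, hN1, hN2⟩ := h1.large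
  refine ⟨N, _, ?_, hN2, ?_⟩
  · refine le_trans (Nat.pow_le_pow_right (by norm_num) ?_) hN1
    nlinarith [Nat.one_le_two_pow (n := u)]
  · rw [hy, hk]
    nlinarith

end P012
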