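import Vale.Agent.Lib.P012.Defs2
import Vale.Agent.Lib.P012.Cover

/-!
# P012 module L1: the general covering lemma (arbitrary modulus `q`, arbitrary index type).

FROZEN statements: `En_image_mul`, `card_image_mul`, `cover_general`.

Proof of `cover_general` (same Fourier argument as `Cover.lean`, see `fourier_zero`,
`cover_of_bounds`, `card_fiber_le` there, which treat `Fin 4` and squarefree `q`):
suppose no solution.  With `S i ξ = ∑ a ∈ A i, ∑ b ∈ B i, stdAddChar (ξ * a * b)` (`ξ : ZMod q`)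
orthogonality gives `∑ ξ, stdAddChar (-(ξ * x)) * ∏ i, S i ξ = 0`.
The term `ξ = 0` is `K = ∏ i, |A i| |B i| > 0`.
For `ξ ≠ 0` put `d = q / gcd (ξ.val) q`; then `d ∣ q`, `1 < d`, `ξ * d = 0` and
`ξ * δ = 0 → d ∣ δ`, so `bilinear_bound` gives `‖S i ξ‖^2 ≤ d * En (A i) d * En (B i) d`,
hence for `i ∈ s`: `‖S i ξ‖^2 * e^2 ≤ d * (|A i| |B i|)^2`; for `i ∉ s` use `‖S i ξ‖ ≤ |A i| |B i|`.
Multiplying the 32 slots: `‖∏ S‖^2 * e^64 ≤ d^32 * K^2`, and `e^64 ≥ d^40`, so `‖∏ S‖ ≤ K / d^4`.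
The number of `ξ` with a given `d` is at most `d` (`ξ.val` is a multiple of `q / d` below `q`), so
`∑_{ξ ≠ 0} ‖∏ S‖ ≤ K * ∑_{d ≥ 2} d^(-3) ≤ K / 4 < K` (telescoping:
`1/d^3 ≤ (1/2) (1/((d-1) d) - 1/(d (d+1)))`).  Contradiction.
-/

namespace P012

open Finset

theorem card_image_mul (X : Finset ℕ) (c : ℕ) (hc : 0 < c) :
    (X.image (fun x => c * x)).card = X.card := by
  apply Finset.card_image_of_injective
  intro x y hxy
  exact Nat.eq_of_mul_eq_mul_left hc hxy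

theorem En_image_mul (X : Finset ℕ) (c d : ℕ) (hc : 0 < c) (hcd : Nat.Coprime c d) :
    En (X.image (fun x => c * x)) d = En X d := by
  classical
  unfold En
  symm
  apply Finset.card_bij (fun p _ => (c * p.1, c * p.2))
  · rintro ⟨x, y⟩ hp
    rw [Finset.mem_filter, Finset.mem_product] at hp ⊢
    refine ⟨⟨Finset.mem_image_of_mem _ hp.1.1, Finset.mem_image_of_mem _ hp.1.2⟩, ?_⟩
    exact Nat.ModEq.mul_left c hp.2
  · rintro ⟨x, y⟩ _ ⟨x', y'⟩ _ h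
    simp only [Prod.mk.injEq] at h ⊢
    exact ⟨Nat.eq_of_mul_eq_mul_left hc h.1, Nat.eq_of_mul_eq_mul_left hc h.2⟩
  · rintro ⟨u, v⟩ hp
    rw [Finset.mem_filter, Finset.mem_product, Finset.mem_image, Finset.mem_image] at hp
    obtain ⟨⟨⟨x, hx, rfl⟩, ⟨y, hy, rfl⟩⟩, hmod⟩ := hp
    refine ⟨(x, y), ?_, rfl⟩
    rw [Finset.mem_filter, Finset.mem_product]
    refine ⟨⟨hx, hy⟩, ?_⟩
    exact Nat.ModEq.cancel_left_of_coprime (by rw [Nat.gcd_comm]; exact hcd) hmod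

/-- Fourier inversion: if `x` is not represented the twisted sum vanishes -/
theorem fourier_zero_gen {ι : Type*} [Fintype ι] [DecidableEq ι] {q : ℕ} [NeZero q]
    (A B : ι → Finset ℕ) (x : ℕ)
    (hno : ∀ a b : ι → ℕ, (∀ i, a i ∈ A i ∧ b i ∈ B i) → ¬ (∑ i, a i * b i) ≡ x [MOD q]) :
    ∑ ξ : ZMod q, ZMod.stdAddChar (-(ξ * (x : ZMod q))) *
      ∏ i, ∑ a ∈ A i, ∑ b ∈ B i, ZMod.stdAddChar (ξ * (a : ZMod q) * (b : ZMod q)) = 0 := by
  classical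
  have e : ∀ ξ : ZMod q,
      ∏ i, ∑ a ∈ A i, ∑ b ∈ B i, ZMod.stdAddChar (ξ * (a : ZMod q) * (b : ZMod q))
      = ∑ w ∈ Fintype.piFinset (fun i => A i ×ˢ B i),
          ZMod.stdAddChar (ξ * ∑ i, ((w i).1 : ZMod q) * ((w i).2 : ZMod q)) := by
    intro ξ
    have : ∀ i, ∑ a ∈ A i, ∑ b ∈ B i, ZMod.stdAddChar (ξ * (a : ZMod q) * (b : ZMod q))
        = ∑ w ∈ A i ×ˢ B i, ZMod.stdAddChar (ξ * (w.1 : ZMod q) * (w.2 : ZMod q)) := by
      intro i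
      rw [Finset.sum_product]
    simp_rw [this]
    rw [Finset.prod_univ_sum]
    apply Finset.sum_congr rfl
    intro w _
    rw [Finset.mul_sum, addChar_sum]
    apply Finset.prod_congr rfl
    intro i _
    congr 1
    ring
  simp_rw [e]
  have e0 : ∀ ξ : ZMod q, ZMod.stdAddChar (-(ξ * (x : ZMod q))) *
      ∑ w ∈ Fintype.piFinset (fun i => A i ×ˢ B i),
          ZMod.stdAddChar (ξ * ∑ i, ((w i).1 : ZMod q) * ((w i).2 : ZMod q))
      = ∑ w ∈ Fintype.piFinset (fun i => A i ×ˢ B i), ZMod.stdAddChar (-(ξ * (x : ZMod q))) *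
          ZMod.stdAddChar (ξ * ∑ i, ((w i).1 : ZMod q) * ((w i).2 : ZMod q)) := by
    intro ξ
    rw [Finset.mul_sum]
  simp_rw [e0]
  rw [Finset.sum_comm]
  apply Finset.sum_eq_zero
  intro w hw
  have e2 : ∀ ξ : ZMod q, ZMod.stdAddChar (-(ξ * (x : ZMod q))) *
      ZMod.stdAddChar (ξ * ∑ i, ((w i).1 : ZMod q) * ((w i).2 : ZMod q))
      = ZMod.stdAddChar (ξ * ((∑ i, ((w i).1 : ZMod q) * ((w i).2 : ZMod q)) - (x : ZMod q))) := by
    intro ξ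
    rw [← AddChar.map_add_eq_mul]
    congr 1
    ring
  simp_rw [e2]
  rw [AddChar.sum_mulShift _ (ZMod.isPrimitive_stdAddChar q)]
  rw [if_neg]
  · simp
  · intro h
    rw [Fintype.mem_piFinset] at hw
    apply hno (fun i => (w i).1) (fun i => (w i).2)
      (fun i => ⟨(Finset.mem_product.1 (hw i)).1, (Finset.mem_product.1 (hw i)).2⟩)
    rw [← ZMod.natCast_eq_natCast_iff]
    push_cast
    exact sub_eq_zero.1 h

/-- the exact order of `ξ` -/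
def ord {q : ℕ} (ξ : ZMod q) : ℕ := q / Nat.gcd ξ.val q

theorem ord_dvd {q : ℕ} (ξ : ZMod q) : ord ξ ∣ q :=
  Nat.div_dvd_of_dvd (Nat.gcd_dvd_right _ _)

theorem ord_mul_gcd {q : ℕ} (ξ : ZMod q) : ord ξ * Nat.gcd ξ.val q = q :=
  Nat.div_mul_cancel (Nat.gcd_dvd_right _ _)

theorem one_lt_ord {q : ℕ} [NeZero q] (ξ : ZMod q) (hξ : ξ ≠ 0) : 1 < ord ξ := by
  have hq : 0 < q := Nat.pos_of_ne_zero (NeZero.ne q)
  have hv : 0 < ξ.val := Nat.pos_of_ne_zero (fun h => hξ ((ZMod.val_eq_zero ξ).1 h))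
  have hlt : ξ.val < q := ZMod.val_lt ξ
  have hg : Nat.gcd ξ.val q ≤ ξ.val := Nat.gcd_le_left _ hv
  have h := ord_mul_gcd ξ
  by_contra hcon
  have h1 : ord ξ ≤ 1 := by omega
  have : ord ξ * Nat.gcd ξ.val q ≤ 1 * Nat.gcd ξ.val q := Nat.mul_le_mul_right _ h1
  omega

theorem ord_h1 {q : ℕ} [NeZero q] (ξ : ZMod q) : ξ * ((ord ξ : ℕ) : ZMod q) = 0 := by
  have h : q ∣ ξ.val * ord ξ := by
    obtain ⟨u, hu⟩ := Nat.gcd_dvd_left ξ.val q
    refine ⟨u, ?_⟩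
    calc ξ.val * ord ξ = (Nat.gcd ξ.val q * u) * ord ξ := by rw [← hu]
      _ = (ord ξ * Nat.gcd ξ.val q) * u := by ring
      _ = q * u := by rw [ord_mul_gcd]
  have := (ZMod.natCast_eq_zero_iff _ q).2 h
  rw [Nat.cast_mul, ZMod.natCast_val, ZMod.cast_id', id] at this
  exact this

theorem ord_h2 {q : ℕ} [NeZero q] (ξ : ZMod q) (δ : ℤ) (h : ξ * (δ : ZMod q) = 0) :
    ((ord ξ : ℕ) : ℤ) ∣ δ := by
  have hq : 0 < q := Nat.pos_of_ne_zero (NeZero.ne q)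
  have h' : ((ξ.val : ℤ) * δ : ℤ) ≡ 0 [ZMOD q] := by
    rw [← ZMod.intCast_eq_intCast_iff]
    push_cast
    rw [ZMod.natCast_val, ZMod.cast_id', id]
    exact h
  have hdvd : (q : ℤ) ∣ (ξ.val : ℤ) * δ := Int.modEq_zero_iff_dvd.1 h'
  have hgpos : 0 < Nat.gcd ξ.val q := Nat.gcd_pos_of_pos_right _ hq
  rw [Int.natCast_dvd]
  have h2 : q ∣ ξ.val * δ.natAbs := by
    have := Int.natAbs_dvd_natAbs.2 hdvd
    rwa [Int.natAbs_mul, Int.natAbs_natCast, Int.natAbs_natCast] at this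
  have hcop : Nat.Coprime (ord ξ) (ξ.val / Nat.gcd ξ.val q) := by
    have := Nat.coprime_div_gcd_div_gcd (m := ξ.val) (n := q) hgpos
    exact this.symm
  apply hcop.dvd_of_dvd_mul_left
  apply Nat.dvd_of_mul_dvd_mul_right hgpos
  rw [ord_mul_gcd]
  have e : ξ.val / Nat.gcd ξ.val q * δ.natAbs * Nat.gcd ξ.val q = ξ.val * δ.natAbs := by
    have := Nat.div_mul_cancel (Nat.gcd_dvd_left ξ.val q)
    calc ξ.val / Nat.gcd ξ.val q * δ.natAbs * Nat.gcd ξ.val q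
        = (ξ.val / Nat.gcd ξ.val q * Nat.gcd ξ.val q) * δ.natAbs := by ring
      _ = ξ.val * δ.natAbs := by rw [this]
  rw [e]
  exact h2

theorem card_ord_le {q : ℕ} [NeZero q] (d : ℕ) :
    ((Finset.univ : Finset (ZMod q)).filter fun ξ => ord ξ = d).card ≤ d := by
  classical
  have hq : 0 < q := Nat.pos_of_ne_zero (NeZero.ne q)
  refine le_of_le_of_eq (b := (Finset.range d).card) ?_ (Finset.card_range d)
  apply Finset.card_le_card_of_injOn (fun ξ => ξ.val / (q / d))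
  · intro ξ hξ
    have hd : ord ξ = d := (Finset.mem_filter.1 (Finset.mem_coe.1 hξ)).2
    have h := ord_mul_gcd ξ
    rw [hd] at h
    have hdpos : 0 < d := by
      rcases Nat.eq_zero_or_pos d with rfl | h0
      · simp at h; omega
      · exact h0
    have hg : q / d = Nat.gcd ξ.val q := Nat.div_eq_of_eq_mul_right hdpos h.symm
    have hlt : ξ.val < (q / d) * d := by
      rw [hg, mul_comm, h]; exact ZMod.val_lt ξ
    exact Finset.mem_coe.2 (Finset.mem_range.2 (Nat.div_lt_of_lt_mul hlt))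
  · intro ξ hξ η hη hh
    have key : ∀ ζ : ZMod q, ord ζ = d → (q / d) ∣ ζ.val := by
      intro ζ hd
      have h := ord_mul_gcd ζ
      rw [hd] at h
      have hdpos : 0 < d := by
        rcases Nat.eq_zero_or_pos d with rfl | h0
        · simp at h; omega
        · exact h0
      have hg : q / d = Nat.gcd ζ.val q := Nat.div_eq_of_eq_mul_right hdpos h.symm
      rw [hg]; exact Nat.gcd_dvd_left _ _
    have h1 := key ξ (Finset.mem_filter.1 (Finset.mem_coe.1 hξ)).2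
    have h2 := key η (Finset.mem_filter.1 (Finset.mem_coe.1 hη)).2
    apply ZMod.val_injective q
    have e1 := Nat.div_mul_cancel h1
    have e2 := Nat.div_mul_cancel h2
    have h' : ξ.val / (q / d) = η.val / (q / d) := hh
    rw [← e1, ← e2, h']

theorem sum_inv_cube_le (n : ℕ) (hn : 1 ≤ n) :
    ∑ d ∈ Finset.Icc 2 n, (1 : ℝ) / (d : ℝ) ^ 3 ≤ 1 - 1 / (n : ℝ) := by
  induction n, hn using Nat.le_induction with
  | base => simp
  | succ n hn ih =>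
    rw [Finset.sum_Icc_succ_top (by omega)]
    have hn0 : (0 : ℝ) < n := by exact_mod_cast hn
    have h1 : (1 : ℝ) / ((n + 1 : ℕ) : ℝ) ^ 3 ≤ 1 / (n : ℝ) - 1 / ((n + 1 : ℕ) : ℝ) := by
      push_cast
      rw [div_sub_div _ _ hn0.ne' (by positivity), div_le_div_iff₀ (by positivity) (by positivity)]
      nlinarith [hn0, mul_pos hn0 hn0]
    linarith


theorem norm_Ssum_le {q : ℕ} [NeZero q] (A B : Finset ℕ) (ξ : ZMod q) :
    ‖Ssum A B ξ‖ ≤ (A.card : ℝ) * B.card := by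
  unfold Ssum
  calc ‖∑ a ∈ A, ∑ b ∈ B, ZMod.stdAddChar (ξ * (a : ZMod q) * (b : ZMod q))‖
      ≤ ∑ a ∈ A, ‖∑ b ∈ B, ZMod.stdAddChar (ξ * (a : ZMod q) * (b : ZMod q))‖ := norm_sum_le _ _
    _ ≤ ∑ _a ∈ A, (B.card : ℝ) := by
        apply Finset.sum_le_sum
        intro a _
        calc ‖∑ b ∈ B, ZMod.stdAddChar (ξ * (a : ZMod q) * (b : ZMod q))‖
            ≤ ∑ b ∈ B, ‖ZMod.stdAddChar (ξ * (a : ZMod q) * (b : ZMod q))‖ := norm_sum_le _ _
          _ = B.card := by simp [AddChar.norm_apply]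
    _ = (A.card : ℝ) * B.card := by simp

theorem prod_bound {ι : Type*} [Fintype ι] [DecidableEq ι] (σ K : ι → ℝ) (hσ : ∀ i, 0 ≤ σ i)
    (hK : ∀ i, 0 < K i) (s : Finset ι) (e d : ℕ) (hs : s.card = 32) (hde : d ^ 5 ≤ e ^ 8)
    (hd : 0 < d) (h1 : ∀ i ∈ s, σ i ^ 2 * (e : ℝ) ^ 2 ≤ d * K i ^ 2) (h2 : ∀ i, σ i ≤ K i) :
    (∏ i, σ i) * (d : ℝ) ^ 4 ≤ ∏ i, K i := by
  have hdr : (0 : ℝ) < d := by exact_mod_cast hd
  have hP0 : 0 ≤ ∏ i, σ i := Finset.prod_nonneg (fun i _ => hσ i)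
  have hK0 : 0 ≤ ∏ i, K i := Finset.prod_nonneg (fun i _ => (hK i).le)
  have e1 : (∏ i, σ i) ^ 2 * (e : ℝ) ^ 64 ≤ (d : ℝ) ^ 32 * (∏ i, K i) ^ 2 := by
    rw [← Finset.prod_pow, ← Finset.prod_pow, ← Finset.prod_mul_prod_compl s,
      ← Finset.prod_mul_prod_compl s (fun i => K i ^ 2)]
    have a1 : (∏ i ∈ s, σ i ^ 2) * (e : ℝ) ^ 64 = ∏ i ∈ s, (σ i ^ 2 * (e : ℝ) ^ 2) := by
      rw [Finset.prod_mul_distrib, Finset.prod_const, hs, ← pow_mul]
    have a2 : (d : ℝ) ^ 32 * (∏ i ∈ s, K i ^ 2) = ∏ i ∈ s, ((d : ℝ) * K i ^ 2) := by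
      rw [Finset.prod_mul_distrib, Finset.prod_const, hs]
    calc (∏ i ∈ s, σ i ^ 2) * (∏ i ∈ sᶜ, σ i ^ 2) * (e : ℝ) ^ 64
        = ((∏ i ∈ s, σ i ^ 2) * (e : ℝ) ^ 64) * (∏ i ∈ sᶜ, σ i ^ 2) := by ring
      _ = (∏ i ∈ s, (σ i ^ 2 * (e : ℝ) ^ 2)) * (∏ i ∈ sᶜ, σ i ^ 2) := by rw [a1]
      _ ≤ (∏ i ∈ s, ((d : ℝ) * K i ^ 2)) * (∏ i ∈ sᶜ, K i ^ 2) := by
          apply mul_le_mul
          · exact Finset.prod_le_prod (fun i _ => by positivity) h1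
          · exact Finset.prod_le_prod (fun i _ => by positivity)
              (fun i _ => pow_le_pow_left₀ (hσ i) (h2 i) 2)
          · exact Finset.prod_nonneg (fun i _ => by positivity)
          · exact Finset.prod_nonneg (fun i _ => by positivity)
      _ = (d : ℝ) ^ 32 * ((∏ i ∈ s, K i ^ 2) * (∏ i ∈ sᶜ, K i ^ 2)) := by rw [← a2]; ring
  have e2 : (d : ℝ) ^ 40 ≤ (e : ℝ) ^ 64 := by
    have : (d ^ 5) ^ 8 ≤ (e ^ 8) ^ 8 := Nat.pow_le_pow_left hde 8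
    rw [← pow_mul, ← pow_mul] at this
    exact_mod_cast this
  have e3 : ((∏ i, σ i) * (d : ℝ) ^ 4) ^ 2 ≤ (∏ i, K i) ^ 2 := by
    have e4 : (d : ℝ) ^ 32 * ((∏ i, σ i) * (d : ℝ) ^ 4) ^ 2 ≤ (d : ℝ) ^ 32 * (∏ i, K i) ^ 2 := by
      calc (d : ℝ) ^ 32 * ((∏ i, σ i) * (d : ℝ) ^ 4) ^ 2 = (∏ i, σ i) ^ 2 * (d : ℝ) ^ 40 := by ring
        _ ≤ (∏ i, σ i) ^ 2 * (e : ℝ) ^ 64 := mul_le_mul_of_nonneg_left e2 (by positivity)
        _ ≤ _ := e1
    exact le_of_mul_le_mul_left e4 (by positivity)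
  exact (pow_le_pow_iff_left₀ (by positivity) hK0 (by norm_num)).1 e3

theorem cover_general {ι : Type*} [Fintype ι] [DecidableEq ι] (q : ℕ) (hq : 0 < q)
    (A B : ι → Finset ℕ) (hA : ∀ i, (A i).Nonempty) (hB : ∀ i, (B i).Nonempty)
    (h : ∀ d, d ∣ q → 1 < d → ∃ (s : Finset ι) (e : ℕ), s.card = 32 ∧ d ^ 5 ≤ e ^ 8 ∧
      ∀ i ∈ s, En (A i) d * e ≤ (A i).card ^ 2 ∧ En (B i) d * e ≤ (B i).card ^ 2)
    (x : ℕ) :
    ∃ a b : ι → ℕ, (∀ i, a i ∈ A i) ∧ (∀ i, b i ∈ B i) ∧ (∑ i, a i * b i) ≡ x [MOD q] := by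
  classical
  have : NeZero q := ⟨hq.ne'⟩
  by_contra hcon
  push Not at hcon
  have hzero : ∑ ξ : ZMod q, ZMod.stdAddChar (-(ξ * (x : ZMod q))) * ∏ i, Ssum (A i) (B i) ξ = 0 :=
    fourier_zero_gen (q := q) A B x
      (fun a b hab => hcon a b (fun i => (hab i).1) (fun i => (hab i).2))
  obtain ⟨Kc, hKc⟩ : ∃ Kc : ι → ℝ, Kc = fun i => ((A i).card : ℝ) * ((B i).card : ℝ) := ⟨_, rfl⟩
  have hKpos : ∀ i, 0 < Kc i := by
    intro i
    have h1' : (0 : ℝ) < ((A i).card : ℝ) := by exact_mod_cast Finset.card_pos.2 (hA i)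
    have h2' : (0 : ℝ) < ((B i).card : ℝ) := by exact_mod_cast Finset.card_pos.2 (hB i)
    rw [hKc]
    exact mul_pos h1' h2'
  obtain ⟨KK, hKK⟩ : ∃ KK : ℝ, KK = ∏ i, Kc i := ⟨_, rfl⟩
  have hKKpos : 0 < KK := by rw [hKK]; exact Finset.prod_pos (fun i _ => hKpos i)
  have claim1 : ∀ ξ : ZMod q, ξ ≠ 0 →
      ∏ i, ‖Ssum (A i) (B i) ξ‖ ≤ KK * (1 / (ord ξ : ℝ) ^ 4) := by
    intro ξ hξ
    have hd1 := one_lt_ord ξ hξ
    have hd0 : 0 < ord ξ := by omega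
    obtain ⟨s, e, hs, hde, hse⟩ := h (ord ξ) (ord_dvd ξ) hd1
    have hdr : (0 : ℝ) < (ord ξ : ℝ) := by exact_mod_cast hd0
    have := prod_bound (fun i => ‖Ssum (A i) (B i) ξ‖) Kc (fun i => norm_nonneg _) hKpos s e
      (ord ξ) hs hde hd0 ?_ ?_
    · rw [hKK, mul_one_div, le_div_iff₀ (by positivity)]
      exact this
    · intro i hi
      have hb := bilinear_bound (ord ξ) hd0 ξ (ord_h1 ξ) (fun δ hδ => ord_h2 ξ δ hδ) (A i) (B i)
      obtain ⟨hEA, hEB⟩ := hse i hi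
      have hEA' : (En (A i) (ord ξ) : ℝ) * e ≤ ((A i).card : ℝ) ^ 2 := by exact_mod_cast hEA
      have hEB' : (En (B i) (ord ξ) : ℝ) * e ≤ ((B i).card : ℝ) ^ 2 := by exact_mod_cast hEB
      have he0 : (0 : ℝ) ≤ e := Nat.cast_nonneg _
      show ‖Ssum (A i) (B i) ξ‖ ^ 2 * (e : ℝ) ^ 2 ≤ (ord ξ : ℝ) * Kc i ^ 2
      rw [hKc]
      calc ‖Ssum (A i) (B i) ξ‖ ^ 2 * (e : ℝ) ^ 2
          ≤ ((ord ξ : ℝ) * En (A i) (ord ξ) * En (B i) (ord ξ)) * (e : ℝ) ^ 2 :=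
            mul_le_mul_of_nonneg_right hb (by positivity)
        _ = (ord ξ : ℝ) * (((En (A i) (ord ξ) : ℝ) * e) * ((En (B i) (ord ξ) : ℝ) * e)) := by ring
        _ ≤ (ord ξ : ℝ) * (((A i).card : ℝ) ^ 2 * ((B i).card : ℝ) ^ 2) := by
            apply mul_le_mul_of_nonneg_left _ hdr.le
            exact mul_le_mul hEA' hEB' (by positivity) (by positivity)
        _ = (ord ξ : ℝ) * (((A i).card : ℝ) * ((B i).card : ℝ)) ^ 2 := by ring
    · intro i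
      rw [hKc]
      exact norm_Ssum_le (A i) (B i) ξ
  have claim2 : ∑ ξ ∈ (Finset.univ : Finset (ZMod q)).erase 0, (1 / (ord ξ : ℝ) ^ 4)
      ≤ ∑ d ∈ Finset.Icc 2 q, (1 : ℝ) / (d : ℝ) ^ 3 := by
    rw [← Finset.sum_fiberwise_of_maps_to (g := fun ξ => ord ξ) (t := Finset.Icc 2 q)
      (fun ξ hξ => Finset.mem_Icc.2 ⟨one_lt_ord ξ (Finset.mem_erase.1 hξ).1,
        Nat.le_of_dvd hq (ord_dvd ξ)⟩)]
    apply Finset.sum_le_sum
    intro d hd
    have hd2 : 2 ≤ d := (Finset.mem_Icc.1 hd).1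
    have hdr : (0 : ℝ) < d := by exact_mod_cast (by omega : 0 < d)
    have e1 : ∑ ξ ∈ ((Finset.univ : Finset (ZMod q)).erase 0).filter (fun ξ => ord ξ = d),
        (1 / (ord ξ : ℝ) ^ 4) = ((((Finset.univ : Finset (ZMod q)).erase 0).filter
          (fun ξ => ord ξ = d)).card : ℝ) * (1 / (d : ℝ) ^ 4) := by
      rw [Finset.sum_congr rfl (fun ξ hξ => by rw [(Finset.mem_filter.1 hξ).2]),
        Finset.sum_const, nsmul_eq_mul]
    rw [e1]
    have e2 : (((Finset.univ : Finset (ZMod q)).erase 0).filter (fun ξ => ord ξ = d)).card ≤ d :=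
      le_trans (Finset.card_le_card (Finset.filter_subset_filter _ (Finset.erase_subset _ _)))
        (card_ord_le d)
    have e3 : ((((Finset.univ : Finset (ZMod q)).erase 0).filter
        (fun ξ => ord ξ = d)).card : ℝ) ≤ (d : ℝ) := by exact_mod_cast e2
    calc _ ≤ (d : ℝ) * (1 / (d : ℝ) ^ 4) := mul_le_mul_of_nonneg_right e3 (by positivity)
      _ = 1 / (d : ℝ) ^ 3 := by field_simp
  have claim3 := sum_inv_cube_le q hq
  have hsplit := Finset.add_sum_erase (Finset.univ : Finset (ZMod q))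
    (fun ξ => ZMod.stdAddChar (-(ξ * (x : ZMod q))) * ∏ i, Ssum (A i) (B i) ξ) (Finset.mem_univ 0)
  rw [hzero] at hsplit
  have hf0 : ZMod.stdAddChar (-((0 : ZMod q) * (x : ZMod q))) * ∏ i, Ssum (A i) (B i) (0 : ZMod q)
      = (KK : ℂ) := by
    simp only [Ssum_zero, hKK, hKc]
    simp
  rw [hf0] at hsplit
  have hnorm : KK ≤ ∑ ξ ∈ (Finset.univ : Finset (ZMod q)).erase 0, ∏ i, ‖Ssum (A i) (B i) ξ‖ := by
    have e1 : (KK : ℂ) = -∑ ξ ∈ (Finset.univ : Finset (ZMod q)).erase 0,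
        ZMod.stdAddChar (-(ξ * (x : ZMod q))) * ∏ i, Ssum (A i) (B i) ξ := by
      rw [eq_neg_iff_add_eq_zero]; exact hsplit
    have e2 : ‖(KK : ℂ)‖ = KK := by
      rw [Complex.norm_real, Real.norm_of_nonneg hKKpos.le]
    rw [← e2, e1, norm_neg]
    refine (norm_sum_le _ _).trans (le_of_eq ?_)
    apply Finset.sum_congr rfl
    intro ξ _
    rw [norm_mul, AddChar.norm_apply, one_mul, norm_prod]
  have hqr : (0 : ℝ) < q := by exact_mod_cast hq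
  have hfinal : KK < KK := by
    calc KK ≤ ∑ ξ ∈ (Finset.univ : Finset (ZMod q)).erase 0, ∏ i, ‖Ssum (A i) (B i) ξ‖ := hnorm
      _ ≤ ∑ ξ ∈ (Finset.univ : Finset (ZMod q)).erase 0, KK * (1 / (ord ξ : ℝ) ^ 4) :=
          Finset.sum_le_sum (fun ξ hξ => claim1 ξ (Finset.mem_erase.1 hξ).1)
      _ = KK * ∑ ξ ∈ (Finset.univ : Finset (ZMod q)).erase 0, (1 / (ord ξ : ℝ) ^ 4) := by
          rw [Finset.mul_sum]
      _ ≤ KK * (1 - 1 / (q : ℝ)) :=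
          mul_le_mul_of_nonneg_left (le_trans claim2 claim3) hKKpos.le
      _ < KK * 1 := by
          apply mul_lt_mul_of_pos_left _ hKKpos
          have : 0 < 1 / (q : ℝ) := by positivity
          linarith
      _ = KK := mul_one _
  exact lt_irrefl _ hfinal

end P012
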