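import Mathlib

/-!
# P012 (short Egyptian fractions): shared definitions

`Rep N h`  : every `m < N` is a sum of at most `h` distinct divisors of `N`.
`En X d`   : number of ordered pairs of `X` congruent mod `d` (diagonal included).
`Es X d`   : the same without the diagonal.
`pool y`   : the primes in `(2^y, 2^(2y)]`.
-/

namespace P012

/-- every `m < N` is a sum of at most `h` distinct divisors of `N` -/
def Rep (N h : ℕ) : Prop :=
  ∀ m < N, ∃ D : Finset ℕ, (∀ d ∈ D, d ∣ N) ∧ ∑ d ∈ D, d = m ∧ D.card ≤ h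

/-- ordered pairs of `X` that are congruent mod `d` -/
def En (X : Finset ℕ) (d : ℕ) : ℕ :=
  ((X ×ˢ X).filter fun p => p.1 ≡ p.2 [MOD d]).card

/-- ordered pairs of distinct elements of `X` that are congruent mod `d` -/
def Es (X : Finset ℕ) (d : ℕ) : ℕ :=
  ((X ×ˢ X).filter fun p => p.1 ≠ p.2 ∧ p.1 ≡ p.2 [MOD d]).card

/-- the primes in `(2^y, 2^(2y)]` -/
def pool (y : ℕ) : Finset ℕ := (Finset.Ioc (2 ^ y) (2 ^ (2 * y))).filter Nat.Prime

end P012
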