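import Vale.Agent.Lib.P012.Defs

/-!
# P012, second part (`N(b) << log log b`): shared definitions

Parameter `a` (always `50 ≤ a`).  `T = 2^(4a)`.  Atoms and tags are primes in `(2^(4a), 2^(8a)]`.
Levels `l < 5`, `sL a l = 2^((l+1)(a-8))`.
A level-`l` set has at least `2^(sL a l)` elements, all `< 2^(16 a sL)`; it serves the moduli
`n` with `Wlo a l < n ≤ 2^(sL a l)`.
There are 320 sets `X k`, `k < 320`, the level of `X k` is `k / 64`;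
slot `i < 160` uses the pair `X (2 i), X (2 i + 1)` (level `i / 32`).
-/

namespace P012

/-- all prime factors exceed `T` -/
def Rough (T n : ℕ) : Prop := ∀ p, p.Prime → p ∣ n → T < p

/-- window length at scale `lam` -/
def win (lam : ℕ) : ℕ := 2 ^ (lam - lam / 32)

/-- size parameter of level `l` -/
def sL (a l : ℕ) : ℕ := 2 ^ ((l + 1) * (a - 8))

/-- lower end of the range of moduli served by level `l` -/
def Wlo (a l : ℕ) : ℕ := if l = 0 then 2 ^ (4 * a) else 2 ^ (sL a (l - 1))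

theorem exists_thr (n : ℕ) : ∃ e, n ^ 5 ≤ e ^ 8 :=
  ⟨n, by
    rcases Nat.eq_zero_or_pos n with rfl | h
    · simp
    · exact Nat.pow_le_pow_right h (by norm_num)⟩

open Classical in
/-- the least `e` with `n^5 ≤ e^8` (about `n^(5/8)`) -/
noncomputable def thr (n : ℕ) : ℕ := Nat.find (exists_thr n)

/-- The arithmetic oracle used by the greedy scheme: every window `(x0 - win lam, x0]` contains a
modulus `w = ws * wr` whose smooth part divides `N3` and such that weighted sums of `h` pairwise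
coprime divisors of `N2` cover all residues modulo `wr`. -/
def Oracle (h N2 N3 ME y lam0 lam1 qmax : ℕ) : Prop :=
  ∀ (lam x0 : ℕ) (Q : Finset ℕ), lam0 ≤ lam → lam ≤ lam1 → win lam ≤ x0 → x0 < 2 ^ (lam + 1) →
    (∀ q ∈ Q, q.Prime ∧ y < q) → Q.card ≤ qmax →
    ∃ ws wr : ℕ, x0 < ws * wr + win lam ∧ ws * wr ≤ x0 ∧ ws ∣ N3 ∧ 0 < wr ∧ (∀ q ∈ Q, ¬ q ∣ wr) ∧
      ∀ (c : Fin h → ℕ), (∀ i, 0 < c i) → (∀ i, Nat.Coprime (c i) wr) → ∀ ρ : ℕ,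
        ∃ e : Fin h → ℕ, (∀ i, e i ∣ N2 ∧ 1 < e i ∧ e i ≤ ME) ∧
          (∀ i j, i ≠ j → Nat.Coprime (e i) (e j)) ∧ (∑ i, c i * e i) ≡ ρ [MOD wr]

/-- The data of the greedy scheme. -/
structure Setup where
  b : ℕ
  J : ℕ
  N2 : ℕ
  N3 : ℕ
  S : ℕ
  τ : ℕ → ℕ
  ME : ℕ
  TM : ℕ
  y : ℕ
  lam0 : ℕ
  lam1 : ℕ
  hb : 0 < b
  hN2 : 0 < N2
  hN3 : 0 < N3
  hy : 2 ≤ y
  τ_prime : ∀ j ≤ 2 * S, (τ j).Prime
  τ_inj : ∀ i ≤ 2 * S, ∀ j ≤ 2 * S, τ i = τ j → i = j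
  τ_b : ∀ j ≤ 2 * S, ¬ τ j ∣ b
  τ_N2 : ∀ j ≤ 2 * S, ¬ τ j ∣ N2
  τ_N3 : ∀ j ≤ 2 * S, ¬ τ j ∣ N3
  τ_le : ∀ j ≤ 2 * S, τ j ≤ TM
  τ_gt : ∀ j ≤ 2 * S, y < τ j
  oracle : Oracle 160 N2 N3 ME y lam0 lam1 (2 * S + 1)

namespace Setup

variable (P : Setup)

/-- product of all tags -/
def N4 : ℕ := ∏ j ∈ Finset.range (2 * P.S + 1), P.τ j

/-- the common denominator -/
def Nh : ℕ := P.b * 2 ^ P.J * P.N3 * P.N2 * P.N4

/-- no tag divides `d` -/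
def IsMain (d : ℕ) : Prop := ∀ j ≤ 2 * P.S, ¬ P.τ j ∣ d

/-- all tags divide `d` -/
def IsFin (d : ℕ) : Prop := ∀ j ≤ 2 * P.S, P.τ j ∣ d

/-- `d` misses one of the two tags of step `s` and is divisible by all other tags -/
def IsTag (s d : ℕ) : Prop :=
  (¬ P.τ (2 * s) ∣ d ∨ ¬ P.τ (2 * s + 1) ∣ d) ∧
    ∀ j ≤ 2 * P.S, j ≠ 2 * s → j ≠ 2 * s + 1 → P.τ j ∣ d

/-- `m / Nh` is a sum of at most `161 n + lam0` distinct unit fractions of the three types, using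
only the tags of the steps `< n` -/
def Fn (m n : ℕ) : Prop :=
  ∃ D : Finset ℕ, (∀ d ∈ D, 0 < d) ∧ ∑ d ∈ D, (1 : ℚ) / d = (m : ℚ) / P.Nh ∧
    D.card ≤ 161 * n + P.lam0 ∧
    ∀ d ∈ D, P.IsMain d ∨ (∃ s < n, P.IsTag s d) ∨ P.IsFin d

end Setup

end P012
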