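import Vale.Agent.Lib.P012.Construct

/-!
# P012 module M7: the asymptotic statement.
-/

namespace P012

open Real

theorem egypt_u (u a b : ℕ) (ha : 1 ≤ a) (hab : a < b) (hb : b ≤ 2 ^ (2 ^ u)) :
    ∃ S : Finset ℕ, (∀ n ∈ S, 2 ≤ n) ∧ ∑ n ∈ S, (1 : ℚ) / n = a / b ∧
      S.card ≤ 2 * (10 ^ 6 * (u + 1) ^ 2) := by
  obtain ⟨N, h, hN, hrep, hh⟩ := main_rep u
  obtain ⟨S, h1, h2, h3⟩ := egypt_of_rep hrep ha hab (le_trans hb hN)
  exact ⟨S, h1, h2, by omega⟩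

theorem one_le_loglog {b : ℕ} (hb : 16 ≤ b) : 1 ≤ log (log b) := by
  have h1 : (16 : ℝ) ≤ b := by exact_mod_cast hb
  have h2 : log 16 ≤ log b := log_le_log (by norm_num) h1
  have h3 : log (16 : ℝ) = 4 * log 2 := by
    have : (16 : ℝ) = 2 ^ 4 := by norm_num
    rw [this, log_pow]; norm_num
  have h4 := log_two_gt_d9
  have h5 := exp_one_lt_d9
  have h6 : exp 1 ≤ log b := by linarith
  calc (1 : ℝ) = log (exp 1) := (log_exp 1).symm
    _ ≤ log (log b) := log_le_log (exp_pos 1) h6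

theorem exists_u {b : ℕ} (hb : 16 ≤ b) :
    ∃ u : ℕ, b ≤ 2 ^ (2 ^ u) ∧ ((u : ℝ) + 1) ≤ 5 * log (log b) := by
  classical
  have hex : ∃ u : ℕ, b ≤ 2 ^ (2 ^ u) :=
    ⟨b, le_trans Nat.lt_two_pow_self.le (Nat.pow_le_pow_right (by norm_num) Nat.lt_two_pow_self.le)⟩
  have hL := one_le_loglog hb
  refine ⟨Nat.find hex, Nat.find_spec hex, ?_⟩
  set u := Nat.find hex with hu
  by_cases hu2 : u ≤ 2
  · have : (u : ℝ) ≤ 2 := by exact_mod_cast hu2
    linarith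
  · push Not at hu2
    have hmin : ¬ b ≤ 2 ^ (2 ^ (u - 1)) := Nat.find_min hex (by omega)
    push Not at hmin
    have h1 : ((2 : ℝ) ^ (2 ^ (u - 1) : ℕ)) < b := by exact_mod_cast hmin
    have h2 : log ((2 : ℝ) ^ (2 ^ (u - 1) : ℕ)) < log b := log_lt_log (by positivity) h1
    rw [log_pow] at h2
    have h3 := log_two_gt_d9
    have h4 : ((2 ^ (u - 1) : ℕ) : ℝ) = 2 * 2 ^ (u - 2) := by
      have : u - 1 = (u - 2) + 1 := by omega
      rw [this]; push_cast; ring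
    rw [h4] at h2
    have h5 : (2 : ℝ) ^ (u - 2) < log b := by
      have : (0 : ℝ) < 2 ^ (u - 2) := by positivity
      nlinarith
    have h6 : log ((2 : ℝ) ^ (u - 2)) < log (log b) := log_lt_log (by positivity) h5
    rw [log_pow] at h6
    have h7 : ((u - 2 : ℕ) : ℝ) = (u : ℝ) - 2 := by
      rw [Nat.cast_sub hu2.le]; norm_num
    rw [h7] at h6
    have h8 : (0 : ℝ) < (u : ℝ) - 2 := by
      have : (2 : ℝ) < u := by exact_mod_cast hu2
      linarith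
    nlinarith

/-- **Main theorem.** `N(b) ≪ (log log b)^2`. -/
theorem egypt_bound : ∃ C : ℝ, 0 < C ∧ ∀ a b : ℕ, 1 ≤ a → a < b → 3 ≤ b →
    ∃ S : Finset ℕ, (∀ n ∈ S, 2 ≤ n) ∧ ∑ n ∈ S, (1 : ℚ) / n = a / b ∧
      (S.card : ℝ) ≤ C * (log (log b)) ^ 2 := by
  have hL3 : 0 < log (log 3) := by
    apply log_pos
    rw [lt_log_iff_exp_lt (by norm_num)]
    have := exp_one_lt_d9
    linarith
  refine ⟨5 * 10 ^ 7 + 2 * 10 ^ 7 / (log (log 3)) ^ 2, by positivity, ?_⟩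
  intro a b ha hab hb
  by_cases hb16 : 16 ≤ b
  · obtain ⟨u, hu1, hu2⟩ := exists_u hb16
    obtain ⟨S, h1, h2, h3⟩ := egypt_u u a b ha hab hu1
    refine ⟨S, h1, h2, ?_⟩
    have h4 : (S.card : ℝ) ≤ 2 * (10 ^ 6 * ((u : ℝ) + 1) ^ 2) := by exact_mod_cast h3
    have hL := one_le_loglog hb16
    have h5 : ((u : ℝ) + 1) ^ 2 ≤ (5 * log (log b)) ^ 2 :=
      pow_le_pow_left₀ (by positivity) hu2 2
    have h6 : 0 ≤ 2 * 10 ^ 7 / (log (log 3)) ^ 2 * (log (log b)) ^ 2 := by positivity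
    nlinarith
  · push Not at hb16
    obtain ⟨S, h1, h2, h3⟩ := egypt_u 2 a b ha hab (by norm_num; omega)
    refine ⟨S, h1, h2, ?_⟩
    have h4 : (S.card : ℝ) ≤ 2 * 10 ^ 7 := by
      have : S.card ≤ 2 * 10 ^ 7 := by
        refine le_trans h3 (by norm_num)
      exact_mod_cast this
    have h5 : log (log 3) ≤ log (log b) := by
      have c1 : (3 : ℝ) ≤ b := by exact_mod_cast hb
      have c2 : log 3 ≤ log b := log_le_log (by norm_num) c1
      have c3 : 0 < log (3 : ℝ) := log_pos (by norm_num)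
      exact log_le_log c3 c2
    have h6 : (log (log 3)) ^ 2 ≤ (log (log b)) ^ 2 := pow_le_pow_left₀ hL3.le h5 2
    have h7 : 2 * 10 ^ 7 / (log (log 3)) ^ 2 * (log (log b)) ^ 2 ≥ 2 * 10 ^ 7 := by
      rw [ge_iff_le, div_mul_eq_mul_div, le_div_iff₀ (by positivity)]
      nlinarith
    have h8 : 0 ≤ 5 * 10 ^ 7 * (log (log b)) ^ 2 := by positivity
    nlinarith

end P012
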