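import Vale.Agent.Lib.P012.Params
import Vale.Agent.Lib.P012.Final

/-!
# P012 module L10c: `N(b) << log log b`.
-/

namespace P012

open Finset

theorem sL4_eq (a : ℕ) : sL a 4 = 2 ^ (5 * (a - 8)) := by unfold sL; norm_num

/-- numerical facts about `s = sL a 4` -/
theorem sL4_facts (a : ℕ) (ha : 50 ≤ a) :
    2 ^ a ≤ sL a 4 ∧ 2 ^ (4 * a + 2) ≤ sL a 4 ∧ 8388608 * a ≤ sL a 4 := by
  rw [sL4_eq]
  refine ⟨Nat.pow_le_pow_right (by norm_num) (by omega),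
    Nat.pow_le_pow_right (by norm_num) (by omega), ?_⟩
  have h1 : a ≤ 2 ^ a := Nat.lt_two_pow_self.le
  calc 8388608 * a ≤ 2 ^ 23 * 2 ^ a := by
        have : (8388608 : ℕ) = 2 ^ 23 := by norm_num
        rw [this]; exact Nat.mul_le_mul_left _ h1
    _ = 2 ^ (23 + a) := by rw [pow_add]
    _ ≤ 2 ^ (5 * (a - 8)) := Nat.pow_le_pow_right (by norm_num) (by omega)

theorem num1 (a s A B : ℕ) (ha : 50 ≤ a) (f1 : A ≤ s) (f2 : B ≤ s) (f3 : 8388608 * a ≤ s) :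
    A + B + 2560 * a * (s + 1) + 8 * a * (2 * (262144 * a) + 1) ≤ 2600 * a * s := by
  have h1 : a * (8388608 * a) ≤ a * s := Nat.mul_le_mul_left a f3
  have h2 : 50 * s ≤ a * s := Nat.mul_le_mul_right s ha
  have h3 : 419430400 ≤ s := by omega
  have h4 : a * 419430400 ≤ a * s := Nat.mul_le_mul_left a h3
  nlinarith

theorem num2 (a s : ℕ) (ha : 50 ≤ a) (hs : 100 ≤ s) :
    8 + 8 * a * 2 + 32 * a * s + (2 * (s - 1) + 1) ≤ 40 * a * s := by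
  have h0 : 2 * (s - 1) + 1 ≤ 2 * s := by omega
  have h2 : 50 * s ≤ a * s := Nat.mul_le_mul_right s ha
  have h4 : a * 100 ≤ a * s := Nat.mul_le_mul_left a hs
  nlinarith

theorem num3 (a s : ℕ) (hs : 1 ≤ s) : 32 * a ≤ 2640 * a * s := by
  have h4 : a * 1 ≤ a * s := Nat.mul_le_mul_left a hs
  nlinarith

theorem bound_U (P : Setup) (a s b : ℕ) (ha : 50 ≤ a) (pb : P.b = b) (hb : b ≤ 2 ^ (2 ^ a))
    (pS : P.S = 262144 * a) (pTM : P.TM = 2 ^ (8 * a)) (pN3 : P.N3 ≤ 2 ^ (2 ^ (4 * a + 2)))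
    (pN2 : P.N2 ≤ 2 ^ (2560 * a * (s + 1))) (f1 : 2 ^ a ≤ s) (f2 : 2 ^ (4 * a + 2) ≤ s)
    (f3 : 8388608 * a ≤ s) : P.b * P.N3 * P.N2 * P.N4 ≤ 2 ^ (2600 * a * s) := by
  have hN4 : P.N4 ≤ 2 ^ (8 * a * (2 * (262144 * a) + 1)) := by
    have := P.N4_le
    rw [pTM, pS, ← pow_mul] at this
    exact this
  calc P.b * P.N3 * P.N2 * P.N4
      ≤ 2 ^ (2 ^ a) * 2 ^ (2 ^ (4 * a + 2)) * 2 ^ (2560 * a * (s + 1))
          * 2 ^ (8 * a * (2 * (262144 * a) + 1)) := by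
        rw [pb]
        exact Nat.mul_le_mul (Nat.mul_le_mul (Nat.mul_le_mul hb pN3) pN2) hN4
    _ = 2 ^ (2 ^ a + 2 ^ (4 * a + 2) + 2560 * a * (s + 1) + 8 * a * (2 * (262144 * a) + 1)) := by
        rw [← pow_add, ← pow_add, ← pow_add]
    _ ≤ 2 ^ (2600 * a * s) :=
        Nat.pow_le_pow_right (by norm_num) (num1 a s _ _ ha f1 f2 f3)

theorem bound_mu (P : Setup) (a s : ℕ) (ha : 50 ≤ a) (hs : 100 ≤ s) (pTM : P.TM = 2 ^ (8 * a))
    (pME : P.ME = 2 ^ (32 * a * s)) (p1 : P.lam1 = s - 1) :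
    160 * P.TM ^ 2 * P.ME * 2 ^ (2 * P.lam1 + 1) ≤ 2 ^ (40 * a * s) := by
  rw [pTM, pME, p1]
  calc 160 * (2 ^ (8 * a)) ^ 2 * 2 ^ (32 * a * s) * 2 ^ (2 * (s - 1) + 1)
      ≤ 2 ^ 8 * (2 ^ (8 * a)) ^ 2 * 2 ^ (32 * a * s) * 2 ^ (2 * (s - 1) + 1) := by
        apply Nat.mul_le_mul_right
        apply Nat.mul_le_mul_right
        apply Nat.mul_le_mul_right
        norm_num
    _ = 2 ^ (8 + 8 * a * 2 + 32 * a * s + (2 * (s - 1) + 1)) := by
        rw [← pow_mul, ← pow_add, ← pow_add, ← pow_add]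
    _ ≤ 2 ^ (40 * a * s) := Nat.pow_le_pow_right (by norm_num) (num2 a s ha hs)

theorem egypt_par (a a0 b : ℕ) (ha : 50 ≤ a) (ha0 : 1 ≤ a0) (hab : a0 < b)
    (hb : b ≤ 2 ^ (2 ^ a)) :
    ∃ D : Finset ℕ, (∀ d ∈ D, 2 ≤ d) ∧ ∑ d ∈ D, (1 : ℚ) / d = (a0 : ℚ) / b ∧
      D.card ≤ 50000000 * a := by
  obtain ⟨P, pb, pJ, pS, pME, pTM, p0, p1, pN3, pN2⟩ := exists_setup a b ha (by omega) hb
  obtain ⟨f1, f2, f3⟩ := sL4_facts a ha
  have hs4 := sL4_eq a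
  obtain ⟨s, hs⟩ : ∃ s, s = sL a 4 := ⟨_, rfl⟩
  rw [← hs] at pJ pME p1 pN2 f1 f2 f3 hs4
  have hs100 : 419430400 ≤ s := by omega
  -- the scales
  obtain ⟨j0, hj0⟩ : ∃ j0, j0 = Nat.clog 2 (16 * a) := ⟨_, rfl⟩
  have c1 : 16 * a ≤ 2 ^ j0 := by rw [hj0]; exact Nat.le_pow_clog (by norm_num) _
  have c2 : 2 ^ (j0 - 1) < 16 * a := by
    rw [hj0]; exact Nat.pow_pred_clog_lt_self (by norm_num) (by omega)
  have c3 : 8 ≤ j0 := by
    by_contra hcon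
    push Not at hcon
    have : 2 ^ j0 ≤ 2 ^ 8 := Nat.pow_le_pow_right (by norm_num) (by omega)
    omega
  have c4 : 2 ^ j0 = 2 * 2 ^ (j0 - 1) := by rw [← pow_succ']; congr 1; omega
  have c5 : j0 < 5 * (a - 8) := by
    have : 2 ^ j0 < 2 ^ (5 * (a - 8)) := by rw [← hs4]; omega
    exact (Nat.pow_lt_pow_iff_right (by norm_num)).1 this
  have e5 : s = 32 * 2 ^ (5 * (a - 8) - 5) := by
    rw [hs4]
    have : (32 : ℕ) = 2 ^ 5 := by norm_num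
    rw [this, ← pow_add]; congr 1; omega
  have e6 : s = 64 * 2 ^ (5 * (a - 8) - 6) := by
    rw [hs4]
    have : (64 : ℕ) = 2 ^ 6 := by norm_num
    rw [this, ← pow_add]; congr 1; omega
  have hU := bound_U P a s b ha pb hb pS pTM pN3 pN2 f1 f2 f3
  have hμ := bound_mu P a s ha (by omega) pTM pME p1
  have has : a * 419430400 ≤ a * s := Nat.mul_le_mul_left a hs100
  have hrf : P.J ≤ 84480 * a * 2 ^ (5 * (a - 8) - 5) := by
    rw [pJ]
    generalize 2 ^ (5 * (a - 8) - 5) = z at e5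
    rw [e5]
    apply le_of_eq; ring
  have hrc : 2600 * a * s ≤ 166400 * a * 2 ^ (5 * (a - 8) - 6) := by
    generalize 2 ^ (5 * (a - 8) - 6) = z at e6
    rw [e6]
    apply le_of_eq; ring
  have hn3 := num3 a s (by omega)
  have hrun := P.run j0 (5 * (a - 8)) (2600 * a * s) (40 * a * s) (84480 * a) (166400 * a)
    (by rw [p1, ← hs4]; omega) (by rw [p0]; exact c1) c5 c3 (by rw [p0]; omega) hU
    (by rw [pJ]; ring) hμ (by rw [p0, pJ]; omega) hrf hrc (by rw [pS]; omega)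
  have hL : 2 ^ j0 - 1 ≤ P.J := by
    rw [pJ]
    have : 2 ^ j0 - 1 ≤ 32 * a := by omega
    exact this.trans hn3
  obtain ⟨D, d1, d2, d3⟩ := P.finish (2 ^ j0 - 1) hL hrun a0 ha0 (by rw [pb]; exact hab)
  refine ⟨D, d1, by rw [d2, pb], ?_⟩
  rw [pS, p0] at d3
  have : 2 ^ j0 - 1 ≤ 32 * a := by omega
  clear hrun hU hμ hrf hrc pN2 pN3 hb d1 d2
  omega

theorem egypt_lin (u a0 b : ℕ) (ha0 : 1 ≤ a0) (hab : a0 < b) (hb : b ≤ 2 ^ (2 ^ u)) :
    ∃ D : Finset ℕ, (∀ d ∈ D, 2 ≤ d) ∧ ∑ d ∈ D, (1 : ℚ) / d = (a0 : ℚ) / b ∧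
      D.card ≤ 2500000000 * (u + 1) := by
  obtain ⟨D, d1, d2, d3⟩ := egypt_par (u + 50) a0 b (by omega) ha0 hab
    (hb.trans (Nat.pow_le_pow_right (by norm_num) (Nat.pow_le_pow_right (by norm_num) (by omega))))
  exact ⟨D, d1, d2, by omega⟩

open Real in
/-- **Main theorem.** `N(b) ≪ log log b` (Erdős's conjecture). -/
theorem egypt_loglog : ∃ C : ℝ, 0 < C ∧ ∀ a b : ℕ, 1 ≤ a → a < b → 3 ≤ b →
    ∃ S : Finset ℕ, (∀ n ∈ S, 2 ≤ n) ∧ ∑ n ∈ S, (1 : ℚ) / n = a / b ∧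
      (S.card : ℝ) ≤ C * log (log b) := by
  have hL3 : 0 < log (log 3) := by
    apply log_pos
    rw [lt_log_iff_exp_lt (by norm_num)]
    have := exp_one_lt_d9
    linarith
  refine ⟨12500000000 + 7500000000 / log (log 3), by positivity, ?_⟩
  intro a b ha hab hb
  by_cases hb16 : 16 ≤ b
  · obtain ⟨u, hu1, hu2⟩ := exists_u hb16
    obtain ⟨S, h1, h2, h3⟩ := egypt_lin u a b ha hab hu1
    refine ⟨S, h1, h2, ?_⟩
    have h4 : (S.card : ℝ) ≤ 2500000000 * ((u : ℝ) + 1) := by exact_mod_cast h3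
    have hL := one_le_loglog hb16
    have h6 : 0 ≤ 7500000000 / log (log 3) * log (log b) := by positivity
    nlinarith
  · push Not at hb16
    obtain ⟨S, h1, h2, h3⟩ := egypt_lin 2 a b ha hab (by norm_num; omega)
    refine ⟨S, h1, h2, ?_⟩
    have h4 : (S.card : ℝ) ≤ 7500000000 := by
      have : S.card ≤ 7500000000 := by
        refine le_trans h3 (by norm_num)
      exact_mod_cast this
    have h5 : log (log 3) ≤ log (log b) := by
      have c1 : (3 : ℝ) ≤ b := by exact_mod_cast hb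
      have c2 : log 3 ≤ log b := log_le_log (by norm_num) c1
      have c3 : 0 < log (3 : ℝ) := log_pos (by norm_num)
      exact log_le_log c3 c2
    have h7 : 7500000000 / log (log 3) * log (log b) ≥ 7500000000 := by
      rw [ge_iff_le, div_mul_eq_mul_div, le_div_iff₀ hL3]
      nlinarith
    have h8 : 0 ≤ 12500000000 * log (log b) := by
      have : 0 ≤ log (log b) := hL3.le.trans h5
      positivity
    nlinarith

end P012
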