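import Vale.Agent.Lib.P012.Run

/-!
# P012 module L10a: the leading binary digits.
-/

namespace P012

namespace Setup

open Finset

variable (P : Setup)

theorem finish (L0 : ℕ) (hL : L0 ≤ P.J) (H : ∀ m, m * 2 ^ L0 ≤ P.Nh → P.Fn m P.S)
    (a0 : ℕ) (h1 : 1 ≤ a0) (h2 : a0 < P.b) :
    ∃ D : Finset ℕ, (∀ d ∈ D, 2 ≤ d) ∧ ∑ d ∈ D, (1 : ℚ) / d = (a0 : ℚ) / P.b ∧
      D.card ≤ L0 + (161 * P.S + P.lam0) := by
  classical
  have hb := P.hb
  have hN2 := P.hN2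
  have hN3 := P.hN3
  have hN4 := P.N4_pos
  have hNh := P.Nh_pos
  obtain ⟨Kb, hKb⟩ : ∃ Kb, Kb = 2 ^ P.J * P.N3 * P.N2 * P.N4 := ⟨_, rfl⟩
  obtain ⟨Z, hZ⟩ : ∃ Z, Z = P.b * 2 ^ (P.J - L0) * P.N3 * P.N2 * P.N4 := ⟨_, rfl⟩
  have hKb0 : 0 < Kb := by rw [hKb]; positivity
  have hZ0 : 0 < Z := by rw [hZ]; positivity
  have e1 : P.Nh = P.b * Kb := by unfold Nh; rw [hKb]; ring
  have e2 : P.Nh = Z * 2 ^ L0 := by
    unfold Nh
    have : 2 ^ P.J = 2 ^ (P.J - L0) * 2 ^ L0 := by rw [← pow_add]; congr 1; omega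
    rw [hZ, this]; ring
  have hM0 : a0 * Kb < P.Nh := by rw [e1]; exact Nat.mul_lt_mul_of_pos_right h2 hKb0
  have hqq : a0 * Kb / Z < 2 ^ L0 := by
    rw [Nat.div_lt_iff_lt_mul hZ0]
    calc a0 * Kb < P.Nh := hM0
      _ = 2 ^ L0 * Z := by rw [e2]; ring
  have hmZ : a0 * Kb % Z < Z := Nat.mod_lt _ hZ0
  have hdm : Z * (a0 * Kb / Z) + a0 * Kb % Z = a0 * Kb := Nat.div_add_mod _ _
  generalize a0 * Kb / Z = qq at hqq hdm
  generalize a0 * Kb % Z = m at hmZ hdm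
  have hm1 : m * 2 ^ L0 < P.Nh := by rw [e2]; exact Nat.mul_lt_mul_of_pos_right hmZ (by positivity)
  obtain ⟨D, d1, d2, d3, _⟩ := H m hm1.le
  obtain ⟨D0, g1, g2, g3⟩ := rep_two_pow L0 qq hqq
  have hdpos : ∀ d ∈ D0, 0 < d := fun d hd => Nat.pos_of_dvd_of_pos (g1 d hd) (by positivity)
  have hinj : Set.InjOn (fun d => 2 ^ L0 / d) D0 := by
    intro d hd d' hd' h
    simp only at h
    have a1 := Nat.div_mul_cancel (g1 d hd)
    have a2 := Nat.div_mul_cancel (g1 d' hd')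
    rw [h] at a1
    have hpos : 0 < 2 ^ L0 / d' := Nat.div_pos (Nat.le_of_dvd (by positivity) (g1 d' hd')) (hdpos d' hd')
    exact Nat.eq_of_mul_eq_mul_left hpos (a1.trans a2.symm)
  have hNhq : (0 : ℚ) < P.Nh := by exact_mod_cast hNh
  obtain ⟨E0, hE0⟩ : ∃ E0 : Finset ℕ, E0 = D0.image (fun d : ℕ => 2 ^ L0 / d) := ⟨_, rfl⟩
  have hdisj : Disjoint (E0) D := by
    rw [Finset.disjoint_left]
    intro x hx hxD
    rw [hE0] at hx
    obtain ⟨d, hd, rfl⟩ := Finset.mem_image.1 hx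
    have hle1 : 2 ^ L0 / d ≤ 2 ^ L0 := Nat.div_le_self _ _
    have hx0 : (0 : ℚ) < ((2 ^ L0 / d : ℕ) : ℚ) := by exact_mod_cast d1 _ hxD
    have hle : (1 : ℚ) / ((2 ^ L0 / d : ℕ) : ℚ) ≤ ∑ x ∈ D, (1 : ℚ) / x :=
      Finset.single_le_sum (f := fun x : ℕ => (1 : ℚ) / x) (fun x _ => by positivity) hxD
    rw [d2, div_le_div_iff₀ hx0 hNhq] at hle
    have h3 : (P.Nh : ℚ) ≤ ((m * (2 ^ L0 / d) : ℕ) : ℚ) := by push_cast; linarith
    have h4 : P.Nh ≤ m * (2 ^ L0 / d) := by exact_mod_cast h3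
    have h5 : m * (2 ^ L0 / d) ≤ m * 2 ^ L0 := Nat.mul_le_mul_left _ hle1
    omega
  have hsum0 : ∑ x ∈ E0, (1 : ℚ) / x = (qq : ℚ) / 2 ^ L0 := by
    rw [hE0, Finset.sum_image hinj, ← g2]
    push_cast
    rw [Finset.sum_div]
    apply Finset.sum_congr rfl
    intro d hd
    rw [Nat.cast_div (g1 d hd) (by have := hdpos d hd; positivity)]
    have : (0 : ℚ) < d := by exact_mod_cast hdpos d hd
    push_cast
    field_simp
  have hbq : (0 : ℚ) < P.b := by exact_mod_cast hb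
  have hsum : ∑ x ∈ E0 ∪ D, (1 : ℚ) / x = (a0 : ℚ) / P.b := by
    rw [Finset.sum_union hdisj, hsum0, d2]
    have q1 : (P.Nh : ℚ) = P.b * Kb := by exact_mod_cast e1
    have q2 : (P.Nh : ℚ) = Z * 2 ^ L0 := by exact_mod_cast e2
    have q3 : (Z : ℚ) * qq + m = a0 * Kb := by exact_mod_cast hdm
    have hZq : (0 : ℚ) < Z := by exact_mod_cast hZ0
    have hKq : (0 : ℚ) < Kb := by exact_mod_cast hKb0
    have s1 : (qq : ℚ) / 2 ^ L0 = (Z * qq) / P.Nh := by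
      rw [q2]; field_simp
    have s2 : (a0 : ℚ) / P.b = (a0 * Kb) / P.Nh := by
      rw [q1]; field_simp
    rw [s1, s2, ← add_div, q3]
  have hpos : ∀ x ∈ E0 ∪ D, 0 < x := by
    intro x hx
    rcases Finset.mem_union.1 hx with hx | hx
    · rw [hE0] at hx
      obtain ⟨d, hd, rfl⟩ := Finset.mem_image.1 hx
      exact Nat.div_pos (Nat.le_of_dvd (by positivity) (g1 d hd)) (hdpos d hd)
    · exact d1 x hx
  refine ⟨E0 ∪ D, ?_, hsum, ?_⟩
  · intro x hx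
    have hx0 : (0 : ℚ) < (x : ℚ) := by exact_mod_cast hpos x hx
    have hle : (1 : ℚ) / (x : ℚ) ≤ ∑ x ∈ E0 ∪ D, (1 : ℚ) / x :=
      Finset.single_le_sum (f := fun x : ℕ => (1 : ℚ) / x) (fun x _ => by positivity) hx
    rw [hsum, div_le_div_iff₀ hx0 hbq] at hle
    have h3 : (P.b : ℚ) ≤ ((a0 * x : ℕ) : ℚ) := by push_cast; linarith
    have h4 : P.b ≤ a0 * x := by exact_mod_cast h3
    by_contra hcon
    push Not at hcon
    have : x = 1 := by have := hpos x hx; omega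
    rw [this] at h4
    omega
  · refine (Finset.card_union_le _ _).trans ?_
    have := Finset.card_image_le (s := D0) (f := fun d : ℕ => 2 ^ L0 / d)
    rw [← hE0] at this
    omega

end Setup

end P012
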