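import Vale.Agent.Lib.P012.BadSet

/-!
# P012 module L4: every window contains a good modulus.

FROZEN statements: `cube_bound`, `exists_good`.

Proof of `exists_good`.  `I = win lam ≥ 2^(15 a)`, `T = 2^(4a)`; the window `Ioc (x0 - I) x0` has
`I` elements.  Bad elements:
* divisible by `p^3`, `p ≤ T` prime: at most `I/4 + T` (`cube_bound`:
  `∑_{2 ≤ p ≤ T} (I/p^3 + 1)`, `∑_{p ≥ 2} 1/p^3 ≤ 1/4` by telescoping);
* divisible by some `q ∈ Q`: at most `|Q| (I / 2^(4a) + 1) ≤ I / 2^(2a) + 2^(2a)`;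
* for some `k < 320` counted in `bad_set_bound` with `X = X k`, `l = k / 64`: at most `320 I / 2^11`.
The total is `< I`, so a good `w` exists.  For `n ∣ w`, `1 < n`, `n` rough: `T < n` (it has a prime
factor), `n ≤ w ≤ x0 < 2^(lam+1) ≤ 2^(sL a 4)`; take the least `l` with `n ≤ 2^(sL a l)`, then
`Wlo a l < n`, `l < 5`, and `e = thr n` works (`thr_spec`) since `w` is not bad for any `X k` of
level `l`.
-/

namespace P012

open Finset

private lemma sum_inv_cube_aux (T : ℕ) :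
    ∑ p ∈ Finset.Icc 2 (T + 1), (1 : ℚ) / (p : ℚ) ^ 3 ≤
      1 / 4 - 1 / (2 * ((T : ℚ) + 1) * ((T : ℚ) + 2)) := by
  induction T with
  | zero => simp; norm_num
  | succ n ih =>
    rw [Finset.sum_Icc_succ_top (by omega)]
    have h : (1 : ℚ) / ((n : ℚ) + 2) ^ 3 ≤
        1 / (2 * ((n : ℚ) + 1) * ((n : ℚ) + 2)) - 1 / (2 * ((n : ℚ) + 2) * ((n : ℚ) + 3)) := by
      rw [div_sub_div _ _ (by positivity) (by positivity),
        div_le_div_iff₀ (by positivity) (by positivity)]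
      have hn : (0 : ℚ) ≤ n := Nat.cast_nonneg n
      nlinarith [mul_nonneg hn hn, mul_nonneg (mul_nonneg hn hn) hn,
        mul_nonneg (mul_nonneg hn hn) (mul_nonneg hn hn)]
    push_cast
    have e1 : ((n : ℚ) + 1 + 1) = (n : ℚ) + 2 := by ring
    have e2 : ((n : ℚ) + 1 + 2) = (n : ℚ) + 3 := by ring
    rw [e1, e2]
    linarith

private lemma sum_inv_cube (T : ℕ) : ∑ p ∈ Finset.Icc 2 T, (1 : ℚ) / (p : ℚ) ^ 3 ≤ 1 / 4 := by
  rcases Nat.eq_zero_or_pos T with rfl | h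
  · simp
  · obtain ⟨n, rfl⟩ : ∃ n, T = n + 1 := ⟨T - 1, by omega⟩
    have := sum_inv_cube_aux n
    have h2 : (0 : ℚ) ≤ 1 / (2 * ((n : ℚ) + 1) * ((n : ℚ) + 2)) := by positivity
    linarith

private lemma sum_div_cube (I T : ℕ) : ∑ p ∈ Finset.Icc 2 T, I / p ^ 3 ≤ I / 4 := by
  rw [Nat.le_div_iff_mul_le (by norm_num)]
  have h1 : ((∑ p ∈ Finset.Icc 2 T, I / p ^ 3 : ℕ) : ℚ) ≤ (I : ℚ) * (1 / 4) := by
    push_cast
    calc ∑ p ∈ Finset.Icc 2 T, ((I / p ^ 3 : ℕ) : ℚ)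
        ≤ ∑ p ∈ Finset.Icc 2 T, (I : ℚ) * (1 / (p : ℚ) ^ 3) := by
          apply Finset.sum_le_sum
          intro p _
          have := @Nat.cast_div_le ℚ _ _ _ I (p ^ 3)
          push_cast at this
          rw [mul_one_div]
          exact this
      _ = (I : ℚ) * ∑ p ∈ Finset.Icc 2 T, 1 / (p : ℚ) ^ 3 := by rw [Finset.mul_sum]
      _ ≤ _ := mul_le_mul_of_nonneg_left (sum_inv_cube T) (Nat.cast_nonneg _)
  have h2 : ((∑ p ∈ Finset.Icc 2 T, I / p ^ 3 : ℕ) : ℚ) * 4 ≤ (I : ℚ) := by linarith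
  exact_mod_cast h2

open Classical in
theorem cube_bound (x0 I T : ℕ) :
    ((Finset.Ioc (x0 - I) x0).filter (fun w => ∃ p : ℕ, p.Prime ∧ p ≤ T ∧ p ^ 3 ∣ w)).card
      ≤ I / 4 + T := by
  have hsub : (Finset.Ioc (x0 - I) x0).filter (fun w => ∃ p : ℕ, p.Prime ∧ p ≤ T ∧ p ^ 3 ∣ w) ⊆
      (Finset.Icc 2 T).biUnion (fun p => (Finset.Ioc (x0 - I) x0).filter (fun w => p ^ 3 ∣ w)) := by
    intro w hw
    rw [Finset.mem_filter] at hw
    obtain ⟨hw1, p, hp, hpT, hpw⟩ := hw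
    rw [Finset.mem_biUnion]
    exact ⟨p, Finset.mem_Icc.2 ⟨hp.two_le, hpT⟩, Finset.mem_filter.2 ⟨hw1, hpw⟩⟩
  calc _ ≤ ((Finset.Icc 2 T).biUnion
        (fun p => (Finset.Ioc (x0 - I) x0).filter (fun w => p ^ 3 ∣ w))).card :=
        Finset.card_le_card hsub
    _ ≤ ∑ p ∈ Finset.Icc 2 T, ((Finset.Ioc (x0 - I) x0).filter (fun w => p ^ 3 ∣ w)).card :=
        Finset.card_biUnion_le
    _ ≤ ∑ p ∈ Finset.Icc 2 T, (I / p ^ 3 + 1) := by
        apply Finset.sum_le_sum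
        intro p hp
        have hp2 : 2 ≤ p := (Finset.mem_Icc.1 hp).1
        convert card_dvd_window x0 I (p ^ 3) (by positivity) using 2
    _ = ∑ p ∈ Finset.Icc 2 T, I / p ^ 3 + (Finset.Icc 2 T).card := by
        rw [Finset.sum_add_distrib]; simp
    _ ≤ I / 4 + T := by
        apply add_le_add (sum_div_cube I T)
        simp

open Classical in
private lemma q_bound (x0 I a : ℕ) (Q : Finset ℕ) (hQ : ∀ q ∈ Q, q.Prime ∧ 2 ^ (4 * a) < q)
    (hQc : Q.card ≤ 2 ^ (2 * a)) :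
    ((Finset.Ioc (x0 - I) x0).filter (fun w => ∃ q ∈ Q, q ∣ w)).card
      ≤ 2 ^ (2 * a) * (I / 2 ^ (4 * a) + 1) := by
  have hsub : (Finset.Ioc (x0 - I) x0).filter (fun w => ∃ q ∈ Q, q ∣ w) ⊆
      Q.biUnion (fun q => (Finset.Ioc (x0 - I) x0).filter (fun w => q ∣ w)) := by
    intro w hw
    rw [Finset.mem_filter] at hw
    obtain ⟨hw1, q, hq, hqw⟩ := hw
    rw [Finset.mem_biUnion]
    exact ⟨q, hq, Finset.mem_filter.2 ⟨hw1, hqw⟩⟩
  calc _ ≤ (Q.biUnion (fun q => (Finset.Ioc (x0 - I) x0).filter (fun w => q ∣ w))).card :=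
        Finset.card_le_card hsub
    _ ≤ ∑ q ∈ Q, ((Finset.Ioc (x0 - I) x0).filter (fun w => q ∣ w)).card :=
        Finset.card_biUnion_le
    _ ≤ ∑ q ∈ Q, (I / 2 ^ (4 * a) + 1) := by
        apply Finset.sum_le_sum
        intro q hq
        have h1 := hQ q hq
        have h2 : ((Finset.Ioc (x0 - I) x0).filter (fun w => q ∣ w)).card ≤ I / q + 1 := by
          convert card_dvd_window x0 I q h1.1.pos using 2
        have h3 : I / q ≤ I / 2 ^ (4 * a) := Nat.div_le_div_left h1.2.le (by positivity)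
        omega
    _ = Q.card * (I / 2 ^ (4 * a) + 1) := by simp
    _ ≤ _ := Nat.mul_le_mul_right _ hQc

theorem exists_good (a lam x0 : ℕ) (X : ℕ → Finset ℕ) (Q : Finset ℕ) (ha : 50 ≤ a)
    (hlam : 16 * a ≤ lam) (hlam1 : lam + 1 ≤ sL a 4) (hx0 : x0 < 2 ^ (lam + 1))
    (hwin : win lam ≤ x0)
    (hXc : ∀ k < 320, 2 ^ (sL a (k / 64)) ≤ (X k).card)
    (hXb : ∀ k < 320, ∀ x ∈ X k, x < 2 ^ (16 * a * sL a (k / 64)))
    (hQ : ∀ q ∈ Q, q.Prime ∧ 2 ^ (4 * a) < q) (hQc : Q.card ≤ 2 ^ (2 * a)) :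
    ∃ w, x0 < w + win lam ∧ w ≤ x0 ∧ (∀ p, p.Prime → p ≤ 2 ^ (4 * a) → ¬ p ^ 3 ∣ w) ∧
      (∀ q ∈ Q, ¬ q ∣ w) ∧
      ∀ n, n ∣ w → 1 < n → Rough (2 ^ (4 * a)) n →
        ∃ l < 5, ∃ e, n ^ 5 ≤ e ^ 8 ∧
          ∀ k < 320, k / 64 = l → En (X k) n * e ≤ (X k).card ^ 2 := by
  classical
  set I := win lam with hI
  set T := 2 ^ (4 * a) with hT
  set W := Finset.Ioc (x0 - I) x0 with hW
  set B1 := W.filter (fun w => ∃ p : ℕ, p.Prime ∧ p ≤ T ∧ p ^ 3 ∣ w) with hB1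
  set B2 := W.filter (fun w => ∃ q ∈ Q, q ∣ w) with hB2
  set B3 : ℕ → Finset ℕ := fun k => W.filter (fun w => ∃ n, n ∣ w ∧ Rough (2 ^ (4 * a)) n ∧
      Wlo a (k / 64) < n ∧ n ≤ 2 ^ (sL a (k / 64)) ∧ (X k).card ^ 2 < En (X k) n * thr n) with hB3
  have hWc : W.card = I := by
    rw [hW, Nat.card_Ioc]; omega
  have c1 : B1.card ≤ I / 4 + T := cube_bound x0 I T
  have c2 : B2.card ≤ 2 ^ (2 * a) * (I / 2 ^ (4 * a) + 1) := q_bound x0 I a Q hQ hQc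
  have c3 : ∀ k < 320, (B3 k).card * 2 ^ 11 ≤ I := fun k hk =>
    bad_set_bound a (k / 64) lam x0 (X k) ha (by omega) hlam hx0 hwin (hXc k hk) (hXb k hk)
  -- size of I
  obtain ⟨m, hm, hIm⟩ : ∃ m, 15 * a ≤ m ∧ I = 2 ^ m := ⟨lam - lam / 32, by omega, rfl⟩
  have hI1 : 2 ^ 11 * T ≤ I := by
    rw [hIm, hT, ← pow_add]
    exact Nat.pow_le_pow_right (by norm_num) (by omega)
  have hI2 : 2 ^ 11 * (2 ^ (2 * a) * (I / 2 ^ (4 * a) + 1)) ≤ 2 * I := by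
    have h1 : I / 2 ^ (4 * a) = 2 ^ (m - 4 * a) := by
      rw [hIm, Nat.pow_div (by omega) (by norm_num)]
    have e1 : 2 ^ 11 * (2 ^ (2 * a) * 2 ^ (m - 4 * a)) ≤ 2 ^ m := by
      rw [← pow_add, ← pow_add]; exact Nat.pow_le_pow_right (by norm_num) (by omega)
    have e2 : 2 ^ 11 * 2 ^ (2 * a) ≤ 2 ^ m := by
      rw [← pow_add]; exact Nat.pow_le_pow_right (by norm_num) (by omega)
    rw [h1, hIm]
    calc 2 ^ 11 * (2 ^ (2 * a) * (2 ^ (m - 4 * a) + 1))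
        = 2 ^ 11 * (2 ^ (2 * a) * 2 ^ (m - 4 * a)) + 2 ^ 11 * 2 ^ (2 * a) := by ring
      _ ≤ 2 ^ m + 2 ^ m := add_le_add e1 e2
      _ = 2 * 2 ^ m := by ring
  have hIpos : 0 < I := by rw [hIm]; positivity
  obtain ⟨Rg, hRg, hRgc⟩ : ∃ Rg : Finset ℕ, (∀ k, k ∈ Rg ↔ k < 320) ∧ Rg.card = 320 :=
    ⟨Finset.range 320, fun k => Finset.mem_range, Finset.card_range 320⟩
  have c3s : (∑ k ∈ Rg, (B3 k).card) * 2 ^ 11 ≤ 320 * I := by
    rw [Finset.sum_mul]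
    calc ∑ k ∈ Rg, (B3 k).card * 2 ^ 11 ≤ ∑ k ∈ Rg, I :=
          Finset.sum_le_sum fun k hk => c3 k ((hRg k).1 hk)
      _ = 320 * I := by rw [Finset.sum_const, hRgc, smul_eq_mul]
  obtain ⟨B, hB⟩ : ∃ B, B = B1 ∪ B2 ∪ Rg.biUnion B3 := ⟨_, rfl⟩
  have hBc : B.card < W.card := by
    have h1 : B.card ≤ B1.card + B2.card + ∑ k ∈ Rg, (B3 k).card := by
      calc B.card ≤ (B1 ∪ B2).card + (Rg.biUnion B3).card := by
            rw [hB]; exact Finset.card_union_le _ _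
        _ ≤ _ := add_le_add (Finset.card_union_le _ _) Finset.card_biUnion_le
    rw [hWc]
    have h4 : 4 * (I / 4) ≤ I := Nat.mul_div_le I 4
    have : B.card * 2 ^ 11 < I * 2 ^ 11 := by
      calc B.card * 2 ^ 11 ≤ (B1.card + B2.card + ∑ k ∈ Rg, (B3 k).card) * 2 ^ 11 :=
            Nat.mul_le_mul_right _ h1
        _ < I * 2 ^ 11 := by
            norm_num at hI1 hI2 c3s ⊢
            omega
    exact Nat.lt_of_mul_lt_mul_right this
  obtain ⟨w, hwW, hwB⟩ : ∃ w ∈ W, w ∉ B := by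
    by_contra hcon
    push Not at hcon
    exact absurd (Finset.card_le_card (fun w hw => hcon w hw)) (not_le.2 hBc)
  rw [hW, Finset.mem_Ioc] at hwW
  have hwW' : w ∈ W := by rw [hW, Finset.mem_Ioc]; exact hwW
  rw [hB] at hwB
  have n1 : w ∉ B1 := fun h => hwB (Finset.mem_union_left _ (Finset.mem_union_left _ h))
  have n2 : w ∉ B2 := fun h => hwB (Finset.mem_union_left _ (Finset.mem_union_right _ h))
  have n3 : ∀ k < 320, w ∉ B3 k := fun k hk h =>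
    hwB (Finset.mem_union_right _ (Finset.mem_biUnion.2 ⟨k, (hRg k).2 hk, h⟩))
  refine ⟨w, by omega, hwW.2, ?_, ?_, ?_⟩
  · intro p hp hpT hpw
    exact n1 (Finset.mem_filter.2 ⟨hwW', p, hp, hpT, hpw⟩)
  · intro q hq hqw
    exact n2 (Finset.mem_filter.2 ⟨hwW', q, hq, hqw⟩)
  · intro n hnw hn1 hrough
    have hwpos : 0 < w := by omega
    have hTn : T < n := by
      obtain ⟨p, hp, hpn⟩ := Nat.exists_prime_and_dvd (by omega : n ≠ 1)
      exact lt_of_lt_of_le (hrough p hp hpn) (Nat.le_of_dvd (by omega) hpn)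
    have hnle : n ≤ 2 ^ (sL a 4) := by
      have h1 : n ≤ w := Nat.le_of_dvd hwpos hnw
      have h2 : 2 ^ (lam + 1) ≤ 2 ^ (sL a 4) := Nat.pow_le_pow_right (by norm_num) hlam1
      omega
    have hex : ∃ l, n ≤ 2 ^ (sL a l) := ⟨4, hnle⟩
    set l := Nat.find hex with hl
    have hl1 : n ≤ 2 ^ (sL a l) := Nat.find_spec hex
    have hl4 : l ≤ 4 := Nat.find_min' hex hnle
    have hlo : Wlo a l < n := by
      unfold Wlo
      split_ifs with h0
      · exact hTn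
      · have := Nat.find_min hex (m := l - 1) (by omega)
        omega
    refine ⟨l, by omega, thr n, thr_spec n, ?_⟩
    intro k hk hkl
    by_contra hcon
    push Not at hcon
    apply n3 k hk
    refine Finset.mem_filter.2 ⟨hwW', n, hnw, hrough, ?_, ?_, hcon⟩
    · rw [hkl]; exact hlo
    · rw [hkl]; exact hl1

end P012
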