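import Vale.Agent.Lib.P012.Defs2
import Vale.Agent.Lib.P012.Potential

/-!
# P012 module L2: the divisor-sum estimate.

FROZEN statements: `thr_spec`, `thr_le_of`, `KL`.

Write `T = 2^(4a)`, `I = win lam`, `Om n = n.primeFactorsList.length`, `x = 2^(-a)`.
(1) `T^(Om n) ≤ n` for rough `n > 0`.
(2) `G := ∑_{n ∣ Δ, n rough} x^(Om n) ≤ (1+x)^k` if `0 < Δ < T^(k+1)`:  induction on `k`;
    if `Δ` has no prime factor `> T` the only rough divisor is `1`; otherwise `Δ = p Δ'`, `p > T`,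
    `Δ' < T^k`, and every divisor of `p Δ'` either divides `Δ'` or is `p n'` with `n' ∣ Δ'`, so
    `G Δ ≤ (1+x) G Δ'`.   Here `Δ < 2^(16 a sL) = T^(4 sL)`, so `G ≤ (1+2^(-a))^(4 sL a l)`.
    For `l = 0`: `4 sL a 0 = 2^(a-6) ≤ 2^a`, so `G ≤ 3` (`one_add_inv_pow_le`).
    For `l ≥ 1`: `4 sL a l = 2^a * (sL a (l-1) / 64)`, so `G ≤ 3^(sL a (l-1)/64) ≤ 2^(sL a (l-1)/32)`.
(3) `e = thr n`, `n ≥ 2`: `(e-1)^8 < n^5` and `e ≤ 2 (e-1)`, so `e^8 < 2^8 n^5`.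
(4) with `om = sL a (l-1) / 8` (`l ≥ 1`) or `om = a / 2` (`l = 0`), `2^(8 om) ≤ Wlo a l < n`, so
    `(thr n * 2^(a Om n) * 2^om)^8 < 2^8 n^5 * n^2 * n = (2n)^8`, i.e.
    `thr n / n ≤ 2 * 2^(-om) * x^(Om n)`.   First half of the sum `≤ I * 2 * 2^(-om) * G ≤ I / 2^13`.
(5) `(thr n * 2^(a Om n))^8 < 2^8 n^7 < 2^8 2^(7(lam+1)) ≤ (2 * 2^E)^8` with `E = (7 lam + 14) / 8`,
    so `thr n ≤ 2^(E+1) x^(Om n)`; second half `≤ 2^(E+1) G`.  If the sum is non-empty and `l ≥ 1`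
    then `2^(sL a (l-1)) < n ≤ x0 < 2^(lam+1)`, so `sL a (l-1) ≤ lam`, `G ≤ 2^(lam/32)`, and
    `E + 1 + lam/32 + 13 ≤ lam - lam/32` because `lam ≥ 800`.  Second half `≤ I / 2^13`.
-/

namespace P012

open Finset

theorem thr_spec (n : ℕ) : n ^ 5 ≤ thr n ^ 8 := by
  unfold thr
  exact Nat.find_spec (exists_thr n)

theorem thr_le_of {n e : ℕ} (h : n ^ 5 ≤ e ^ 8) : thr n ≤ e := by
  unfold thr
  exact Nat.find_min' (exists_thr n) h

/-- number of prime factors with multiplicity -/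
def Om (n : ℕ) : ℕ := n.primeFactorsList.length

theorem Om_one : Om 1 = 0 := by simp [Om]

theorem Om_prime_mul {p n : ℕ} (hp : p.Prime) (hn : n ≠ 0) : Om (p * n) = Om n + 1 := by
  unfold Om
  rw [(Nat.perm_primeFactorsList_mul hp.ne_zero hn).length_eq, List.length_append,
    Nat.primeFactorsList_prime hp]
  simp [add_comm]

theorem rough_pow_le {T n : ℕ} (hn : 0 < n) (h : Rough T n) : T ^ Om n ≤ n := by
  have := List.pow_card_le_prod n.primeFactorsList T (fun p hp =>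
    (h p (Nat.prime_of_mem_primeFactorsList hp) (Nat.dvd_of_mem_primeFactorsList hp)).le)
  rwa [Nat.prod_primeFactorsList hn.ne'] at this

open Classical in
/-- the weighted number of rough divisors -/
noncomputable def GG (T : ℕ) (x : ℝ) (Δ : ℕ) : ℝ :=
  ∑ n ∈ (Nat.divisors Δ).filter (fun n => Rough T n), x ^ Om n

theorem GG_le_one_of_smooth (T : ℕ) (x : ℝ) (Δ : ℕ)
    (h : ¬ ∃ p, p.Prime ∧ p ∣ Δ ∧ T < p) : GG T x Δ ≤ 1 := by
  classical
  unfold GG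
  have hsub : (Nat.divisors Δ).filter (fun n => Rough T n) ⊆ {1} := by
    intro n hn
    rw [mem_filter, Nat.mem_divisors] at hn
    rw [mem_singleton]
    by_contra hn1
    obtain ⟨p, hp, hpn⟩ := Nat.exists_prime_and_dvd hn1
    exact h ⟨p, hp, hpn.trans hn.1.1, hn.2 p hp hpn⟩
  rcases Finset.subset_singleton_iff.1 hsub with h0 | h1
  · rw [h0]; simp
  · rw [h1]; simp [Om_one]

theorem GG_prime_mul (T : ℕ) (x : ℝ) (hx : 0 ≤ x) {p Δ : ℕ} (hp : p.Prime) (hΔ : 0 < Δ) :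
    GG T x (p * Δ) ≤ (1 + x) * GG T x Δ := by
  classical
  unfold GG
  set A := (Nat.divisors Δ).filter (fun n => Rough T n) with hA
  have hsub : (Nat.divisors (p * Δ)).filter (fun n => Rough T n) ⊆ A ∪ A.image (fun n => p * n) := by
    intro n hn
    rw [mem_filter, Nat.mem_divisors] at hn
    obtain ⟨⟨hnd, -⟩, hr⟩ := hn
    rw [mem_union]
    by_cases hpn : p ∣ n
    · right
      obtain ⟨n', rfl⟩ := hpn
      rw [mem_image]
      refine ⟨n', ?_, rfl⟩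
      rw [hA, mem_filter, Nat.mem_divisors]
      exact ⟨⟨Nat.dvd_of_mul_dvd_mul_left hp.pos hnd, hΔ.ne'⟩,
        fun q hq hqn => hr q hq (hqn.mul_left p)⟩
    · left
      rw [hA, mem_filter, Nat.mem_divisors]
      have hc : Nat.Coprime n p := ((Nat.Prime.coprime_iff_not_dvd hp).2 hpn).symm
      exact ⟨⟨hc.dvd_of_dvd_mul_left hnd, hΔ.ne'⟩, hr⟩
  have hnn : ∀ (s : Finset ℕ), 0 ≤ ∑ n ∈ s, x ^ Om n := fun s =>
    Finset.sum_nonneg fun n _ => pow_nonneg hx _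
  have h1 : ∑ n ∈ (Nat.divisors (p * Δ)).filter (fun n => Rough T n), x ^ Om n
      ≤ ∑ n ∈ A ∪ A.image (fun n => p * n), x ^ Om n :=
    Finset.sum_le_sum_of_subset_of_nonneg hsub fun n _ _ => pow_nonneg hx _
  have h2 := Finset.sum_union_inter (s₁ := A) (s₂ := A.image (fun n => p * n))
    (f := fun n => x ^ Om n)
  have h3 : ∑ n ∈ A.image (fun n => p * n), x ^ Om n = x * ∑ n ∈ A, x ^ Om n := by
    rw [Finset.sum_image (fun a _ b _ hab => Nat.eq_of_mul_eq_mul_left hp.pos hab), Finset.mul_sum]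
    refine Finset.sum_congr rfl fun n hn => ?_
    rw [hA, mem_filter, Nat.mem_divisors] at hn
    have hn0 : n ≠ 0 := fun h0 => hΔ.ne' (by simpa [h0] using hn.1.1)
    rw [Om_prime_mul hp hn0, pow_succ, mul_comm]
  have h4 := hnn (A ∩ A.image (fun n => p * n))
  rw [h3] at h2
  linarith

theorem rough_sum_le (T : ℕ) (x : ℝ) (hx : 0 ≤ x) :
    ∀ k Δ : ℕ, 0 < Δ → Δ < T ^ (k + 1) → GG T x Δ ≤ (1 + x) ^ k := by
  intro k
  induction k with
  | zero =>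
    intro Δ h0 hlt
    refine (GG_le_one_of_smooth T x Δ ?_).trans (by simp)
    rintro ⟨p, hp, hpd, hTp⟩
    have := Nat.le_of_dvd h0 hpd
    simp at hlt
    omega
  | succ k ih =>
    intro Δ h0 hlt
    have h1x : (1 : ℝ) ≤ 1 + x := by linarith
    by_cases h : ∃ p, p.Prime ∧ p ∣ Δ ∧ T < p
    · obtain ⟨p, hp, ⟨Δ', rfl⟩, hTp⟩ := h
      have hΔ' : 0 < Δ' := Nat.pos_of_ne_zero (fun h => by simp [h] at h0)
      have hlt' : Δ' < T ^ (k + 1) := by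
        by_contra hcon
        rw [not_lt] at hcon
        have h5 : T * T ^ (k + 1) ≤ p * Δ' := Nat.mul_le_mul hTp.le hcon
        have e : T ^ (k + 1 + 1) = T * T ^ (k + 1) := by ring
        rw [e] at hlt
        omega
      calc GG T x (p * Δ') ≤ (1 + x) * GG T x Δ' := GG_prime_mul T x hx hp hΔ'
        _ ≤ (1 + x) * (1 + x) ^ k := by
            exact mul_le_mul_of_nonneg_left (ih Δ' hΔ' hlt') (by linarith)
        _ = (1 + x) ^ (k + 1) := by ring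
    · exact (GG_le_one_of_smooth T x Δ h).trans (one_le_pow₀ h1x)

theorem GG_le_pow (a s Δ : ℕ) (x : ℝ) (hx : 0 ≤ x) (hs : 0 < s) (hΔ0 : 0 < Δ)
    (hΔ : Δ < 2 ^ (16 * a * s)) : GG (2 ^ (4 * a)) x Δ ≤ (1 + x) ^ (4 * s) := by
  have h1 : Δ < (2 ^ (4 * a)) ^ ((4 * s - 1) + 1) := by
    rw [Nat.sub_add_cancel (by omega), ← pow_mul]
    have : 4 * a * (4 * s) = 16 * a * s := by ring
    rwa [this]
  refine (rough_sum_le _ x hx _ Δ hΔ0 h1).trans ?_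
  exact pow_le_pow_right₀ (by linarith) (by omega)

theorem thr_pow_lt {n : ℕ} (hn : 2 ≤ n) : thr n ^ 8 < 2 ^ 8 * n ^ 5 := by
  set e := thr n with he
  have hspec : n ^ 5 ≤ e ^ 8 := thr_spec n
  have h32 : 2 ^ 5 ≤ n ^ 5 := Nat.pow_le_pow_left hn 5
  have he2 : 2 ≤ e := by
    by_contra hcon
    have : e ≤ 1 := by omega
    have : e ^ 8 ≤ 1 ^ 8 := Nat.pow_le_pow_left this 8
    omega
  have hmin : (e - 1) ^ 8 < n ^ 5 := by
    by_contra hcon
    rw [not_lt] at hcon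
    have := thr_le_of hcon
    omega
  calc e ^ 8 ≤ (2 * (e - 1)) ^ 8 := Nat.pow_le_pow_left (by omega) 8
    _ = 2 ^ 8 * (e - 1) ^ 8 := by ring
    _ < 2 ^ 8 * n ^ 5 := by omega

theorem thr_bound_one {a n W om : ℕ} (hn : 2 ≤ n) (hr : Rough (2 ^ (4 * a)) n)
    (hW : 2 ^ (8 * om) ≤ W) (hWn : W < n) : thr n * 2 ^ (a * Om n) * 2 ^ om < 2 * n := by
  have hA := thr_pow_lt hn
  have hB : (2 ^ (a * Om n)) ^ 8 ≤ n ^ 2 := by
    have := rough_pow_le (by omega : 0 < n) hr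
    calc (2 ^ (a * Om n)) ^ 8 = ((2 ^ (4 * a)) ^ Om n) ^ 2 := by
          rw [← pow_mul, ← pow_mul, ← pow_mul]; congr 1; ring
      _ ≤ n ^ 2 := Nat.pow_le_pow_left this 2
  have hC : (2 ^ om) ^ 8 ≤ n := by
    rw [← pow_mul, mul_comm]; omega
  have hn0 : 0 < n := by omega
  have : (thr n * 2 ^ (a * Om n) * 2 ^ om) ^ 8 < (2 * n) ^ 8 := by
    calc (thr n * 2 ^ (a * Om n) * 2 ^ om) ^ 8
        = thr n ^ 8 * ((2 ^ (a * Om n)) ^ 8 * (2 ^ om) ^ 8) := by ring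
      _ ≤ thr n ^ 8 * (n ^ 2 * n) := Nat.mul_le_mul_left _ (Nat.mul_le_mul hB hC)
      _ < (2 ^ 8 * n ^ 5) * (n ^ 2 * n) := Nat.mul_lt_mul_of_pos_right hA (by positivity)
      _ = (2 * n) ^ 8 := by ring
  exact lt_of_pow_lt_pow_left₀ 8 (by positivity) this

theorem thr_bound_two {a n lam : ℕ} (hn : 2 ≤ n) (hr : Rough (2 ^ (4 * a)) n)
    (hlam : n < 2 ^ (lam + 1)) : thr n * 2 ^ (a * Om n) < 2 ^ ((7 * lam + 14) / 8 + 1) := by
  have hA := thr_pow_lt hn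
  have hB : (2 ^ (a * Om n)) ^ 8 ≤ n ^ 2 := by
    have := rough_pow_le (by omega : 0 < n) hr
    calc (2 ^ (a * Om n)) ^ 8 = ((2 ^ (4 * a)) ^ Om n) ^ 2 := by
          rw [← pow_mul, ← pow_mul, ← pow_mul]; congr 1; ring
      _ ≤ n ^ 2 := Nat.pow_le_pow_left this 2
  have hn0 : 0 < n := by omega
  have h7 : n ^ 7 ≤ 2 ^ (8 * ((7 * lam + 14) / 8)) := by
    calc n ^ 7 ≤ (2 ^ (lam + 1)) ^ 7 := Nat.pow_le_pow_left hlam.le 7
      _ = 2 ^ ((lam + 1) * 7) := by rw [← pow_mul]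
      _ ≤ 2 ^ (8 * ((7 * lam + 14) / 8)) := Nat.pow_le_pow_right (by norm_num) (by omega)
  have : (thr n * 2 ^ (a * Om n)) ^ 8 < (2 ^ ((7 * lam + 14) / 8 + 1)) ^ 8 := by
    calc (thr n * 2 ^ (a * Om n)) ^ 8 = thr n ^ 8 * (2 ^ (a * Om n)) ^ 8 := by ring
      _ ≤ thr n ^ 8 * n ^ 2 := Nat.mul_le_mul_left _ hB
      _ < (2 ^ 8 * n ^ 5) * n ^ 2 := Nat.mul_lt_mul_of_pos_right hA (by positivity)
      _ = 2 ^ 8 * n ^ 7 := by ring
      _ ≤ 2 ^ 8 * 2 ^ (8 * ((7 * lam + 14) / 8)) := Nat.mul_le_mul_left _ h7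
      _ = (2 ^ ((7 * lam + 14) / 8 + 1)) ^ 8 := by
          rw [← pow_add, ← pow_mul]; congr 1; ring
  exact lt_of_pow_lt_pow_left₀ 8 (by positivity) this

theorem KL_core (a lam x0 Δ W om g : ℕ) (S : Finset ℕ)
    (hS : ∀ n ∈ S, n ∣ Δ ∧ Rough (2 ^ (4 * a)) n ∧ W < n ∧ n ≤ x0)
    (hΔ0 : 0 < Δ) (hx0 : x0 < 2 ^ (lam + 1)) (hW1 : 1 ≤ W) (hW : 2 ^ (8 * om) ≤ W)
    (hG : GG (2 ^ (4 * a)) (1 / 2 ^ a) Δ ≤ 2 ^ g) (h3 : g + 14 ≤ om)
    (h4 : (7 * lam + 14) / 8 + 1 + g + 13 ≤ lam - lam / 32) :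
    ∑ n ∈ S, (thr n : ℝ) * ((win lam : ℝ) / n + 1) ≤ (win lam : ℝ) / 2 ^ 12 := by
  classical
  set E := (7 * lam + 14) / 8 with hE
  set I : ℝ := (win lam : ℝ) with hI
  have hI0 : 0 ≤ I := by positivity
  set x : ℝ := 1 / 2 ^ a with hx
  have hx0' : 0 ≤ x := by positivity
  set cst : ℝ := 2 * I / 2 ^ om + 2 ^ (E + 1) with hcst
  have hcst0 : 0 ≤ cst := by positivity
  have hterm : ∀ n ∈ S, (thr n : ℝ) * (I / n + 1) ≤ cst * x ^ Om n := by
    intro n hn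
    obtain ⟨-, hr, hWn, hnx⟩ := hS n hn
    have hn2 : 2 ≤ n := by omega
    have b1 := thr_bound_one hn2 hr hW hWn
    have b2 := thr_bound_two (lam := lam) hn2 hr (by omega)
    have b1' : (thr n : ℝ) * 2 ^ (a * Om n) * 2 ^ om ≤ 2 * n := by exact_mod_cast b1.le
    have b2' : (thr n : ℝ) * 2 ^ (a * Om n) ≤ 2 ^ (E + 1) := by exact_mod_cast b2.le
    have hxp : x ^ Om n = 1 / 2 ^ (a * Om n) := by
      rw [hx, one_div_pow, ← pow_mul]
    rw [hxp]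
    set u : ℝ := 2 ^ (a * Om n) with hu
    set v : ℝ := 2 ^ om with hv
    have hu0 : 0 < u := by positivity
    have hv0 : 0 < v := by positivity
    have hN0 : (0 : ℝ) < n := by exact_mod_cast (by omega : 0 < n)
    have e1 : (thr n : ℝ) * (I / n) ≤ 2 * I / v * (1 / u) := by
      have : (thr n : ℝ) * (I / n) = I * ((thr n : ℝ) * u * v) / (n * (u * v)) := by
        field_simp
      rw [this, div_le_iff₀ (by positivity)]
      have : 2 * I / v * (1 / u) * (n * (u * v)) = I * (2 * n) := by field_simp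
      rw [this]
      exact mul_le_mul_of_nonneg_left b1' hI0
    have e2 : (thr n : ℝ) ≤ 2 ^ (E + 1) * (1 / u) := by
      rw [mul_one_div, le_div_iff₀ hu0]
      exact b2'
    calc (thr n : ℝ) * (I / n + 1) = (thr n : ℝ) * (I / n) + thr n := by ring
      _ ≤ 2 * I / v * (1 / u) + 2 ^ (E + 1) * (1 / u) := add_le_add e1 e2
      _ = cst * (1 / u) := by rw [hcst]; ring
  have hsub : S ⊆ (Nat.divisors Δ).filter (fun n => Rough (2 ^ (4 * a)) n) := by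
    intro n hn
    rw [mem_filter, Nat.mem_divisors]
    exact ⟨⟨(hS n hn).1, hΔ0.ne'⟩, (hS n hn).2.1⟩
  have hsum : ∑ n ∈ S, x ^ Om n ≤ 2 ^ g := by
    refine le_trans ?_ hG
    unfold GG
    exact Finset.sum_le_sum_of_subset_of_nonneg hsub fun n _ _ => pow_nonneg hx0' _
  have hfin : cst * 2 ^ g ≤ I / 2 ^ 12 := by
    have p1 : (2 : ℝ) ^ (g + 14) ≤ 2 ^ om := pow_le_pow_right₀ (by norm_num) h3
    have p2 : (2 : ℝ) ^ (E + 1 + g + 13) ≤ I := by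
      rw [hI, win]
      push_cast
      exact pow_le_pow_right₀ (by norm_num) h4
    have hv0 : (0 : ℝ) < 2 ^ om := by positivity
    have q1 : 2 * I / 2 ^ om * 2 ^ g ≤ I / 2 ^ 13 := by
      rw [div_mul_eq_mul_div, div_le_div_iff₀ hv0 (by positivity)]
      have : 2 * I * 2 ^ g * 2 ^ 13 = I * 2 ^ (g + 14) := by ring
      rw [this]
      exact mul_le_mul_of_nonneg_left p1 hI0
    have q2 : (2 : ℝ) ^ (E + 1) * 2 ^ g ≤ I / 2 ^ 13 := by
      rw [le_div_iff₀ (by positivity)]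
      calc (2 : ℝ) ^ (E + 1) * 2 ^ g * 2 ^ 13 = 2 ^ (E + 1 + g + 13) := by ring
        _ ≤ I := p2
    calc cst * 2 ^ g = 2 * I / 2 ^ om * 2 ^ g + 2 ^ (E + 1) * 2 ^ g := by rw [hcst]; ring
      _ ≤ I / 2 ^ 13 + I / 2 ^ 13 := add_le_add q1 q2
      _ = I / 2 ^ 12 := by ring
  calc ∑ n ∈ S, (thr n : ℝ) * (I / n + 1) ≤ ∑ n ∈ S, cst * x ^ Om n := Finset.sum_le_sum hterm
    _ = cst * ∑ n ∈ S, x ^ Om n := by rw [Finset.mul_sum]
    _ ≤ cst * 2 ^ g := mul_le_mul_of_nonneg_left hsum hcst0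
    _ ≤ I / 2 ^ 12 := hfin

open Classical in
theorem KL (a l lam x0 Δ : ℕ) (ha : 50 ≤ a) (hl : l < 5) (hlam : 16 * a ≤ lam)
    (hx0 : x0 < 2 ^ (lam + 1)) (hΔ0 : 0 < Δ) (hΔ : Δ < 2 ^ (16 * a * sL a l)) :
    ∑ n ∈ (Nat.divisors Δ).filter (fun n => Rough (2 ^ (4 * a)) n ∧ Wlo a l < n ∧ n ≤ x0),
      (thr n : ℝ) * ((win lam : ℝ) / n + 1) ≤ (win lam : ℝ) / 2 ^ 12 := by
  set S := (Nat.divisors Δ).filter (fun n => Rough (2 ^ (4 * a)) n ∧ Wlo a l < n ∧ n ≤ x0) with hSdef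
  have hS : ∀ n ∈ S, n ∣ Δ ∧ Rough (2 ^ (4 * a)) n ∧ Wlo a l < n ∧ n ≤ x0 := by
    intro n hn
    rw [hSdef, mem_filter, Nat.mem_divisors] at hn
    exact ⟨hn.1.1, hn.2⟩
  have hxnn : (0 : ℝ) ≤ 1 / 2 ^ a := by positivity
  have hsLpos : 0 < sL a l := by unfold sL; positivity
  have hG0 := GG_le_pow a (sL a l) Δ (1 / 2 ^ a) hxnn hsLpos hΔ0 hΔ
  have hbase : ∀ m : ℕ, m ≤ 2 ^ a → (1 + 1 / (2 : ℝ) ^ a) ^ m ≤ 3 := by
    intro m hm
    have := one_add_inv_pow_le (2 ^ a) m (by positivity) hm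
    simpa using this
  rcases S.eq_empty_or_nonempty with hemp | ⟨n0, hn0⟩
  · rw [hemp]; simp only [Finset.sum_empty]; positivity
  rcases Nat.eq_zero_or_pos l with rfl | hlpos
  · -- level zero
    have hW : Wlo a 0 = 2 ^ (4 * a) := by simp [Wlo]
    have hs : sL a 0 = 2 ^ (a - 8) := by simp [sL]
    refine KL_core a lam x0 Δ (Wlo a 0) (a / 2) 2 S hS hΔ0 hx0 ?_ ?_ ?_ (by omega) (by omega)
    · rw [hW]; exact Nat.one_le_two_pow
    · rw [hW]; exact Nat.pow_le_pow_right (by norm_num) (by omega)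
    · refine hG0.trans ((hbase _ ?_).trans (by norm_num))
      rw [hs]
      calc 4 * 2 ^ (a - 8) = 2 ^ (a - 8 + 2) := by rw [pow_add]; ring
        _ ≤ 2 ^ a := Nat.pow_le_pow_right (by norm_num) (by omega)
  · -- higher levels
    set b := l * (a - 8) with hb
    have hb42 : 42 ≤ b := by
      have : 1 * (a - 8) ≤ l * (a - 8) := Nat.mul_le_mul_right _ hlpos
      omega
    set m := 2 ^ (b - 6) with hm
    have hm3 : 3 ≤ m := by
      calc 3 ≤ 2 ^ 2 := by norm_num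
        _ ≤ 2 ^ (b - 6) := Nat.pow_le_pow_right (by norm_num) (by omega)
    have hs' : sL a (l - 1) = 64 * m := by
      unfold sL
      rw [Nat.sub_add_cancel hlpos, ← hb, hm]
      calc 2 ^ b = 2 ^ (6 + (b - 6)) := by congr 1; omega
        _ = 64 * 2 ^ (b - 6) := by rw [pow_add]; norm_num
    have hW : Wlo a l = 2 ^ (64 * m) := by
      unfold Wlo
      rw [if_neg (by omega), hs']
    have hs : 4 * sL a l = 2 ^ a * m := by
      unfold sL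
      rw [add_mul, one_mul, ← hb, hm]
      calc 4 * 2 ^ (b + (a - 8)) = 2 ^ (2 + (b + (a - 8))) := by rw [pow_add 2 2]; norm_num
        _ = 2 ^ (a + (b - 6)) := by congr 1; omega
        _ = 2 ^ a * 2 ^ (b - 6) := by rw [pow_add]
    have hmlam : 64 * m ≤ lam := by
      obtain ⟨-, -, h1, h2⟩ := hS n0 hn0
      rw [hW] at h1
      have : 2 ^ (64 * m) < 2 ^ (lam + 1) := by omega
      have := (Nat.pow_lt_pow_iff_right (by norm_num : 1 < 2)).1 this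
      omega
    refine KL_core a lam x0 Δ (Wlo a l) (8 * m) (2 * m) S hS hΔ0 hx0 ?_ ?_ ?_ (by omega) (by omega)
    · rw [hW]; exact Nat.one_le_two_pow
    · rw [hW]; exact Nat.pow_le_pow_right (by norm_num) (by omega)
    · refine hG0.trans ?_
      rw [hs, pow_mul]
      calc ((1 + 1 / (2 : ℝ) ^ a) ^ 2 ^ a) ^ m ≤ 3 ^ m :=
            pow_le_pow_left₀ (by positivity) (hbase _ le_rfl) m
        _ ≤ (2 ^ 2) ^ m := pow_le_pow_left₀ (by norm_num) (by norm_num) m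
        _ = 2 ^ (2 * m) := by rw [← pow_mul]

end P012
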