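import Vale.Agent.Lib.P012.Defs2

/-!
# P012 module L6: smooth/rough factorisation.

FROZEN statements: `exists_split`, `not_dvd_primorial_sq`, `rough_of_dvd`.

`exists_split`: `ws = ∏ p ∈ w.primeFactors.filter (· ≤ T), p ^ w.factorization p`,
`wr = ∏ p ∈ w.primeFactors.filter (T < ·), p ^ w.factorization p`
(`Nat.factorization_prod_pow_eq_self`).  Each exponent in `ws` is `≤ 2`, so
`ws ∣ (∏ p ∈ ..., p)^2 ∣ (primorial T)^2`.
-/

namespace P012

open Finset

theorem rough_of_dvd {T n d : ℕ} (h : Rough T n) (hd : d ∣ n) : Rough T d :=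
  fun p hp hpd => h p hp (hpd.trans hd)

theorem not_dvd_primorial_sq (T p : ℕ) (hp : p.Prime) (h : T < p) : ¬ p ∣ (primorial T) ^ 2 := by
  intro hd
  have := (hp.dvd_primorial_iff).1 (hp.dvd_of_dvd_pow hd)
  omega

theorem exists_split (T w : ℕ) (hw : 0 < w) (h : ∀ p, p.Prime → p ≤ T → ¬ p ^ 3 ∣ w) :
    ∃ ws wr : ℕ, w = ws * wr ∧ ws ∣ (primorial T) ^ 2 ∧ Rough T wr := by
  classical
  refine ⟨∏ p ∈ w.primeFactors.filter (fun p => p ≤ T), p ^ w.factorization p,
    ∏ p ∈ w.primeFactors.filter (fun p => ¬ p ≤ T), p ^ w.factorization p, ?_, ?_, ?_⟩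
  · rw [Finset.prod_filter_mul_prod_filter_not]
    have := Nat.prod_factorization_pow_eq_self hw.ne'
    rw [Finsupp.prod, Nat.support_factorization] at this
    exact this.symm
  · have h1 : ∏ p ∈ w.primeFactors.filter (fun p => p ≤ T), p ^ w.factorization p
        ∣ ∏ p ∈ w.primeFactors.filter (fun p => p ≤ T), p ^ 2 := by
      refine Finset.prod_dvd_prod_of_dvd _ _ fun p hp => pow_dvd_pow p ?_
      rw [mem_filter, Nat.mem_primeFactors] at hp
      have h3 := h p hp.1.1 hp.2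
      rw [hp.1.1.pow_dvd_iff_le_factorization hw.ne'] at h3
      omega
    refine h1.trans ?_
    rw [Finset.prod_pow]
    refine pow_dvd_pow_of_dvd ?_ 2
    unfold primorial
    refine Finset.prod_dvd_prod_of_subset _ _ _ fun p hp => ?_
    rw [mem_filter, Nat.mem_primeFactors] at hp
    rw [mem_filter, mem_range]
    exact ⟨by omega, hp.1.1⟩
  · intro q hq hqd
    obtain ⟨p, hp, hqp⟩ := (Nat.Prime.prime hq).exists_mem_finset_dvd hqd
    rw [mem_filter, Nat.mem_primeFactors] at hp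
    have := (Nat.prime_dvd_prime_iff_eq hq hp.1.1).1 (hq.dvd_of_dvd_pow hqp)
    omega

end P012
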