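import Vale.Agent.Lib.P012.CoverG
import Vale.Agent.Lib.P012.GoodW
import Vale.Agent.Lib.P012.Split

/-!
# P012 module L7: the oracle.

FROZEN statement: `oracle_thm`.

Proof.  `exists_good` gives `w`; `exists_split` gives `w = ws * wr`.  Given weights `c` and `ρ`,
apply `cover_general` with `q = wr`, `ι = Fin 160`, `A i = image (c i * ·) (X (2 i))`,
`B i = X (2 i + 1)`.  For `d ∣ wr`, `1 < d`: `d ∣ w` and `d` is rough, so `exists_good` gives the
level `l` and `e`; `s = univ.filter (fun i => i.val / 32 = l)` has 32 elements; use `En_image_mul`,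
`card_image_mul` (`c i` is coprime to `d`).   `e i = x i * y i` with `c i * x i = a i`.
-/

namespace P012

open Finset

theorem card_level (l : ℕ) (hl : l < 5) :
    (Finset.univ.filter (fun i : Fin 160 => i.val / 32 = l)).card = 32 := by
  interval_cases l <;> decide +kernel

theorem sL_mono (a : ℕ) {l l' : ℕ} (h : l ≤ l') : sL a l ≤ sL a l' := by
  unfold sL
  exact Nat.pow_le_pow_right (by norm_num) (Nat.mul_le_mul_right _ (by omega))

theorem oracle_thm (a qmax : ℕ) (ha : 50 ≤ a) (hq : qmax ≤ 2 ^ (2 * a))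
    (X : ℕ → Finset ℕ) (Bk : ℕ → ℕ)
    (hXc : ∀ k < 320, 2 ^ (sL a (k / 64)) ≤ (X k).card)
    (hXb : ∀ k < 320, ∀ x ∈ X k, 1 < x ∧ x < 2 ^ (16 * a * sL a (k / 64)) ∧ x ∣ Bk k)
    (hB : ∀ k < 320, ∀ k' < 320, k ≠ k' → Nat.Coprime (Bk k) (Bk k')) :
    Oracle 160 (∏ k ∈ Finset.range 320, Bk k) ((primorial (2 ^ (4 * a))) ^ 2)
      (2 ^ (32 * a * sL a 4)) (2 ^ (4 * a)) (16 * a) (sL a 4 - 1) qmax := by
  classical
  intro lam x0 Q hlam0 hlam1 hwin hx0 hQ hQc
  have hsL4 : 0 < sL a 4 := by unfold sL; positivity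
  obtain ⟨w, hw1, hw2, hcube, hQw, hgood⟩ := exists_good a lam x0 X Q ha hlam0 (by omega) hx0 hwin
    hXc (fun k hk x hx => (hXb k hk x hx).2.1) hQ (hQc.trans hq)
  have hw0 : 0 < w := by omega
  obtain ⟨ws, wr, hsplit, hws, hrough⟩ := exists_split (2 ^ (4 * a)) w hw0 hcube
  have hwr0 : 0 < wr := Nat.pos_of_ne_zero (fun h => by rw [h, mul_zero] at hsplit; omega)
  have hwrw : wr ∣ w := ⟨ws, by rw [hsplit, mul_comm]⟩
  refine ⟨ws, wr, by rw [← hsplit]; exact hw1, by rw [← hsplit]; exact hw2, hws, hwr0,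
    fun q hq' hd => hQw q hq' (hd.trans hwrw), ?_⟩
  intro c hc0 hcop ρ
  have hne : ∀ k < 320, (X k).Nonempty := by
    intro k hk
    rw [← Finset.card_pos]
    exact lt_of_lt_of_le (by positivity) (hXc k hk)
  have hi1 : ∀ i : Fin 160, 2 * i.val < 320 := fun i => by have := i.isLt; omega
  have hi2 : ∀ i : Fin 160, 2 * i.val + 1 < 320 := fun i => by have := i.isLt; omega
  obtain ⟨u, v, hu, hv, hsum⟩ := cover_general (ι := Fin 160) wr hwr0
    (fun i => (X (2 * i.val)).image (fun x => c i * x)) (fun i => X (2 * i.val + 1))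
    (fun i => (hne _ (hi1 i)).image _) (fun i => hne _ (hi2 i))
    (by
      intro d hd h1d
      obtain ⟨l, hl, e, he, hE⟩ := hgood d (hd.trans hwrw) h1d (rough_of_dvd hrough hd)
      refine ⟨Finset.univ.filter (fun i : Fin 160 => i.val / 32 = l), e, card_level l hl, he, ?_⟩
      intro i hi
      rw [mem_filter] at hi
      have hil := hi.2
      constructor
      · rw [En_image_mul _ _ _ (hc0 i) (Nat.Coprime.coprime_dvd_right hd (hcop i)),
          card_image_mul _ _ (hc0 i)]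
        exact hE _ (hi1 i) (by omega)
      · exact hE _ (hi2 i) (by omega)) ρ
  have hx : ∀ i : Fin 160, ∃ x ∈ X (2 * i.val), c i * x = u i := fun i => by
    have := hu i
    rw [mem_image] at this
    exact this
  choose x hxm hxu using hx
  have cop : ∀ k k', k < 320 → k' < 320 → k ≠ k' → ∀ s t, s ∣ Bk k → t ∣ Bk k' →
      Nat.Coprime s t := fun k k' hk hk' hne s t hs ht =>
    Nat.Coprime.coprime_dvd_left hs (Nat.Coprime.coprime_dvd_right ht (hB k hk k' hk' hne))
  refine ⟨fun i => x i * v i, fun i => ⟨?_, ?_, ?_⟩, ?_, ?_⟩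
  · have h1 := (hXb _ (hi1 i) _ (hxm i)).2.2
    have h2 := (hXb _ (hi2 i) _ (hv i)).2.2
    refine (mul_dvd_mul h1 h2).trans ?_
    have hsub : ({2 * i.val, 2 * i.val + 1} : Finset ℕ) ⊆ Finset.range 320 := by
      intro k hk
      rw [mem_insert, mem_singleton] at hk
      rw [mem_range]
      rcases hk with rfl | rfl
      · exact hi1 i
      · exact hi2 i
    have := Finset.prod_dvd_prod_of_subset _ _ Bk hsub
    rwa [Finset.prod_pair (by omega)] at this
  · have h1 := (hXb _ (hi1 i) _ (hxm i)).1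
    have h2 := (hXb _ (hi2 i) _ (hv i)).1
    show 1 < x i * v i
    nlinarith
  · have h1 := (hXb _ (hi1 i) _ (hxm i)).2.1
    have h2 := (hXb _ (hi2 i) _ (hv i)).2.1
    have hl1 : sL a (2 * i.val / 64) ≤ sL a 4 := sL_mono a (by have := i.isLt; omega)
    have hl2 : sL a ((2 * i.val + 1) / 64) ≤ sL a 4 := sL_mono a (by have := i.isLt; omega)
    have g1 : x i ≤ 2 ^ (16 * a * sL a 4) :=
      h1.le.trans (Nat.pow_le_pow_right (by norm_num) (Nat.mul_le_mul_left _ hl1))
    have g2 : v i ≤ 2 ^ (16 * a * sL a 4) :=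
      h2.le.trans (Nat.pow_le_pow_right (by norm_num) (Nat.mul_le_mul_left _ hl2))
    calc x i * v i ≤ 2 ^ (16 * a * sL a 4) * 2 ^ (16 * a * sL a 4) := Nat.mul_le_mul g1 g2
      _ = 2 ^ (32 * a * sL a 4) := by
          have e : 16 * a * sL a 4 + 16 * a * sL a 4 = 32 * a * sL a 4 := by ring
          rw [← pow_add, e]
  · intro i j hij
    have hij' : i.val ≠ j.val := fun h => hij (Fin.ext h)
    have a1 := (hXb _ (hi1 i) _ (hxm i)).2.2
    have a2 := (hXb _ (hi2 i) _ (hv i)).2.2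
    have b1 := (hXb _ (hi1 j) _ (hxm j)).2.2
    have b2 := (hXb _ (hi2 j) _ (hv j)).2.2
    show Nat.Coprime (x i * v i) (x j * v j)
    rw [Nat.coprime_mul_iff_left, Nat.coprime_mul_iff_right, Nat.coprime_mul_iff_right]
    exact ⟨⟨cop _ _ (hi1 i) (hi1 j) (by omega) _ _ a1 b1, cop _ _ (hi1 i) (hi2 j) (by omega) _ _ a1 b2⟩,
      ⟨cop _ _ (hi2 i) (hi1 j) (by omega) _ _ a2 b1, cop _ _ (hi2 i) (hi2 j) (by omega) _ _ a2 b2⟩⟩
  · have : ∑ i, c i * (x i * v i) = ∑ i, u i * v i :=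
      Finset.sum_congr rfl fun i _ => by rw [← mul_assoc, hxu i]
    rw [this]
    exact hsum

end P012
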