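import Vale.Agent.Lib.P012.Defs2
import Vale.Agent.Lib.P012.Primes
import Vale.Agent.Lib.P012.Construct

/-!
# P012 module L5: atoms, tags and the 320 sets.

FROZEN statements: `exists_atoms`, `exists_sets`.

`exists_atoms`: `pool (4a)` (primes in `(2^(4a), 2^(8a)]`) has at least `2^(8a) / (16 a)` elements
(`pool_card`).  Those dividing `b` have product dividing `b ≤ 2^(2^a)`, so there are at most `2^a`
of them.  `2^(8a)/(16a) - 2^a ≥ 2^(7a)`.  Enumerate the remaining ones (e.g. `Finset.equivFin` or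
`Finset.orderEmbOfFin`).

`exists_sets`: `σ = sL a 4 + 1`.  For `k < 320` let `Pk = image atm (Ico (k σ) (k σ + sL a (k/64) + 1))`,
`Bk k = ∏ p ∈ Pk, p`, `X k = image (fun W => ∏ p ∈ W, p) (Pk.powerset.erase ∅)`
(injective by `prod_injOn`, so `|X k| = 2^(sL+1) - 1 ≥ 2^sL`; each element is `> 1`, divides `Bk k`,
and is `≤ 2^(8a (sL+1)) `, and `< 2^(16 a sL)` as `sL ≥ 2`), `τ j = atm (320 σ + j)`;
`320 σ + 2 S + 1 ≤ 2^(7a)`.
-/

namespace P012

open Finset

theorem mul32_le_two_pow (a : ℕ) (ha : 8 ≤ a) : 32 * a ≤ 2 ^ a := by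
  induction a, ha using Nat.le_induction with
  | base => norm_num
  | succ n hn ih => rw [pow_succ]; omega

theorem exists_atoms (a b : ℕ) (ha : 50 ≤ a) (hb0 : 0 < b) (hb : b ≤ 2 ^ (2 ^ a)) :
    ∃ atm : ℕ → ℕ,
      (∀ i < 2 ^ (7 * a), (atm i).Prime ∧ 2 ^ (4 * a) < atm i ∧ atm i ≤ 2 ^ (8 * a) ∧ ¬ atm i ∣ b) ∧
      ∀ i < 2 ^ (7 * a), ∀ j < 2 ^ (7 * a), atm i = atm j → i = j := by
  classical
  set G := (pool (4 * a)).filter (fun p => ¬ p ∣ b) with hG
  set D := (pool (4 * a)).filter (fun p => p ∣ b) with hD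
  have hcard : D.card + G.card = (pool (4 * a)).card :=
    Finset.card_filter_add_card_filter_not _
  have hDle : D.card ≤ 2 ^ a := by
    have h1 : ∏ p ∈ D, p ∣ b := by
      apply Finset.prod_primes_dvd
      · intro p hp
        exact (mem_pool.1 (Finset.mem_filter.1 hp).1).2.prime
      · intro p hp
        exact (Finset.mem_filter.1 hp).2
    have h2 : ∏ p ∈ D, p ≤ b := Nat.le_of_dvd hb0 h1
    have h3 : 2 ^ D.card ≤ ∏ p ∈ D, p := by
      apply Finset.pow_card_le_prod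
      intro p hp
      exact (mem_pool.1 (Finset.mem_filter.1 hp).1).2.two_le
    exact (Nat.pow_le_pow_iff_right (by norm_num)).1 (h3.trans (h2.trans hb))
  have hpool := pool_card (4 * a) (by omega)
  have hGge : 2 ^ (7 * a) ≤ G.card := by
    by_contra hcon
    have h1 : G.card < 2 ^ (7 * a) := by omega
    have h2 : 2 ^ a ≤ 2 ^ (7 * a) := Nat.pow_le_pow_right (by norm_num) (by omega)
    have h3 : (pool (4 * a)).card < 2 * 2 ^ (7 * a) := by omega
    have h4 : 2 ^ (2 * (4 * a)) = 2 ^ a * 2 ^ (7 * a) := by rw [← pow_add]; congr 1; ring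
    have h5 := mul32_le_two_pow a (by omega)
    have h6 : 2 * (2 * (4 * a)) * (pool (4 * a)).card < 2 * (2 * (4 * a)) * (2 * 2 ^ (7 * a)) :=
      Nat.mul_lt_mul_of_pos_left h3 (by omega)
    have h7 : 2 * (2 * (4 * a)) * (2 * 2 ^ (7 * a)) = (32 * a) * 2 ^ (7 * a) := by ring
    have h8 : (32 * a) * 2 ^ (7 * a) ≤ 2 ^ a * 2 ^ (7 * a) := Nat.mul_le_mul_right _ h5
    omega
  set emb := G.orderEmbOfCardLe hGge with hemb
  refine ⟨fun i => if h : i < 2 ^ (7 * a) then emb ⟨i, h⟩ else 0, ?_, ?_⟩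
  · intro i hi
    simp only [dif_pos hi]
    have hm : emb ⟨i, hi⟩ ∈ G := Finset.orderEmbOfCardLe_mem G hGge _
    rw [hG, Finset.mem_filter, mem_pool] at hm
    refine ⟨hm.1.2, hm.1.1.1, ?_, hm.2⟩
    have : 2 * (4 * a) = 8 * a := by ring
    rw [← this]
    exact hm.1.1.2
  · intro i hi j hj hij
    simp only [dif_pos hi, dif_pos hj] at hij
    have := emb.injective hij
    exact Fin.mk.inj_iff.1 this


theorem sL_mono (a : ℕ) {l l' : ℕ} (h : l ≤ l') : sL a l ≤ sL a l' := by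
  unfold sL
  exact Nat.pow_le_pow_right (by norm_num) (Nat.mul_le_mul_right _ (by omega))

theorem two_le_sL (a l : ℕ) (ha : 50 ≤ a) : 2 ≤ sL a l := by
  unfold sL
  calc 2 = 2 ^ 1 := by norm_num
    _ ≤ 2 ^ ((l + 1) * (a - 8)) := Nat.pow_le_pow_right (by norm_num) (by
        have : 1 ≤ (l + 1) * (a - 8) := Nat.mul_pos (by omega) (by omega)
        exact this)

theorem exists_sets (a b S : ℕ) (ha : 50 ≤ a) (hb0 : 0 < b) (hb : b ≤ 2 ^ (2 ^ a))
    (hS : 2 * S + 1 ≤ 2 ^ (2 * a)) :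
    ∃ (X : ℕ → Finset ℕ) (Bk : ℕ → ℕ) (τ : ℕ → ℕ),
      (∀ k < 320, 2 ^ (sL a (k / 64)) ≤ (X k).card) ∧
      (∀ k < 320, ∀ x ∈ X k, 1 < x ∧ x < 2 ^ (16 * a * sL a (k / 64)) ∧ x ∣ Bk k) ∧
      (∀ k < 320, ∀ k' < 320, k ≠ k' → Nat.Coprime (Bk k) (Bk k')) ∧
      (∀ k < 320, 0 < Bk k ∧ Bk k ≤ 2 ^ (8 * a * (sL a 4 + 1))) ∧
      (∀ j ≤ 2 * S, (τ j).Prime ∧ 2 ^ (4 * a) < τ j ∧ τ j ≤ 2 ^ (8 * a) ∧ ¬ τ j ∣ b ∧
        ∀ k < 320, ¬ τ j ∣ Bk k) ∧
      (∀ i ≤ 2 * S, ∀ j ≤ 2 * S, τ i = τ j → i = j) := by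
  classical
  obtain ⟨atm, hatm, hinj⟩ := exists_atoms a b ha hb0 hb
  obtain ⟨N, hN⟩ : ∃ N, N = 2 ^ (7 * a) := ⟨_, rfl⟩
  rw [← hN] at hatm hinj
  obtain ⟨σ, hσ⟩ : ∃ σ, σ = sL a 4 + 1 := ⟨_, rfl⟩
  obtain ⟨s, hs⟩ : ∃ s : ℕ → ℕ, s = fun k => sL a (k / 64) := ⟨_, rfl⟩
  have hsk : ∀ k, sL a (k / 64) = s k := fun k => by rw [hs]
  have hs_le : ∀ k < 320, s k + 1 ≤ σ := by
    intro k hk
    rw [hs, hσ]
    have := sL_mono a (l := k / 64) (l' := 4) (by omega)
    simp only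
    omega
  have hs_ge : ∀ k, 2 ≤ s k := fun k => by rw [hs]; exact two_le_sL a _ ha
  have hNbig : 320 * σ + 2 * S + 1 ≤ N := by
    have h1 : sL a 4 ≤ 2 ^ (5 * a - 40) := by
      unfold sL
      exact Nat.pow_le_pow_right (by norm_num) (by omega)
    have h2 : 2 ^ (5 * a) = 1099511627776 * 2 ^ (5 * a - 40) := by
      have : 2 ^ (5 * a) = 2 ^ 40 * 2 ^ (5 * a - 40) := by
        rw [← pow_add]; congr 1; omega
      rw [this]
      norm_num
    have h3 : 2 ^ (2 * a) ≤ 2 ^ (5 * a) := Nat.pow_le_pow_right (by norm_num) (by omega)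
    have h6 : 4 * 2 ^ (5 * a) ≤ 2 ^ (7 * a) := by
      calc 4 * 2 ^ (5 * a) = 2 ^ (2 + 5 * a) := by rw [pow_add]; norm_num
        _ ≤ 2 ^ (7 * a) := Nat.pow_le_pow_right (by norm_num) (by omega)
    have h7 : 1 ≤ 2 ^ (5 * a - 40) := Nat.one_le_two_pow
    rw [hN, hσ]
    omega
  -- index facts
  have hidx : ∀ k < 320, ∀ i ∈ Finset.Ico (k * σ) (k * σ + s k + 1),
      k * σ ≤ i ∧ i < (k + 1) * σ ∧ i < 320 * σ ∧ i < N := by
    intro k hk i hi
    rw [Finset.mem_Ico] at hi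
    have h1 := hs_le k hk
    have h2 : (k + 1) * σ = k * σ + σ := by ring
    have h3 : (k + 1) * σ ≤ 320 * σ := Nat.mul_le_mul_right _ (by omega)
    refine ⟨hi.1, by omega, by omega, by omega⟩
  obtain ⟨Pk, hPk⟩ : ∃ Pk : ℕ → Finset ℕ,
      Pk = fun k => (Finset.Ico (k * σ) (k * σ + s k + 1)).image atm := ⟨_, rfl⟩
  have hmemPk : ∀ k p, p ∈ Pk k ↔ ∃ i ∈ Finset.Ico (k * σ) (k * σ + s k + 1), atm i = p := by
    intro k p
    rw [hPk]
    exact Finset.mem_image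
  have hPprime : ∀ k < 320, ∀ p ∈ Pk k, p.Prime := by
    intro k hk p hp
    obtain ⟨i, hi, rfl⟩ := (hmemPk k p).1 hp
    exact (hatm i (hidx k hk i hi).2.2.2).1
  have hPle : ∀ k < 320, ∀ p ∈ Pk k, p ≤ 2 ^ (8 * a) := by
    intro k hk p hp
    obtain ⟨i, hi, rfl⟩ := (hmemPk k p).1 hp
    exact (hatm i (hidx k hk i hi).2.2.2).2.2.1
  have hPcard : ∀ k < 320, (Pk k).card = s k + 1 := by
    intro k hk
    rw [hPk]
    simp only
    rw [Finset.card_image_of_injOn, Nat.card_Ico]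
    · omega
    · intro i hi j hj hij
      exact hinj i (hidx k hk i (Finset.mem_coe.1 hi)).2.2.2 j
        (hidx k hk j (Finset.mem_coe.1 hj)).2.2.2 hij
  refine ⟨fun k => ((Pk k).powerset.erase ∅).image (fun W => ∏ p ∈ W, p),
    fun k => ∏ p ∈ Pk k, p, fun j => atm (320 * σ + j), ?_, ?_, ?_, ?_, ?_, ?_⟩
  · intro k hk
    rw [hsk]
    simp only
    rw [Finset.card_image_of_injOn, Finset.card_erase_of_mem (Finset.empty_mem_powerset _),
      Finset.card_powerset, hPcard k hk, pow_succ]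
    · have : 1 ≤ 2 ^ s k := Nat.one_le_two_pow
      omega
    · exact (prod_injOn (hPprime k hk)).mono (by
        intro W hW
        exact Finset.mem_coe.2 (Finset.mem_of_mem_erase (Finset.mem_coe.1 hW)))
  · intro k hk x hx
    rw [hsk]
    obtain ⟨W, hW, rfl⟩ := Finset.mem_image.1 hx
    rw [Finset.mem_erase, Finset.mem_powerset] at hW
    obtain ⟨hWne, hWsub⟩ := hW
    refine ⟨?_, ?_, Finset.prod_dvd_prod_of_subset _ _ _ hWsub⟩
    · obtain ⟨p, hp⟩ := Finset.nonempty_iff_ne_empty.2 hWne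
      have hpp := hPprime k hk p (hWsub hp)
      have hpos : 0 < ∏ p ∈ W, p := Finset.prod_pos (fun r hr => (hPprime k hk r (hWsub hr)).pos)
      have := Nat.le_of_dvd hpos (Finset.dvd_prod_of_mem (fun p => p) hp)
      have h2 := hpp.two_le
      omega
    · calc ∏ p ∈ W, p ≤ (2 ^ (8 * a)) ^ W.card :=
            Finset.prod_le_pow_card _ _ _ (fun p hp => hPle k hk p (hWsub hp))
        _ ≤ (2 ^ (8 * a)) ^ (s k + 1) := by
            apply Nat.pow_le_pow_right (by positivity)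
            rw [← hPcard k hk]
            exact Finset.card_le_card hWsub
        _ = 2 ^ (8 * a * (s k + 1)) := by rw [← pow_mul]
        _ < 2 ^ (16 * a * s k) := by
            apply Nat.pow_lt_pow_right (by norm_num)
            have h2 := hs_ge k
            have h3 : 8 * a * (s k + 1) = 8 * a * s k + 8 * a := by ring
            have h4 : 16 * a * s k = 8 * a * s k + 8 * a * s k := by ring
            have h5 : 8 * a * 2 ≤ 8 * a * s k := Nat.mul_le_mul_left _ h2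
            omega
  · intro k hk k' hk' hne
    apply Nat.Coprime.prod_left
    intro p hp
    apply Nat.Coprime.prod_right
    intro p' hp'
    rw [Nat.coprime_primes (hPprime k hk p hp) (hPprime k' hk' p' hp')]
    obtain ⟨i, hi, rfl⟩ := (hmemPk k p).1 hp
    obtain ⟨i', hi', rfl⟩ := (hmemPk k' p').1 hp'
    intro heq
    have h1 := hidx k hk i hi
    have h2 := hidx k' hk' i' hi'
    have h3 := hinj i h1.2.2.2 i' h2.2.2.2 heq
    rcases Nat.lt_or_gt_of_ne hne with hlt | hlt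
    · have : (k + 1) * σ ≤ k' * σ := Nat.mul_le_mul_right _ hlt
      omega
    · have : (k' + 1) * σ ≤ k * σ := Nat.mul_le_mul_right _ hlt
      omega
  · intro k hk
    refine ⟨Finset.prod_pos (fun r hr => (hPprime k hk r hr).pos), ?_⟩
    calc ∏ p ∈ Pk k, p ≤ (2 ^ (8 * a)) ^ (Pk k).card :=
          Finset.prod_le_pow_card _ _ _ (fun p hp => hPle k hk p hp)
      _ = 2 ^ (8 * a * (s k + 1)) := by rw [hPcard k hk, ← pow_mul]
      _ ≤ 2 ^ (8 * a * (sL a 4 + 1)) := by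
          apply Nat.pow_le_pow_right (by norm_num)
          apply Nat.mul_le_mul_left
          rw [← hσ]
          exact hs_le k hk
  · intro j hj
    have hjN : 320 * σ + j < N := by omega
    obtain ⟨h1, h2, h3, h4⟩ := hatm _ hjN
    refine ⟨h1, h2, h3, h4, ?_⟩
    intro k hk hdvd
    have hmem := prime_dvd_prod_primes (hPprime k hk) h1 hdvd
    obtain ⟨i, hi, heq⟩ := (hmemPk k _).1 hmem
    have h5 := hidx k hk i hi
    have := hinj i h5.2.2.2 _ hjN heq
    omega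
  · intro i hi j hj hij
    have := hinj _ (by omega) _ (by omega) hij
    omega

end P012
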