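import Vale.Agent.Lib.P012.Finish
import Vale.Agent.Lib.P012.OracleThm
import Vale.Agent.Lib.P012.Sets

/-!
# P012 module L10b: the choice of parameters.
-/

namespace P012

open Finset

theorem Setup.N4_le (P : Setup) : P.N4 ≤ P.TM ^ (2 * P.S + 1) := by
  unfold Setup.N4
  calc ∏ j ∈ Finset.range (2 * P.S + 1), P.τ j ≤ ∏ _j ∈ Finset.range (2 * P.S + 1), P.TM :=
        Finset.prod_le_prod' (fun j hj => P.τ_le j (by have := Finset.mem_range.1 hj; omega))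
    _ = P.TM ^ (2 * P.S + 1) := by simp

theorem S_bound (a : ℕ) (ha : 50 ≤ a) : 2 * (262144 * a) + 1 ≤ 2 ^ (2 * a) := by
  have h1 : a + 1 ≤ 2 ^ a := Nat.lt_two_pow_self
  have h2 : 2 ^ 19 * 2 ^ a ≤ 2 ^ (2 * a) := by
    rw [← pow_add]; exact Nat.pow_le_pow_right (by norm_num) (by omega)
  norm_num at h2
  omega

theorem exists_setup (a b : ℕ) (ha : 50 ≤ a) (hb0 : 0 < b) (hb : b ≤ 2 ^ (2 ^ a)) :
    ∃ P : Setup, P.b = b ∧ P.J = 2640 * a * sL a 4 ∧ P.S = 262144 * a ∧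
      P.ME = 2 ^ (32 * a * sL a 4) ∧ P.TM = 2 ^ (8 * a) ∧ P.lam0 = 16 * a ∧
      P.lam1 = sL a 4 - 1 ∧ P.N3 ≤ 2 ^ (2 ^ (4 * a + 2)) ∧
      P.N2 ≤ 2 ^ (2560 * a * (sL a 4 + 1)) := by
  have hS := S_bound a ha
  obtain ⟨X, Bk, τ, x1, x2, x3, x4, x5, x6⟩ := exists_sets a b (262144 * a) ha hb0 hb hS
  have hN2 : 0 < ∏ k ∈ Finset.range 320, Bk k :=
    Finset.prod_pos (fun k hk => (x4 k (Finset.mem_range.1 hk)).1)
  have hN3 : 0 < (primorial (2 ^ (4 * a))) ^ 2 := pow_pos (primorial_pos _) 2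
  refine ⟨{ b := b, J := 2640 * a * sL a 4, N2 := ∏ k ∈ Finset.range 320, Bk k,
            N3 := (primorial (2 ^ (4 * a))) ^ 2, S := 262144 * a, τ := τ,
            ME := 2 ^ (32 * a * sL a 4), TM := 2 ^ (8 * a), y := 2 ^ (4 * a),
            lam0 := 16 * a, lam1 := sL a 4 - 1, hb := hb0, hN2 := hN2, hN3 := hN3,
            hy := ?_, τ_prime := fun j hj => (x5 j hj).1, τ_inj := x6,
            τ_b := fun j hj => (x5 j hj).2.2.2.1, τ_N2 := ?_, τ_N3 := ?_,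
            τ_le := fun j hj => (x5 j hj).2.2.1, τ_gt := fun j hj => (x5 j hj).2.1,
            oracle := oracle_thm a _ ha hS X Bk x1 x2 x3 },
          rfl, rfl, rfl, rfl, rfl, rfl, rfl, ?_, ?_⟩
  · calc 2 = 2 ^ 1 := by norm_num
      _ ≤ 2 ^ (4 * a) := Nat.pow_le_pow_right (by norm_num) (by omega)
  · intro j hj h
    obtain ⟨k, hk, hd⟩ := (Prime.dvd_finsetProd_iff (x5 j hj).1.prime _).1 h
    exact (x5 j hj).2.2.2.2 k (Finset.mem_range.1 hk) hd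
  · intro j hj
    exact not_dvd_primorial_sq _ _ (x5 j hj).1 (x5 j hj).2.1
  · show (primorial (2 ^ (4 * a))) ^ 2 ≤ 2 ^ (2 ^ (4 * a + 2))
    calc (primorial (2 ^ (4 * a))) ^ 2 ≤ (4 ^ (2 ^ (4 * a))) ^ 2 :=
          Nat.pow_le_pow_left (primorial_le_four_pow _) 2
      _ = 2 ^ (2 ^ (4 * a + 2)) := by
          have : (4 : ℕ) = 2 ^ 2 := by norm_num
          rw [this, ← pow_mul, ← pow_mul]
          congr 1
          rw [pow_add]; ring
  · show ∏ k ∈ Finset.range 320, Bk k ≤ 2 ^ (2560 * a * (sL a 4 + 1))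
    calc ∏ k ∈ Finset.range 320, Bk k ≤ ∏ _k ∈ Finset.range 320, 2 ^ (8 * a * (sL a 4 + 1)) :=
          Finset.prod_le_prod' (fun k hk => (x4 k (Finset.mem_range.1 hk)).2)
      _ = 2 ^ (2560 * a * (sL a 4 + 1)) := by
          rw [Finset.prod_const, Finset.card_range, ← pow_mul]
          congr 1; ring

end P012
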