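import Vale.Agent.Lib.P012.Steps

/-!
# P012 module L9: counting the steps.

FROZEN statements: `descent`, `run`.

Four phases, each an application of `descent`.
`A k n := ∀ m < 2^k, Fn m n` (fine), `A' k n := ∀ m, m * 2^(U - k) ≤ Nh → Fn m n` (coarse).
1. early fine: by induction on `j ≤ j1`: `A (2^j) (32 j)`.  (`j = 0` and more generally
   `2^j ≤ lam0`: `Fn_base`.  Step `j → j+1`: `descent` with `K0 = 2^j`, `K1 = 2^(j+1)`,
   `δ = 2^(j-5)`, `r = 32`; for `k < lam0` use `Fn_base`, otherwise `fine_step` with `i = 0`,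
   `lam = k`, `lam - lam/32 ≤ k + 1 - δ`.)
2. main fine: `K0 = lam1 + 1 = 2^j1`, `K1 = J + lam1 + 1`, `δ = 2^(j1-5) = lam1/32 + 1`, `r = rf`;
   `fine_step` with `lam = lam1`, `i = k - lam1`.  Result: `A (J + 1) (32 j1 + rf)`.
3. main coarse: `A' 0 n` follows from `A (J+1) n` since `Nh ≤ 2^(U+J)`.  `K0 = 0`,
   `K1 = U - lam1` (nothing to do if `U ≤ lam1`), `δ = 2^(j1-6) ≤ lam1/32 - 2 = 2^(j1-5) - 3`,
   `r = rc`; `coarse_step` with `lam = lam1`, `i = U - k - lam1 ≤ U ≤ J`; if `m * 2^(U-k) ≤ Nh` use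
   `A' k (n+1)` instead.  `hbig` from `hμ`, `J = U + μ`, `2^J ≤ Nh`.
   Result: `∀ m, m * 2^lam1 ≤ Nh → Fn m (32 j1 + rf + rc)`.
4. early coarse: downward induction on `j` from `j1` to `j0`:
   `∀ m, m * 2^(2^j - 1) ≤ Nh → Fn m (32 j1 + rf + rc + 64 (j1 - j))`; block `j+1 → j`: `descent`
   with `A'' k n := ∀ m, m * 2^(2^(j+1) - 1 - k) ≤ Nh → Fn m n`, `K0 = 0`, `K1 = 2^j`,
   `δ = 2^(j-6)`, `r = 64`; `coarse_step` with `i = 0`, `lam = 2^(j+1) - 1 - k ∈ [2^j, 2^(j+1))`,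
   gain `lam/32 - 2 ≥ 2^(j-5) - 2 ≥ 2^(j-6)`.
-/

namespace P012

theorem descent (A : ℕ → ℕ → Prop) (S δ K0 K1 n0 : ℕ)
    (anti : ∀ k k' n, k' ≤ k → A k n → A k' n)
    (step : ∀ k n, K0 ≤ k → k < K1 → n < S → A (k + 1 - δ) n → A k (n + 1) → A (k + 1) (n + 1))
    (mono : ∀ k n, A k n → A k (n + 1))
    (h0 : A K0 n0) :
    ∀ r, n0 + r ≤ S → ∀ k, k ≤ K1 → k ≤ K0 + r * δ → A k (n0 + r) := by
  have hK0 : ∀ r, A K0 (n0 + r) := by
    intro r
    induction r with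
    | zero => exact h0
    | succ r ih => exact mono _ _ ih
  intro r
  induction r with
  | zero =>
    intro _ k _ hk
    exact anti K0 k _ (by omega) h0
  | succ r ih =>
    intro hS k
    have ih' := ih (by omega)
    induction k with
    | zero =>
      intro _ _
      exact anti K0 0 _ (Nat.zero_le _) (hK0 _)
    | succ k ihk =>
      intro hk1 hk2
      by_cases hk : k + 1 ≤ K0
      · exact anti K0 (k + 1) _ hk (hK0 _)
      · have e : (r + 1) * δ = r * δ + δ := by ring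
        have h1 : A (k + 1 - δ) (n0 + r) := ih' _ (by omega) (by omega)
        have h2 : A k (n0 + r + 1) := ihk (by omega) (by omega)
        exact step k (n0 + r) (by omega) (by omega) (by omega) h1 h2

namespace Setup

variable (P : Setup)

theorem two_pow_J_le_Nh : 2 ^ P.J ≤ P.Nh := by
  unfold Nh
  have h1 : 0 < P.b := P.hb
  have h2 : 0 < P.N3 := P.hN3
  have h3 : 0 < P.N2 := P.hN2
  have h4 : 0 < P.N4 := P.N4_pos
  calc 2 ^ P.J = 1 * 2 ^ P.J * 1 * 1 * 1 := by ring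
    _ ≤ P.b * 2 ^ P.J * P.N3 * P.N2 * P.N4 := by gcongr <;> omega

theorem Nh_le (U : ℕ) (hU : P.b * P.N3 * P.N2 * P.N4 ≤ 2 ^ U) : P.Nh ≤ 2 ^ U * 2 ^ P.J := by
  unfold Nh
  calc P.b * 2 ^ P.J * P.N3 * P.N2 * P.N4 = (P.b * P.N3 * P.N2 * P.N4) * 2 ^ P.J := by ring
    _ ≤ 2 ^ U * 2 ^ P.J := by gcongr

/-- fine predicate -/
def FineA (k n : ℕ) : Prop := ∀ m, m < 2 ^ k → P.Fn m n

theorem FineA_anti (k k' n : ℕ) (h : k' ≤ k) (H : P.FineA k n) : P.FineA k' n := by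
  intro m hm
  exact H m (lt_of_lt_of_le hm (Nat.pow_le_pow_right (by norm_num) h))

theorem FineA_mono (k n : ℕ) (H : P.FineA k n) : P.FineA k (n + 1) := by
  intro m hm
  exact P.Fn_mono (Nat.le_succ n) (H m hm)

theorem FineA_base (hlJ : P.lam0 ≤ P.J) (k n : ℕ) (hk : k ≤ P.lam0) : P.FineA k n := by
  intro m hm
  exact P.Fn_mono (Nat.zero_le n)
    (P.Fn_base hlJ (lt_of_lt_of_le hm (Nat.pow_le_pow_right (by norm_num) hk)))

/-- phase 1 -/
theorem phase1 (j1 : ℕ) (h1 : P.lam1 + 1 = 2 ^ j1) (hlam0 : 64 ≤ P.lam0) (hlJ : P.lam0 ≤ P.J)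
    (hS : 32 * j1 ≤ P.S) : ∀ j, j ≤ j1 → P.FineA (2 ^ j) (32 * j) := by
  intro j
  induction j with
  | zero =>
    intro _
    exact P.FineA_base hlJ _ _ (by norm_num; omega)
  | succ j ih =>
    intro hj
    by_cases hb : 2 ^ (j + 1) ≤ P.lam0
    · exact P.FineA_base hlJ _ _ hb
    · have hj6 : 6 ≤ j := by
        by_contra hlt
        have : 2 ^ (j + 1) ≤ 2 ^ 6 := Nat.pow_le_pow_right (by norm_num) (by omega)
        omega
      obtain ⟨t, rfl⟩ : ∃ t, j = t + 5 := ⟨j - 5, by omega⟩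
      have e1 : 2 ^ (t + 5) = 32 * 2 ^ t := by rw [pow_add]; ring
      have e2 : 2 ^ (t + 5 + 1) = 64 * 2 ^ t := by rw [pow_add, pow_add]; ring
      have hle : 2 ^ (t + 5 + 1) ≤ 2 ^ j1 := Nat.pow_le_pow_right (by norm_num) hj
      have key := descent P.FineA P.S (2 ^ t) (2 ^ (t + 5)) (2 ^ (t + 5 + 1)) (32 * (t + 5))
        P.FineA_anti
        (by
          intro k n hk0 hk1 hn HA _
          by_cases hkl : k + 1 ≤ P.lam0
          · exact P.FineA_base hlJ _ _ hkl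
          · have := P.fine_step 0 k n (Nat.zero_le _) (by omega) (by omega) hn
              (by
                intro m' hm'
                apply HA m'
                refine lt_of_lt_of_le hm' (Nat.pow_le_pow_right (by norm_num) ?_)
                have : 2 ^ t ≤ k / 32 := by
                  rw [Nat.le_div_iff_mul_le (by norm_num)]
                  omega
                have h32 : k / 32 ≤ k := Nat.div_le_self _ _
                omega)
            intro m hm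
            exact this m (by simpa using hm))
        P.FineA_mono (ih (by omega)) 32 (by omega) (2 ^ (t + 5 + 1)) le_rfl (by omega)
      have e3 : 32 * (t + 5) + 32 = 32 * (t + 5 + 1) := by ring
      rw [e3] at key
      exact key

/-- phase 2 -/
theorem phase2 (j1 rf : ℕ) (h1 : P.lam1 + 1 = 2 ^ j1) (hj1 : 5 ≤ j1) (h01 : P.lam0 ≤ P.lam1)
    (hrf : P.J ≤ rf * 2 ^ (j1 - 5)) (hS : 32 * j1 + rf ≤ P.S)
    (H : P.FineA (2 ^ j1) (32 * j1)) : P.FineA (P.J + 1) (32 * j1 + rf) := by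
  obtain ⟨t, rfl⟩ : ∃ t, j1 = t + 5 := ⟨j1 - 5, by omega⟩
  have e1 : 2 ^ (t + 5) = 32 * 2 ^ t := by rw [pow_add]; ring
  have e0 : t + 5 - 5 = t := by omega
  rw [e0] at hrf
  have hpos : 0 < 2 ^ t := by positivity
  have hdiv : P.lam1 / 32 + 1 = 2 ^ t := by
    have : P.lam1 = 32 * (2 ^ t - 1) + 31 := by omega
    rw [this]
    omega
  have key := descent P.FineA P.S (2 ^ t) (2 ^ (t + 5)) (P.J + P.lam1 + 1) (32 * (t + 5))
    P.FineA_anti
    (by
      intro k n hk0 hk1 hn HA _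
      have := P.fine_step (k - P.lam1) P.lam1 n (by omega) h01 le_rfl hn
        (by
          intro m' hm'
          apply HA m'
          refine lt_of_lt_of_le hm' (Nat.pow_le_pow_right (by norm_num) ?_)
          have h32 : P.lam1 / 32 ≤ P.lam1 := Nat.div_le_self _ _
          omega)
      intro m hm
      apply this m
      have e : k - P.lam1 + P.lam1 + 1 = k + 1 := by omega
      rw [e]
      exact hm)
    P.FineA_mono H rf hS (P.J + P.lam1 + 1) le_rfl (by omega)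
  exact P.FineA_anti _ _ _ (by omega) key

/-- coarse predicate with top exponent `V` -/
def CoarseA (V k n : ℕ) : Prop := ∀ m, m * 2 ^ (V - k) ≤ P.Nh → P.Fn m n

theorem CoarseA_anti (V k k' n : ℕ) (h : k' ≤ k) (H : P.CoarseA V k n) : P.CoarseA V k' n := by
  intro m hm
  apply H m
  refine le_trans ?_ hm
  exact Nat.mul_le_mul_left _ (Nat.pow_le_pow_right (by norm_num) (by omega))

theorem CoarseA_mono (V k n : ℕ) (H : P.CoarseA V k n) : P.CoarseA V k (n + 1) := by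
  intro m hm
  exact P.Fn_mono (Nat.le_succ n) (H m hm)

/-- the generic coarse step: `lam + i = V - k`. -/
theorem coarse_gen (V k n i lam δ : ℕ) (hV : i + lam = V - k) (hi : i ≤ P.J) (h0 : P.lam0 ≤ lam)
    (h1 : lam ≤ P.lam1) (h64 : 64 ≤ lam) (hn : n < P.S)
    (hbig : 160 * P.TM ^ 2 * P.ME * 2 ^ (2 * lam + i + 1) ≤ P.Nh)
    (hδ : δ ≤ lam / 32 - 2)
    (HA : P.CoarseA V (k + 1 - δ) n) (HB : P.CoarseA V k (n + 1)) :
    P.CoarseA V (k + 1) (n + 1) := by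
  intro m hm
  by_cases hc : m * 2 ^ (V - k) ≤ P.Nh
  · exact HB m hc
  · have := P.coarse_step i lam n hi h0 h1 h64 hn hbig
      (by
        intro m' hm'
        apply HA m'
        refine le_trans ?_ hm'
        exact Nat.mul_le_mul_left _ (Nat.pow_le_pow_right (by norm_num) (by omega)))
    apply this m
    · have e : i + lam - 1 = V - (k + 1) := by omega
      rw [e]
      exact hm
    · rw [hV]
      omega

/-- phase 3 -/
theorem phase3 (j1 U μ rc n0 : ℕ) (h1 : P.lam1 + 1 = 2 ^ j1) (hj1 : 8 ≤ j1)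
    (h01 : P.lam0 ≤ P.lam1) (hlam0 : 64 ≤ P.lam0)
    (hU : P.b * P.N3 * P.N2 * P.N4 ≤ 2 ^ U) (hJ : P.J = U + μ)
    (hμ : 160 * P.TM ^ 2 * P.ME * 2 ^ (2 * P.lam1 + 1) ≤ 2 ^ μ)
    (hrc : U ≤ rc * 2 ^ (j1 - 6)) (hS : n0 + rc ≤ P.S)
    (H : P.FineA (P.J + 1) n0) : ∀ m, m * 2 ^ P.lam1 ≤ P.Nh → P.Fn m (n0 + rc) := by
  obtain ⟨t, rfl⟩ : ∃ t, j1 = t + 8 := ⟨j1 - 8, by omega⟩
  have e1 : 2 ^ (t + 8) = 256 * 2 ^ t := by rw [pow_add]; ring
  have e0 : 2 ^ (t + 8 - 6) = 4 * 2 ^ t := by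
    have : t + 8 - 6 = t + 2 := by omega
    rw [this, pow_add]; ring
  rw [e0] at hrc
  have hpos : 0 < 2 ^ t := by positivity
  have hdiv : P.lam1 / 32 + 1 = 8 * 2 ^ t := by
    have : P.lam1 = 32 * (8 * 2 ^ t - 1) + 31 := by omega
    rw [this]
    omega
  have hstart : P.CoarseA U 0 n0 := by
    intro m hm
    apply H m
    have h2 := P.Nh_le U hU
    have h3 : m * 2 ^ U ≤ 2 ^ P.J * 2 ^ U := by
      simp only [Nat.sub_zero] at hm
      calc m * 2 ^ U ≤ P.Nh := hm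
        _ ≤ 2 ^ U * 2 ^ P.J := h2
        _ = 2 ^ P.J * 2 ^ U := by ring
    have h4 : m ≤ 2 ^ P.J := Nat.le_of_mul_le_mul_right h3 (by positivity)
    have h5 : 2 ^ (P.J + 1) = 2 * 2 ^ P.J := by rw [pow_succ]; ring
    have h6 : 0 < 2 ^ P.J := by positivity
    omega
  have key := descent (P.CoarseA U) P.S (4 * 2 ^ t) 0 (U - P.lam1) n0
    (P.CoarseA_anti U)
    (by
      intro k n _ hk1 hn HA HB
      refine P.coarse_gen U k n (U - k - P.lam1) P.lam1 (4 * 2 ^ t) (by omega) (by omega) h01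
        le_rfl (by omega) hn ?_ (by omega) HA HB
      calc 160 * P.TM ^ 2 * P.ME * 2 ^ (2 * P.lam1 + (U - k - P.lam1) + 1)
          = 160 * P.TM ^ 2 * P.ME * 2 ^ (2 * P.lam1 + 1) * 2 ^ (U - k - P.lam1) := by
            rw [show 2 * P.lam1 + (U - k - P.lam1) + 1 = (2 * P.lam1 + 1) + (U - k - P.lam1) by
              omega, pow_add]
            ring
        _ ≤ 2 ^ μ * 2 ^ U := by
            apply Nat.mul_le_mul hμ
            exact Nat.pow_le_pow_right (by norm_num) (by omega)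
        _ = 2 ^ P.J := by rw [hJ, pow_add]; ring
        _ ≤ P.Nh := P.two_pow_J_le_Nh)
    (P.CoarseA_mono U) hstart rc hS (U - P.lam1) le_rfl (by omega)
  intro m hm
  apply key m
  refine le_trans ?_ hm
  exact Nat.mul_le_mul_left _ (Nat.pow_le_pow_right (by norm_num) (by omega))

/-- one block of phase 4 -/
theorem phase4_block (j j1 U μ n0 : ℕ) (h1 : P.lam1 + 1 = 2 ^ j1) (hj : j < j1) (hj8 : 8 ≤ j)
    (h0j : P.lam0 ≤ 2 ^ j) (hlam0 : 64 ≤ P.lam0) (hJ : P.J = U + μ)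
    (hμ : 160 * P.TM ^ 2 * P.ME * 2 ^ (2 * P.lam1 + 1) ≤ 2 ^ μ)
    (hS : n0 + 64 ≤ P.S)
    (H : ∀ m, m * 2 ^ (2 ^ (j + 1) - 1) ≤ P.Nh → P.Fn m n0) :
    ∀ m, m * 2 ^ (2 ^ j - 1) ≤ P.Nh → P.Fn m (n0 + 64) := by
  obtain ⟨t, rfl⟩ : ∃ t, j = t + 8 := ⟨j - 8, by omega⟩
  have e1 : 2 ^ (t + 8) = 256 * 2 ^ t := by rw [pow_add]; ring
  have e2 : 2 ^ (t + 8 + 1) = 512 * 2 ^ t := by rw [pow_add, pow_add]; ring
  have hpos : 0 < 2 ^ t := by positivity
  have hle : 2 ^ (t + 8 + 1) ≤ 2 ^ j1 := Nat.pow_le_pow_right (by norm_num) hj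
  have hstart : P.CoarseA (2 ^ (t + 8 + 1) - 1) 0 n0 := by
    intro m hm
    exact H m (by simpa using hm)
  have key := descent (P.CoarseA (2 ^ (t + 8 + 1) - 1)) P.S (4 * 2 ^ t) 0 (2 ^ (t + 8)) n0
    (P.CoarseA_anti _)
    (by
      intro k n _ hk1 hn HA HB
      have hl : 8 * 2 ^ t ≤ (2 ^ (t + 8 + 1) - 1 - k) / 32 := by
        rw [Nat.le_div_iff_mul_le (by norm_num)]
        omega
      refine P.coarse_gen _ k n 0 (2 ^ (t + 8 + 1) - 1 - k) (4 * 2 ^ t) (by omega) (by omega)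
        (by omega) (by omega) (by omega) hn ?_ (by omega) HA HB
      calc 160 * P.TM ^ 2 * P.ME * 2 ^ (2 * (2 ^ (t + 8 + 1) - 1 - k) + 0 + 1)
          ≤ 160 * P.TM ^ 2 * P.ME * 2 ^ (2 * P.lam1 + 1) := by
            apply Nat.mul_le_mul_left
            exact Nat.pow_le_pow_right (by norm_num) (by omega)
        _ ≤ 2 ^ μ := hμ
        _ ≤ 2 ^ P.J := Nat.pow_le_pow_right (by norm_num) (by omega)
        _ ≤ P.Nh := P.two_pow_J_le_Nh)
    (P.CoarseA_mono _) hstart 64 hS (2 ^ (t + 8)) le_rfl (by omega)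
  intro m hm
  apply key m
  have e : 2 ^ (t + 8 + 1) - 1 - 2 ^ (t + 8) = 2 ^ (t + 8) - 1 := by omega
  rw [e]
  exact hm

theorem run (j0 j1 U μ rf rc : ℕ) (h1 : P.lam1 + 1 = 2 ^ j1) (h0 : P.lam0 ≤ 2 ^ j0)
    (hj : j0 < j1) (hj0 : 8 ≤ j0) (hlam0 : 64 ≤ P.lam0)
    (hU : P.b * P.N3 * P.N2 * P.N4 ≤ 2 ^ U) (hJ : P.J = U + μ)
    (hμ : 160 * P.TM ^ 2 * P.ME * 2 ^ (2 * P.lam1 + 1) ≤ 2 ^ μ) (hlJ : P.lam0 ≤ P.J)
    (hrf : P.J ≤ rf * 2 ^ (j1 - 5)) (hrc : U ≤ rc * 2 ^ (j1 - 6))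
    (hS : 32 * j1 + rf + rc + 64 * (j1 - j0) ≤ P.S) :
    ∀ m, m * 2 ^ (2 ^ j0 - 1) ≤ P.Nh → P.Fn m P.S := by
  have h01 : P.lam0 ≤ P.lam1 := by
    have : 2 ^ j0 < 2 ^ j1 := Nat.pow_lt_pow_right (by norm_num) hj
    omega
  have p1 := P.phase1 j1 h1 hlam0 hlJ (by omega) j1 le_rfl
  have p2 := P.phase2 j1 rf h1 (by omega) h01 hrf (by omega) p1
  have p3 := P.phase3 j1 U μ rc (32 * j1 + rf) h1 (by omega) h01 hlam0 hU hJ hμ hrc (by omega) p2
  have p4 : ∀ d, d ≤ j1 - j0 → ∀ m, m * 2 ^ (2 ^ (j1 - d) - 1) ≤ P.Nh →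
      P.Fn m (32 * j1 + rf + rc + 64 * d) := by
    intro d
    induction d with
    | zero =>
      intro _ m hm
      apply p3 m
      have e : 2 ^ (j1 - 0) - 1 = P.lam1 := by
        simp only [Nat.sub_zero]
        omega
      rw [e] at hm
      exact hm
    | succ d ih =>
      intro hd
      have ih' := ih (by omega)
      have e : j1 - (d + 1) + 1 = j1 - d := by omega
      have := P.phase4_block (j1 - (d + 1)) j1 U μ (32 * j1 + rf + rc + 64 * d) h1 (by omega)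
        (by omega)
        (le_trans h0 (Nat.pow_le_pow_right (by norm_num) (by omega))) hlam0 hJ hμ (by omega)
        (by rw [e]; exact ih')
      have e2 : 32 * j1 + rf + rc + 64 * d + 64 = 32 * j1 + rf + rc + 64 * (d + 1) := by ring
      rw [e2] at this
      exact this
  intro m hm
  have e : j1 - (j1 - j0) = j0 := by omega
  have := p4 (j1 - j0) le_rfl m (by rw [e]; exact hm)
  exact P.Fn_mono hS this

end Setup

end P012
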