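import Vale.Agent.Lib.P012.StepsB

/-!
# P012 module L8: the steps of the greedy scheme.

FROZEN statements: `Fn_mono`, `Fn_base` (both in `StepsB.lean`), `fine_step`, `coarse_step`.
-/

namespace P012

namespace Setup

open Finset

variable (P : Setup)

/-- the set of all tags -/
def Q : Finset ℕ := (Finset.range (2 * P.S + 1)).image P.τ

theorem Q_prop : ∀ q ∈ P.Q, q.Prime ∧ P.y < q := by
  intro q hq
  obtain ⟨j, hj, rfl⟩ := Finset.mem_image.1 hq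
  have := Finset.mem_range.1 hj
  exact ⟨P.τ_prime j (by omega), P.τ_gt j (by omega)⟩

theorem Q_card : P.Q.card ≤ 2 * P.S + 1 := by
  refine Finset.card_image_le.trans ?_
  simp

theorem mem_Q {j : ℕ} (hj : j ≤ 2 * P.S) : P.τ j ∈ P.Q :=
  Finset.mem_image_of_mem _ (Finset.mem_range.2 (by omega))

theorem not_dvd_U {j : ℕ} (hj : j ≤ 2 * P.S) {U k : ℕ} (h : U ∣ 2 ^ k * P.N3) : ¬ P.τ j ∣ U := by
  intro h1
  have hp := P.τ_prime j hj
  rcases (Nat.Prime.dvd_mul hp).1 (h1.trans h) with h2 | h2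
  · exact P.τ_two hj (hp.dvd_of_dvd_pow h2)
  · exact P.τ_N3 j hj h2

theorem exists_U {i ws : ℕ} (hi : i ≤ P.J) (hws : ws ∣ P.N3) :
    ∃ U, 0 < U ∧ 2 ^ P.J * P.N3 = 2 ^ i * ws * U := by
  obtain ⟨v, hv⟩ := hws
  have hv0 : 0 < v := by
    rcases Nat.eq_zero_or_pos v with h | h
    · have := P.hN3; rw [hv, h] at this; omega
    · exact h
  refine ⟨2 ^ (P.J - i) * v, by positivity, ?_⟩
  have : 2 ^ P.J = 2 ^ i * 2 ^ (P.J - i) := by rw [← pow_add]; congr 1; omega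
  rw [this, hv]; ring

theorem sum_pos {n : ℕ} (hn : n < P.S) (e : Fin 160 → ℕ) (he : ∀ i, 1 < e i) :
    0 < ∑ i, P.cw n i * e i := by
  apply Finset.sum_pos
  · intro i _
    have := P.cw_pos hn i
    have := he i
    positivity
  · exact ⟨0, Finset.mem_univ _⟩

theorem fine_step (i lam n : ℕ) (hi : i ≤ P.J) (h0 : P.lam0 ≤ lam) (h1 : lam ≤ P.lam1)
    (hn : n < P.S) (H : ∀ m', m' < 2 ^ (i + (lam - lam / 32)) → P.Fn m' n) :
    ∀ m, m < 2 ^ (i + lam + 1) → P.Fn m (n + 1) := by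
  intro m hm
  by_cases hsmall : m < 2 ^ (i + (lam - lam / 32))
  · exact P.Fn_mono (by omega) (H m hsmall)
  push Not at hsmall
  have hwin : 2 ^ (i + (lam - lam / 32)) = 2 ^ i * win lam := by unfold win; rw [pow_add]
  have h2i : 0 < 2 ^ i := by positivity
  have hx0a : win lam ≤ m / 2 ^ i := by
    rw [Nat.le_div_iff_mul_le h2i]
    rw [hwin] at hsmall
    linarith
  have hx0b : m / 2 ^ i < 2 ^ (lam + 1) := by
    rw [Nat.div_lt_iff_lt_mul h2i]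
    calc m < 2 ^ (i + lam + 1) := hm
      _ = 2 ^ (lam + 1) * 2 ^ i := by rw [← pow_add]; congr 1; omega
  obtain ⟨ws, wr, hw1, hw2, hws, hwr, hQ, hcov⟩ :=
    P.oracle lam (m / 2 ^ i) P.Q h0 h1 hx0a hx0b P.Q_prop P.Q_card
  have t0 : ¬ P.τ (2 * n) ∣ wr := hQ _ (P.mem_Q (by omega))
  have t1 : ¬ P.τ (2 * n + 1) ∣ wr := hQ _ (P.mem_Q (by omega))
  obtain ⟨e, he, hco, hcong⟩ := hcov (P.cw n) (P.cw_pos hn)
    (fun i => P.cw_coprime hn i t0 t1) 0
  obtain ⟨qh, hqh⟩ := (Nat.modEq_zero_iff_dvd).1 hcong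
  have hsum := P.sum_pos hn e (fun i => (he i).2.1)
  have hqh0 : 0 < qh := by
    rcases Nat.eq_zero_or_pos qh with h | h
    · rw [h] at hqh; omega
    · exact h
  obtain ⟨U, hU0, hU⟩ := P.exists_U hi hws
  have hb := P.hb
  have s0 := P.not_dvd_sum_0 hn e (fun i => (he i).1)
  have s1 := P.not_dvd_sum_1 hn e (fun i => (he i).1)
  have hUd : U ∣ 2 ^ P.J * P.N3 := ⟨2 ^ i * ws, by rw [hU]; ring⟩
  have hZ : ∀ j, j ≤ 2 * P.S → ¬ P.τ j ∣ ∑ i, P.cw n i * e i → ¬ P.τ j ∣ qh * P.b * U := by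
    intro j hj hs h
    have hp := P.τ_prime j hj
    rcases (Nat.Prime.dvd_mul hp).1 h with h | h
    · rcases (Nat.Prime.dvd_mul hp).1 h with h | h
      · exact hs (by rw [hqh]; exact Dvd.dvd.mul_left h _)
      · exact P.τ_b j hj h
    · exact P.not_dvd_U hj hUd h
  obtain ⟨E, hE1, hE2, hE3⟩ := P.block hn (Z := qh * P.b * U)
    (Nat.mul_pos (Nat.mul_pos hqh0 hb) hU0)
    (hZ _ (by omega) s0) (hZ _ (by omega) s1) e (fun i => ⟨(he i).1, (he i).2.1⟩) hco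
  have hle : 2 ^ i * (ws * wr) ≤ m :=
    (Nat.mul_le_mul_left _ hw2).trans (Nat.mul_div_le m (2 ^ i))
  obtain ⟨m', hm'⟩ := Nat.exists_eq_add_of_le hle
  have hm'lt : m' < 2 ^ (i + (lam - lam / 32)) := by
    rw [hwin]
    have h3 : m < 2 ^ i * (m / 2 ^ i + 1) := Nat.lt_mul_div_succ m h2i
    have h4 : 2 ^ i * (m / 2 ^ i + 1) ≤ 2 ^ i * (ws * wr + win lam) :=
      Nat.mul_le_mul_left _ (by omega)
    have h5 : 2 ^ i * (ws * wr + win lam) = 2 ^ i * (ws * wr) + 2 ^ i * win lam := by ring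
    omega
  refine P.Fn_add hn (H m' hm'lt) E (fun d hd => (hE2 d hd).1) ?_ (by omega)
    (fun d hd => Or.inl (hE2 d hd).2)
  rw [hE3, hqh, hm']
  have hNh : (P.Nh : ℚ) = P.b * (2 ^ i * ws * U) * P.N2 * P.N4 := by
    have : P.Nh = P.b * (2 ^ i * ws * U) * P.N2 * P.N4 := by
      unfold Nh; rw [← hU]; ring
    exact_mod_cast this
  rw [hNh]
  have a1 : (0 : ℚ) < qh := by exact_mod_cast hqh0
  have a2 : (0 : ℚ) < P.b := by exact_mod_cast hb
  have a3 : (0 : ℚ) < U := by exact_mod_cast hU0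
  have a4 : (0 : ℚ) < P.N2 := by exact_mod_cast P.hN2
  have a5 : (0 : ℚ) < P.N4 := by exact_mod_cast P.N4_pos
  have hws0 : 0 < ws := Nat.pos_of_dvd_of_pos hws P.hN3
  have a6 : (0 : ℚ) < ws := by exact_mod_cast hws0
  push_cast
  field_simp

theorem win_facts {lam : ℕ} (h64 : 64 ≤ lam) :
    2 ^ (lam / 32 - 2) * (win lam + 1) ≤ 2 ^ (lam - 1) ∧ win lam + 1 < 2 ^ (lam - 1) ∧
      win lam < 2 ^ lam := by
  unfold win
  have hd : 2 ≤ lam / 32 := by omega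
  have hd2 : lam / 32 ≤ lam := Nat.div_le_self _ _
  have e1 : 2 ^ (lam - 1) = 2 ^ (lam / 32 - 2) * (2 * 2 ^ (lam - lam / 32)) := by
    rw [← pow_succ', ← pow_add]; congr 1; omega
  have p1 : 1 ≤ 2 ^ (lam - lam / 32) := Nat.one_le_two_pow
  have e2 : 2 ^ (lam - 1) = 2 * 2 ^ (lam - 2) := by rw [← pow_succ']; congr 1; omega
  have e3 : 2 ^ (lam - lam / 32) ≤ 2 ^ (lam - 2) := Nat.pow_le_pow_right (by norm_num) (by omega)
  have e4 : 2 ≤ 2 ^ (lam - 2) := by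
    calc 2 = 2 ^ 1 := by norm_num
      _ ≤ 2 ^ (lam - 2) := Nat.pow_le_pow_right (by norm_num) (by omega)
  have e5 : 2 ^ (lam - 1) ≤ 2 ^ lam := Nat.pow_le_pow_right (by norm_num) (by omega)
  refine ⟨?_, by omega, by omega⟩
  rw [e1]
  apply Nat.mul_le_mul_left
  omega

theorem sum_le {n : ℕ} (hn : n < P.S) (e : Fin 160 → ℕ) (he : ∀ i, e i ≤ P.ME) :
    ∑ i, P.cw n i * e i ≤ 160 * P.TM ^ 2 * P.ME := by
  calc ∑ i, P.cw n i * e i ≤ ∑ _i : Fin 160, P.TM ^ 2 * P.ME :=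
        Finset.sum_le_sum (fun i _ => Nat.mul_le_mul (P.cw_le hn i) (he i))
    _ = 160 * P.TM ^ 2 * P.ME := by simp; ring

/-- pure arithmetic of the coarse step -/
theorem coarse_arith {Nh m i lam W x1 ws wr G KK : ℕ} (h64 : 64 ≤ lam) (hW : W = win lam)
    (hm1 : m * 2 ^ (i + lam - 1) ≤ Nh) (hm2 : Nh < m * 2 ^ (i + lam))
    (hx1 : x1 = Nh / (2 ^ i * m) + 1) (hw1 : x1 + W < ws * wr + W) (hw2 : ws * wr ≤ x1 + W)
    (hG : Nh = 2 ^ i * ws * G) (hbig : KK * 2 ^ (2 * lam + i + 1) ≤ Nh)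
    (hx0 : x1 + W < 2 ^ (lam + 1)) (hwr : 0 < wr) :
    ∃ ρ0, ρ0 + G = m * wr ∧ KK < ρ0 ∧ ρ0 * ws ≤ m * (W + 1) ∧ 2 ^ (lam - 1) < ws * wr := by
  have hm0 : 0 < m := by
    rcases Nat.eq_zero_or_pos m with h | h
    · rw [h] at hm2; omega
    · exact h
  have h2i : 0 < 2 ^ i := by positivity
  have hpos : 0 < 2 ^ i * m := by positivity
  have ha : Nh < 2 ^ i * m * x1 := by rw [hx1]; exact Nat.lt_mul_div_succ Nh hpos
  have hb : 2 ^ i * m * (Nh / (2 ^ i * m)) ≤ Nh := Nat.mul_div_le Nh _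
  have hws0 : 0 < ws := by
    rcases Nat.eq_zero_or_pos ws with h | h
    · rw [h] at hw1; omega
    · exact h
  -- `ws * G + m < ws * (m * wr)`
  have h3 : 2 ^ i * (ws * G + m) < 2 ^ i * (ws * (m * wr)) := by
    have h4 : 2 ^ i * m * (x1 + 1) ≤ 2 ^ i * m * (ws * wr) := Nat.mul_le_mul_left _ (by omega)
    calc 2 ^ i * (ws * G + m) = Nh + 2 ^ i * m := by rw [hG]; ring
      _ < 2 ^ i * m * x1 + 2 ^ i * m := by omega
      _ = 2 ^ i * m * (x1 + 1) := by ring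
      _ ≤ 2 ^ i * m * (ws * wr) := h4
      _ = 2 ^ i * (ws * (m * wr)) := by ring
  have h5 : ws * G + m < ws * (m * wr) := Nat.lt_of_mul_lt_mul_left h3
  have h6 : G ≤ m * wr := by
    by_contra hcon
    push Not at hcon
    have : ws * (m * wr) ≤ ws * G := Nat.mul_le_mul_left _ hcon.le
    omega
  obtain ⟨ρ0, hρ⟩ := Nat.exists_eq_add_of_le h6
  have h7 : ws * G + m < ws * G + ws * ρ0 := by
    have : ws * (m * wr) = ws * G + ws * ρ0 := by rw [hρ]; ring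
    omega
  have h8 : m < ws * ρ0 := by omega
  -- lower bound for m
  have h9 : KK * 2 ^ (lam + 1) < m := by
    have e1 : KK * 2 ^ (2 * lam + i + 1) = KK * 2 ^ (lam + 1) * 2 ^ (i + lam) := by
      rw [mul_assoc, ← pow_add]; congr 2; omega
    rw [e1] at hbig
    exact Nat.lt_of_mul_lt_mul_right (lt_of_le_of_lt hbig hm2)
  have h10 : ws ≤ 2 ^ (lam + 1) := by
    have : ws ≤ ws * wr := Nat.le_mul_of_pos_right _ hwr
    omega
  have h11 : KK < ρ0 := by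
    by_contra hcon
    push Not at hcon
    have : ws * ρ0 ≤ 2 ^ (lam + 1) * KK := Nat.mul_le_mul h10 hcon
    have e : 2 ^ (lam + 1) * KK = KK * 2 ^ (lam + 1) := by ring
    omega
  -- upper bound
  have h12 : m * (Nh / (2 ^ i * m)) ≤ ws * G := by
    have : 2 ^ i * (m * (Nh / (2 ^ i * m))) ≤ 2 ^ i * (ws * G) := by
      calc 2 ^ i * (m * (Nh / (2 ^ i * m))) = 2 ^ i * m * (Nh / (2 ^ i * m)) := by ring
        _ ≤ Nh := hb
        _ = 2 ^ i * (ws * G) := by rw [hG]; ring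
    exact Nat.le_of_mul_le_mul_left this h2i
  have h13 : ρ0 * ws ≤ m * (W + 1) := by
    have e1 : ρ0 * ws + ws * G = m * (ws * wr) := by
      calc ρ0 * ws + ws * G = ws * (G + ρ0) := by ring
        _ = ws * (m * wr) := by rw [hρ]
        _ = m * (ws * wr) := by ring
    have e2 : m * (ws * wr) ≤ m * (x1 + W) := Nat.mul_le_mul_left _ hw2
    have e3 : m * (x1 + W) = m * (Nh / (2 ^ i * m)) + m * (W + 1) := by rw [hx1]; ring
    omega
  -- lower bound for w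
  have h14 : 2 ^ (lam - 1) < ws * wr := by
    have e1 : 2 ^ (lam - 1) ≤ Nh / (2 ^ i * m) := by
      rw [Nat.le_div_iff_mul_le hpos]
      calc 2 ^ (lam - 1) * (2 ^ i * m) = m * 2 ^ (i + lam - 1) := by
            have : 2 ^ (i + lam - 1) = 2 ^ (lam - 1) * 2 ^ i := by
              rw [← pow_add]; congr 1; omega
            rw [this]; ring
        _ ≤ Nh := hm1
    omega
  exact ⟨ρ0, by omega, h11, h13, h14⟩

theorem coarse_step (i lam n : ℕ) (hi : i ≤ P.J) (h0 : P.lam0 ≤ lam) (h1 : lam ≤ P.lam1)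
    (h64 : 64 ≤ lam) (hn : n < P.S)
    (hbig : 160 * P.TM ^ 2 * P.ME * 2 ^ (2 * lam + i + 1) ≤ P.Nh)
    (H : ∀ m', m' * 2 ^ (i + lam - 1 + (lam / 32 - 2)) ≤ P.Nh → P.Fn m' n) :
    ∀ m, m * 2 ^ (i + lam - 1) ≤ P.Nh → P.Nh < m * 2 ^ (i + lam) → P.Fn m (n + 1) := by
  classical
  intro m hm1 hm2
  obtain ⟨wf1, wf2, wf3⟩ := win_facts h64
  have hm0 : 0 < m := by
    rcases Nat.eq_zero_or_pos m with h | h
    · rw [h] at hm2; omega
    · exact h
  have h2i : 0 < 2 ^ i := by positivity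
  have hpos : 0 < 2 ^ i * m := by positivity
  have hpw : 2 ^ (i + lam - 1) = 2 ^ (lam - 1) * 2 ^ i := by
    rw [← pow_add]; congr 1; omega
  obtain ⟨x1, hx1⟩ : ∃ x1, x1 = P.Nh / (2 ^ i * m) + 1 := ⟨_, rfl⟩
  have hx1le : x1 ≤ 2 ^ lam := by
    have : P.Nh / (2 ^ i * m) < 2 ^ lam := by
      rw [Nat.div_lt_iff_lt_mul hpos]
      calc P.Nh < m * 2 ^ (i + lam) := hm2
        _ = 2 ^ lam * (2 ^ i * m) := by rw [pow_add]; ring
    omega
  have hx0b : x1 + win lam < 2 ^ (lam + 1) := by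
    have : 2 ^ (lam + 1) = 2 * 2 ^ lam := by rw [pow_succ']
    omega
  obtain ⟨ws, wr, hw1, hw2, hws, hwr, hQ, hcov⟩ :=
    P.oracle lam (x1 + win lam) P.Q h0 h1 (by omega) hx0b P.Q_prop P.Q_card
  obtain ⟨U, hU0, hU⟩ := P.exists_U hi hws
  have hG : P.Nh = 2 ^ i * ws * (P.b * U * P.N2 * P.N4) := by
    unfold Nh
    calc P.b * 2 ^ P.J * P.N3 * P.N2 * P.N4 = P.b * (2 ^ P.J * P.N3) * P.N2 * P.N4 := by ring
      _ = 2 ^ i * ws * (P.b * U * P.N2 * P.N4) := by rw [hU]; ring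
  obtain ⟨ρ0, r1, r2, r3, r4⟩ := coarse_arith h64 rfl hm1 hm2 hx1 hw1 hw2 hG hbig hx0b hwr
  have t0 : ¬ P.τ (2 * n) ∣ wr := hQ _ (P.mem_Q (by omega))
  have t1 : ¬ P.τ (2 * n + 1) ∣ wr := hQ _ (P.mem_Q (by omega))
  obtain ⟨e, he, hco, hcong⟩ := hcov (P.cw n) (P.cw_pos hn)
    (fun i => P.cw_coprime hn i t0 t1) ρ0
  have hsle : ∑ i, P.cw n i * e i ≤ ρ0 :=
    (P.sum_le hn e (fun i => (he i).2.2)).trans r2.le
  obtain ⟨m', hm'⟩ := (Nat.modEq_iff_dvd' hsle).1 hcong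
  have hρ : ρ0 = ∑ i, P.cw n i * e i + wr * m' := by omega
  have hws0 : 0 < ws := Nat.pos_of_dvd_of_pos hws P.hN3
  have hw0 : 0 < ws * wr := Nat.mul_pos hws0 hwr
  -- size of `m'`
  have hm'w : m' * (ws * wr) ≤ m * (win lam + 1) := by
    refine le_trans ?_ r3
    calc m' * (ws * wr) = (wr * m') * ws := by ring
      _ ≤ ρ0 * ws := Nat.mul_le_mul_right _ (by omega)
  have hm'H : m' * 2 ^ (i + lam - 1 + (lam / 32 - 2)) ≤ P.Nh := by
    have : m' * 2 ^ (i + lam - 1 + (lam / 32 - 2)) * (ws * wr) ≤ P.Nh * (ws * wr) := by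
      calc m' * 2 ^ (i + lam - 1 + (lam / 32 - 2)) * (ws * wr)
          = (m' * (ws * wr)) * (2 ^ (i + lam - 1) * 2 ^ (lam / 32 - 2)) := by rw [pow_add]; ring
        _ ≤ (m * (win lam + 1)) * (2 ^ (i + lam - 1) * 2 ^ (lam / 32 - 2)) :=
            Nat.mul_le_mul_right _ hm'w
        _ = (m * 2 ^ (i + lam - 1)) * (2 ^ (lam / 32 - 2) * (win lam + 1)) := by ring
        _ ≤ P.Nh * (ws * wr) := Nat.mul_le_mul hm1 (wf1.trans r4.le)
    exact Nat.le_of_mul_le_mul_right this hw0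
  have hmain : m' * (2 ^ i * (ws * wr)) < P.Nh := by
    calc m' * (2 ^ i * (ws * wr)) = 2 ^ i * (m' * (ws * wr)) := by ring
      _ ≤ 2 ^ i * (m * (win lam + 1)) := Nat.mul_le_mul_left _ hm'w
      _ = (2 ^ i * m) * (win lam + 1) := by ring
      _ < (2 ^ i * m) * 2 ^ (lam - 1) := Nat.mul_lt_mul_of_pos_left wf2 hpos
      _ = m * 2 ^ (i + lam - 1) := by rw [hpw]; ring
      _ ≤ P.Nh := hm1
  -- the block of killers
  have hZ : ∀ j, j ≤ 2 * P.S → ¬ P.τ j ∣ wr * P.b * (2 ^ P.J * P.N3) := by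
    intro j hj h
    have hp := P.τ_prime j hj
    rcases (Nat.Prime.dvd_mul hp).1 h with h | h
    · rcases (Nat.Prime.dvd_mul hp).1 h with h | h
      · exact hQ _ (P.mem_Q hj) h
      · exact P.τ_b j hj h
    · exact P.not_dvd_U hj dvd_rfl h
  have hZpos : 0 < wr * P.b * (2 ^ P.J * P.N3) :=
    Nat.mul_pos (Nat.mul_pos hwr P.hb) (Nat.mul_pos (by positivity) P.hN3)
  obtain ⟨E, hE1, hE2, hE3⟩ := P.block hn hZpos
    (hZ _ (by omega)) (hZ _ (by omega)) e (fun i => ⟨(he i).1, (he i).2.1⟩) hco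
  have hIsMain : P.IsMain (2 ^ i * (ws * wr)) := by
    intro j hj h
    have hp := P.τ_prime j hj
    rcases (Nat.Prime.dvd_mul hp).1 h with h | h
    · exact P.τ_two hj (hp.dvd_of_dvd_pow h)
    · rcases (Nat.Prime.dvd_mul hp).1 h with h | h
      · exact P.τ_N3 j hj (h.trans hws)
      · exact hQ _ (P.mem_Q hj) h
  have hnot : 2 ^ i * (ws * wr) ∉ E := by
    intro hmem
    exact hIsMain (2 * P.S) le_rfl ((hE2 _ hmem).2.2 (2 * P.S) le_rfl (by omega) (by omega))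
  refine P.Fn_add hn (H m' hm'H) (insert (2 ^ i * (ws * wr)) E) ?_ ?_ ?_ ?_
  · intro d hd
    rcases Finset.mem_insert.1 hd with rfl | hd
    · exact Nat.mul_pos h2i hw0
    · exact (hE2 d hd).1
  · rw [Finset.sum_insert hnot, hE3]
    have a2 : (0 : ℚ) < P.b := by exact_mod_cast P.hb
    have a3 : (0 : ℚ) < U := by exact_mod_cast hU0
    have a4 : (0 : ℚ) < P.N2 := by exact_mod_cast P.hN2
    have a5 : (0 : ℚ) < P.N4 := by exact_mod_cast P.N4_pos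
    have a6 : (0 : ℚ) < ws := by exact_mod_cast hws0
    have a7 : (0 : ℚ) < wr := by exact_mod_cast hwr
    have hNhq : (P.Nh : ℚ) = 2 ^ i * ws * (P.b * U * P.N2 * P.N4) := by exact_mod_cast hG
    have hUq : (2 : ℚ) ^ P.J * P.N3 = 2 ^ i * ws * U := by exact_mod_cast hU
    have hr1 : (ρ0 : ℚ) + P.b * U * P.N2 * P.N4 = m * wr := by exact_mod_cast r1
    have hρq : (ρ0 : ℚ) = ((∑ i, P.cw n i * e i : ℕ) : ℚ) + wr * m' := by exact_mod_cast hρ
    have hden : (((wr * P.b * (2 ^ P.J * P.N3) : ℕ) : ℚ)) * P.N2 * P.N4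
        = wr * (2 ^ i * ws * (P.b * U * P.N2 * P.N4)) := by
      push_cast
      rw [hUq]; ring
    rw [hden, hNhq]
    generalize ((∑ i, P.cw n i * e i : ℕ) : ℚ) = Sg at hρq ⊢
    have hmq : (m : ℚ) = (Sg + wr * m' + P.b * U * P.N2 * P.N4) / wr := by
      rw [eq_div_iff a7.ne']; linarith
    rw [hmq]
    push_cast
    field_simp
    ring
  · refine (Finset.card_insert_le _ _).trans (by omega)
  · intro d hd
    rcases Finset.mem_insert.1 hd with rfl | hd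
    · exact Or.inr ⟨hIsMain, hmain⟩
    · exact Or.inl (hE2 d hd).2

end Setup

end P012
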