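import Vale.Agent.Lib.P012.Defs2
import Vale.Agent.Lib.P012.Basic

/-!
# P012 module L8a: bookkeeping lemmas for the greedy scheme (tags, blocks, adding a block).
-/

namespace P012

namespace Setup

open Finset

variable (P : Setup)

theorem τ_pos {j : ℕ} (hj : j ≤ 2 * P.S) : 0 < P.τ j := (P.τ_prime j hj).pos

theorem N4_pos : 0 < P.N4 := by
  unfold N4
  apply Finset.prod_pos
  intro j hj
  exact P.τ_pos (by have := Finset.mem_range.1 hj; omega)

theorem Nh_pos : 0 < P.Nh := by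
  unfold Nh
  have := P.hb; have := P.hN2; have := P.hN3; have := P.N4_pos
  positivity

theorem τ_dvd_N4 {j : ℕ} (hj : j ≤ 2 * P.S) : P.τ j ∣ P.N4 :=
  Finset.dvd_prod_of_mem _ (Finset.mem_range.2 (by omega))

theorem τ_two {j : ℕ} (hj : j ≤ 2 * P.S) : ¬ P.τ j ∣ 2 := by
  intro h
  have h1 := Nat.le_of_dvd (by norm_num) h
  have h2 := P.τ_gt j hj
  have h3 := P.hy
  omega

theorem τ_dvd_prod {L : Finset ℕ} (hL : ∀ j ∈ L, j ≤ 2 * P.S) {j0 : ℕ} (hj0 : j0 ≤ 2 * P.S)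
    (h : P.τ j0 ∣ ∏ j ∈ L, P.τ j) : j0 ∈ L := by
  obtain ⟨j, hj, hd⟩ := (Prime.dvd_finsetProd_iff (P.τ_prime j0 hj0).prime _).1 h
  have := (Nat.prime_dvd_prime_iff_eq (P.τ_prime j0 hj0) (P.τ_prime j (hL j hj))).1 hd
  have := P.τ_inj j0 hj0 j (hL j hj) this
  rw [this]; exact hj

/-- product of the tags not belonging to step `n` -/
def R0 (n : ℕ) : ℕ := ∏ j ∈ (Finset.range (2 * P.S + 1)) \ {2 * n, 2 * n + 1}, P.τ j

theorem N4_eq {n : ℕ} (hn : n < P.S) : P.N4 = P.τ (2 * n) * P.τ (2 * n + 1) * P.R0 n := by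
  unfold N4 R0
  have hsub : ({2 * n, 2 * n + 1} : Finset ℕ) ⊆ Finset.range (2 * P.S + 1) := by
    intro x hx
    simp only [Finset.mem_insert, Finset.mem_singleton] at hx
    apply Finset.mem_range.2
    omega
  rw [← Finset.prod_sdiff hsub, Finset.prod_pair (by omega)]
  ring

theorem R0_pos (n : ℕ) : 0 < P.R0 n := by
  unfold R0
  apply Finset.prod_pos
  intro j hj
  have := Finset.mem_range.1 (Finset.mem_sdiff.1 hj).1
  exact P.τ_pos (by omega)

theorem not_dvd_R0_0 {n : ℕ} (hn : n < P.S) : ¬ P.τ (2 * n) ∣ P.R0 n := by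
  intro h
  have := P.τ_dvd_prod (L := (Finset.range (2 * P.S + 1)) \ {2 * n, 2 * n + 1})
    (fun j hj => by have := Finset.mem_range.1 (Finset.mem_sdiff.1 hj).1; omega)
    (j0 := 2 * n) (by omega) h
  simp at this

theorem not_dvd_R0_1 {n : ℕ} (hn : n < P.S) : ¬ P.τ (2 * n + 1) ∣ P.R0 n := by
  intro h
  have := P.τ_dvd_prod (L := (Finset.range (2 * P.S + 1)) \ {2 * n, 2 * n + 1})
    (fun j hj => by have := Finset.mem_range.1 (Finset.mem_sdiff.1 hj).1; omega)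
    (j0 := 2 * n + 1) (by omega) h
  simp at this

theorem dvd_R0 {n j : ℕ} (hj : j ≤ 2 * P.S) (h0 : j ≠ 2 * n) (h1 : j ≠ 2 * n + 1) :
    P.τ j ∣ P.R0 n := by
  apply Finset.dvd_prod_of_mem
  simp only [Finset.mem_sdiff, Finset.mem_range, Finset.mem_insert, Finset.mem_singleton]
  omega

theorem τ_ne {n : ℕ} (hn : n < P.S) : ¬ P.τ (2 * n) ∣ P.τ (2 * n + 1) := by
  intro h
  have := (Nat.prime_dvd_prime_iff_eq (P.τ_prime _ (by omega)) (P.τ_prime _ (by omega))).1 h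
  have := P.τ_inj _ (by omega) _ (by omega) this
  omega

theorem τ_ne' {n : ℕ} (hn : n < P.S) : ¬ P.τ (2 * n + 1) ∣ P.τ (2 * n) := by
  intro h
  have := (Nat.prime_dvd_prime_iff_eq (P.τ_prime _ (by omega)) (P.τ_prime _ (by omega))).1 h
  have := P.τ_inj _ (by omega) _ (by omega) this
  omega

/-- the weights of step `n` -/
def cw (n : ℕ) (i : Fin 160) : ℕ :=
  if i = 0 then P.τ (2 * n) else if i = 1 then P.τ (2 * n + 1) else P.τ (2 * n) * P.τ (2 * n + 1)

/-- the complementary weights -/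
def cb (n : ℕ) (i : Fin 160) : ℕ :=
  if i = 0 then P.τ (2 * n + 1) * P.R0 n else if i = 1 then P.τ (2 * n) * P.R0 n else P.R0 n

theorem cw_mul_cb {n : ℕ} (hn : n < P.S) (i : Fin 160) : P.cw n i * P.cb n i = P.N4 := by
  rw [P.N4_eq hn]
  unfold cw cb
  split_ifs <;> ring

theorem cw_pos {n : ℕ} (hn : n < P.S) (i : Fin 160) : 0 < P.cw n i := by
  have h0 := P.τ_pos (j := 2 * n) (by omega)
  have h1 := P.τ_pos (j := 2 * n + 1) (by omega)
  unfold cw
  split_ifs <;> positivity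

theorem cb_pos {n : ℕ} (hn : n < P.S) (i : Fin 160) : 0 < P.cb n i := by
  have h0 := P.τ_pos (j := 2 * n) (by omega)
  have h1 := P.τ_pos (j := 2 * n + 1) (by omega)
  have h2 := P.R0_pos n
  unfold cb
  split_ifs <;> positivity

theorem cw_le {n : ℕ} (hn : n < P.S) (i : Fin 160) : P.cw n i ≤ P.TM ^ 2 := by
  have h0 := P.τ_le (2 * n) (by omega)
  have h1 := P.τ_le (2 * n + 1) (by omega)
  have p0 := P.τ_pos (j := 2 * n) (by omega)
  have p1 := P.τ_pos (j := 2 * n + 1) (by omega)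
  unfold cw
  split_ifs <;> nlinarith

theorem cw_coprime {n : ℕ} (hn : n < P.S) (i : Fin 160) {w : ℕ} (h0 : ¬ P.τ (2 * n) ∣ w)
    (h1 : ¬ P.τ (2 * n + 1) ∣ w) : Nat.Coprime (P.cw n i) w := by
  have c0 := (Nat.Prime.coprime_iff_not_dvd (P.τ_prime (2 * n) (by omega))).2 h0
  have c1 := (Nat.Prime.coprime_iff_not_dvd (P.τ_prime (2 * n + 1) (by omega))).2 h1
  unfold cw
  split_ifs
  · exact c0
  · exact c1
  · exact Nat.Coprime.mul_left c0 c1

/-- a prime dividing a weight is one of the two tags -/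
theorem prime_dvd_cw {n : ℕ} (hn : n < P.S) (i : Fin 160) {r : ℕ} (hr : r.Prime)
    (h : r ∣ P.cw n i) : r = P.τ (2 * n) ∨ r = P.τ (2 * n + 1) := by
  have e0 := Nat.prime_dvd_prime_iff_eq hr (P.τ_prime (2 * n) (by omega))
  have e1 := Nat.prime_dvd_prime_iff_eq hr (P.τ_prime (2 * n + 1) (by omega))
  unfold cw at h
  split_ifs at h
  · exact Or.inl (e0.1 h)
  · exact Or.inr (e1.1 h)
  · rcases (Nat.Prime.dvd_mul hr).1 h with h | h
    · exact Or.inl (e0.1 h)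
    · exact Or.inr (e1.1 h)

theorem not_dvd_sum_of {p : ℕ} (g : Fin 160 → ℕ) (i0 : Fin 160) (h1 : ¬ p ∣ g i0)
    (h2 : ∀ i, i ≠ i0 → p ∣ g i) : ¬ p ∣ ∑ i, g i := by
  intro h
  rw [← Finset.add_sum_erase _ _ (Finset.mem_univ i0)] at h
  have h3 : p ∣ ∑ i ∈ Finset.univ.erase i0, g i :=
    Finset.dvd_sum (fun i hi => h2 i (Finset.ne_of_mem_erase hi))
  exact h1 ((Nat.dvd_add_left h3).1 h)

theorem not_dvd_sum_0 {n : ℕ} (hn : n < P.S) (e : Fin 160 → ℕ) (he : ∀ i, e i ∣ P.N2) :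
    ¬ P.τ (2 * n) ∣ ∑ i, P.cw n i * e i := by
  have hp := P.τ_prime (2 * n) (by omega)
  apply not_dvd_sum_of _ 1
  · intro h
    have : P.cw n 1 = P.τ (2 * n + 1) := by unfold cw; simp
    rw [this] at h
    rcases (Nat.Prime.dvd_mul hp).1 h with h | h
    · exact P.τ_ne hn h
    · exact P.τ_N2 _ (by omega) (h.trans (he 1))
  · intro i hi
    apply Dvd.dvd.mul_right
    unfold cw
    split_ifs
    · exact dvd_rfl
    · exact Dvd.intro _ rfl

theorem not_dvd_sum_1 {n : ℕ} (hn : n < P.S) (e : Fin 160 → ℕ) (he : ∀ i, e i ∣ P.N2) :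
    ¬ P.τ (2 * n + 1) ∣ ∑ i, P.cw n i * e i := by
  have hp := P.τ_prime (2 * n + 1) (by omega)
  apply not_dvd_sum_of _ 0
  · intro h
    have : P.cw n 0 = P.τ (2 * n) := by unfold cw; simp
    rw [this] at h
    rcases (Nat.Prime.dvd_mul hp).1 h with h | h
    · exact P.τ_ne' hn h
    · exact P.τ_N2 _ (by omega) (h.trans (he 0))
  · intro i hi
    apply Dvd.dvd.mul_right
    unfold cw
    split_ifs
    · exact absurd ‹_› hi
    · exact dvd_rfl
    · exact Dvd.intro_left _ rfl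

end Setup

end P012
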