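import Vale.Agent.Lib.P012.StepsA

/-!
# P012 module L8b: blocks of tagged unit fractions, adding a block.
-/

namespace P012

namespace Setup

open Finset

variable (P : Setup)

theorem isTag_block {n : ℕ} (hn : n < P.S) {Z eb : ℕ} (hZ0 : ¬ P.τ (2 * n) ∣ Z)
    (hZ1 : ¬ P.τ (2 * n + 1) ∣ Z) (heb : eb ∣ P.N2) (i : Fin 160) :
    P.IsTag n (Z * eb * P.cb n i) := by
  have p0 := P.τ_prime (2 * n) (by omega)
  have p1 := P.τ_prime (2 * n + 1) (by omega)
  have e0 : ¬ P.τ (2 * n) ∣ eb := fun h => P.τ_N2 _ (by omega) (h.trans heb)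
  have e1 : ¬ P.τ (2 * n + 1) ∣ eb := fun h => P.τ_N2 _ (by omega) (h.trans heb)
  have r0 := P.not_dvd_R0_0 hn
  have r1 := P.not_dvd_R0_1 hn
  have n0 := P.τ_ne hn
  have n1 := P.τ_ne' hn
  constructor
  · unfold cb
    split_ifs
    · left
      intro h
      rcases (Nat.Prime.dvd_mul p0).1 h with h | h
      · rcases (Nat.Prime.dvd_mul p0).1 h with h | h
        · exact hZ0 h
        · exact e0 h
      · rcases (Nat.Prime.dvd_mul p0).1 h with h | h
        · exact n0 h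
        · exact r0 h
    · right
      intro h
      rcases (Nat.Prime.dvd_mul p1).1 h with h | h
      · rcases (Nat.Prime.dvd_mul p1).1 h with h | h
        · exact hZ1 h
        · exact e1 h
      · rcases (Nat.Prime.dvd_mul p1).1 h with h | h
        · exact n1 h
        · exact r1 h
    · left
      intro h
      rcases (Nat.Prime.dvd_mul p0).1 h with h | h
      · rcases (Nat.Prime.dvd_mul p0).1 h with h | h
        · exact hZ0 h
        · exact e0 h
      · exact r0 h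
  · intro j hj h0 h1
    apply Dvd.dvd.mul_left
    have := P.dvd_R0 hj h0 h1
    unfold cb
    split_ifs
    · exact Dvd.dvd.mul_left this _
    · exact Dvd.dvd.mul_left this _
    · exact this

theorem cw_e_inj {n : ℕ} (hn : n < P.S) (e : Fin 160 → ℕ) (he : ∀ i, e i ∣ P.N2 ∧ 1 < e i)
    (hco : ∀ i j, i ≠ j → Nat.Coprime (e i) (e j)) {i j : Fin 160}
    (h : P.cw n i * e i = P.cw n j * e j) : i = j := by
  by_contra hij
  obtain ⟨r, hr, hre⟩ := Nat.exists_prime_and_dvd (n := e i) (by have := (he i).2; omega)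
  have h1 : r ∣ P.cw n j * e j := by rw [← h]; exact Dvd.dvd.mul_left hre _
  rcases (Nat.Prime.dvd_mul hr).1 h1 with h2 | h2
  · rcases P.prime_dvd_cw hn j hr h2 with h3 | h3
    · exact P.τ_N2 (2 * n) (by omega) (h3 ▸ (hre.trans (he i).1))
    · exact P.τ_N2 (2 * n + 1) (by omega) (h3 ▸ (hre.trans (he i).1))
  · have := Nat.Coprime.eq_one_of_dvd ((hco i j hij).coprime_dvd_left hre) h2
    exact hr.one_lt.ne' this

theorem block {n : ℕ} (hn : n < P.S) {Z : ℕ} (hZ : 0 < Z) (hZ0 : ¬ P.τ (2 * n) ∣ Z)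
    (hZ1 : ¬ P.τ (2 * n + 1) ∣ Z) (e : Fin 160 → ℕ) (he : ∀ i, e i ∣ P.N2 ∧ 1 < e i)
    (hco : ∀ i j, i ≠ j → Nat.Coprime (e i) (e j)) :
    ∃ E : Finset ℕ, E.card ≤ 160 ∧ (∀ d ∈ E, 0 < d ∧ P.IsTag n d) ∧
      ∑ d ∈ E, (1 : ℚ) / d = ((∑ i, P.cw n i * e i : ℕ) : ℚ) / ((Z : ℚ) * P.N2 * P.N4) := by
  classical
  have hN2 := P.hN2
  have hN4 := P.N4_pos
  -- cofactors
  have hex : ∀ i, ∃ eb, P.N2 = e i * eb := fun i => (he i).1
  choose eb heb using hex
  have hebpos : ∀ i, 0 < eb i := by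
    intro i
    rcases Nat.eq_zero_or_pos (eb i) with h | h
    · have := heb i; rw [h] at this; omega
    · exact h
  set f : Fin 160 → ℕ := fun i => Z * eb i * P.cb n i with hf
  have hkey : ∀ i, (P.cw n i * e i) * f i = Z * P.N2 * P.N4 := by
    intro i
    have h1 := P.cw_mul_cb hn i
    have h2 := heb i
    simp only [hf]
    calc P.cw n i * e i * (Z * eb i * P.cb n i)
        = Z * (e i * eb i) * (P.cw n i * P.cb n i) := by ring
      _ = Z * P.N2 * P.N4 := by rw [h1, ← h2]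
  have hfpos : ∀ i, 0 < f i := by
    intro i
    have := P.cb_pos hn i
    have := hebpos i
    simp only [hf]; positivity
  have hinj : Function.Injective f := by
    intro i j hij
    apply P.cw_e_inj hn e he hco
    have h1 := hkey i
    have h2 := hkey j
    rw [hij] at h1
    exact Nat.eq_of_mul_eq_mul_right (hfpos j) (h1.trans h2.symm)
  refine ⟨Finset.univ.image f, ?_, ?_, ?_⟩
  · refine Finset.card_image_le.trans ?_
    simp
  · intro d hd
    obtain ⟨i, _, rfl⟩ := Finset.mem_image.1 hd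
    exact ⟨hfpos i, P.isTag_block hn hZ0 hZ1 ⟨e i, by rw [heb i]; ring⟩ i⟩
  · rw [Finset.sum_image (fun i _ j _ h => hinj h)]
    push_cast
    rw [Finset.sum_div]
    apply Finset.sum_congr rfl
    intro i _
    have h1 : ((P.cw n i : ℚ) * e i) * f i = (Z : ℚ) * P.N2 * P.N4 := by exact_mod_cast hkey i
    have h2 : (0 : ℚ) < f i := by exact_mod_cast hfpos i
    have h3 : (0 : ℚ) < (Z : ℚ) * P.N2 * P.N4 := by positivity
    rw [div_eq_div_iff h2.ne' h3.ne']
    linarith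

theorem Fn_mono {m n n' : ℕ} (h : n ≤ n') (H : P.Fn m n) : P.Fn m n' := by
  obtain ⟨D, h1, h2, h3, h4⟩ := H
  refine ⟨D, h1, h2, by omega, ?_⟩
  intro d hd
  rcases h4 d hd with h5 | ⟨s, hs, h5⟩ | h5
  · exact Or.inl h5
  · exact Or.inr (Or.inl ⟨s, by omega, h5⟩)
  · exact Or.inr (Or.inr h5)

theorem Fn_add {m m' n : ℕ} (hn : n < P.S) (H : P.Fn m' n) (E : Finset ℕ)
    (hE0 : ∀ d ∈ E, 0 < d)
    (hEs : ∑ d ∈ E, (1 : ℚ) / d + (m' : ℚ) / P.Nh = (m : ℚ) / P.Nh) (hEc : E.card ≤ 161)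
    (hEt : ∀ d ∈ E, P.IsTag n d ∨ (P.IsMain d ∧ m' * d < P.Nh)) : P.Fn m (n + 1) := by
  classical
  obtain ⟨D, h1, h2, h3, h4⟩ := H
  have hNh : (0 : ℚ) < P.Nh := by exact_mod_cast P.Nh_pos
  have hdisj : Disjoint E D := by
    rw [Finset.disjoint_left]
    intro d hdE hdD
    rcases hEt d hdE with ht | ⟨_, hlt⟩
    · rcases h4 d hdD with h5 | ⟨s, hs, h5⟩ | h5
      · exact h5 (2 * P.S) le_rfl (ht.2 (2 * P.S) le_rfl (by omega) (by omega))
      · have a0 := h5.2 (2 * n) (by omega) (by omega) (by omega)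
        have a1 := h5.2 (2 * n + 1) (by omega) (by omega) (by omega)
        rcases ht.1 with h | h
        · exact h a0
        · exact h a1
      · rcases ht.1 with h | h
        · exact h (h5 _ (by omega))
        · exact h (h5 _ (by omega))
    · have hd0 : (0 : ℚ) < d := by exact_mod_cast h1 d hdD
      have hle : (1 : ℚ) / d ≤ ∑ x ∈ D, (1 : ℚ) / x :=
        Finset.single_le_sum (f := fun x : ℕ => (1 : ℚ) / x) (fun x _ => by positivity) hdD
      rw [h2, div_le_div_iff₀ hd0 hNh] at hle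
      have : (P.Nh : ℚ) ≤ ((m' * d : ℕ) : ℚ) := by push_cast; linarith
      have : P.Nh ≤ m' * d := by exact_mod_cast this
      omega
  refine ⟨E ∪ D, ?_, ?_, ?_, ?_⟩
  · intro d hd
    rcases Finset.mem_union.1 hd with h | h
    · exact hE0 d h
    · exact h1 d h
  · rw [Finset.sum_union hdisj, h2, hEs]
  · rw [Finset.card_union_of_disjoint hdisj]; omega
  · intro d hd
    rcases Finset.mem_union.1 hd with h | h
    · rcases hEt d h with ht | ⟨hm, _⟩
      · exact Or.inr (Or.inl ⟨n, by omega, ht⟩)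
      · exact Or.inl hm
    · rcases h4 d h with h5 | ⟨s, hs, h5⟩ | h5
      · exact Or.inl h5
      · exact Or.inr (Or.inl ⟨s, by omega, h5⟩)
      · exact Or.inr (Or.inr h5)

theorem Fn_base (hJ : P.lam0 ≤ P.J) {m : ℕ} (hm : m < 2 ^ P.lam0) : P.Fn m 0 := by
  classical
  obtain ⟨D0, g1, g2, g3⟩ := rep_two_pow P.lam0 m hm
  have hNh := P.Nh_pos
  have hdJ : ∀ d ∈ D0, ∃ c, P.Nh = d * (c * P.N4) := by
    intro d hd
    obtain ⟨c, hc⟩ := (g1 d hd).trans (pow_dvd_pow 2 hJ)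
    refine ⟨P.b * c * P.N3 * P.N2, ?_⟩
    unfold Nh
    rw [hc]; ring
  have hdpos : ∀ d ∈ D0, 0 < d := by
    intro d hd
    exact Nat.pos_of_dvd_of_pos (g1 d hd) (by positivity)
  have hinj : Set.InjOn (fun d => P.Nh / d) D0 := by
    intro d hd d' hd' h
    simp only at h
    obtain ⟨c, hc⟩ := hdJ d hd
    obtain ⟨c', hc'⟩ := hdJ d' hd'
    have e1 : P.Nh / d = c * P.N4 := by rw [hc]; exact Nat.mul_div_cancel_left _ (hdpos d hd)
    have e2 : P.Nh / d' = c' * P.N4 := by rw [hc']; exact Nat.mul_div_cancel_left _ (hdpos d' hd')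
    rw [e1, e2] at h
    have hpos : 0 < c' * P.N4 := by
      rcases Nat.eq_zero_or_pos (c' * P.N4) with h0 | h0
      · rw [h0] at hc'; omega
      · exact h0
    have : d * (c' * P.N4) = d' * (c' * P.N4) := by rw [← hc', ← h, ← hc]
    exact Nat.eq_of_mul_eq_mul_right hpos this
  refine ⟨D0.image (fun d => P.Nh / d), ?_, ?_, ?_, ?_⟩
  · intro x hx
    obtain ⟨d, hd, rfl⟩ := Finset.mem_image.1 hx
    obtain ⟨c, hc⟩ := hdJ d hd
    exact Nat.div_pos (Nat.le_of_dvd hNh ⟨_, hc⟩) (hdpos d hd)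
  · rw [Finset.sum_image hinj, ← g2]
    push_cast
    rw [Finset.sum_div]
    apply Finset.sum_congr rfl
    intro d hd
    obtain ⟨c, hc⟩ := hdJ d hd
    rw [Nat.cast_div ⟨_, hc⟩ (by have := hdpos d hd; positivity)]
    have : (0 : ℚ) < d := by exact_mod_cast hdpos d hd
    have : (0 : ℚ) < P.Nh := by exact_mod_cast hNh
    field_simp
  · refine Finset.card_image_le.trans ?_
    omega
  · intro x hx
    obtain ⟨d, hd, rfl⟩ := Finset.mem_image.1 hx
    right; right
    intro j hj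
    obtain ⟨c, hc⟩ := hdJ d hd
    have e1 : P.Nh / d = c * P.N4 := by rw [hc]; exact Nat.mul_div_cancel_left _ (hdpos d hd)
    rw [e1]
    exact Dvd.dvd.mul_left (P.τ_dvd_N4 hj) _

end Setup

end P012
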